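import Crest.Agent.X212.G75.Defs
import Crest.Agent.X212.Dfl49.Sur
import Crest.Agent.X212.Lab56.Defs
import Crest.Agent.X212.Line51.Glue
import Crest.Agent.X212.Hol14.Stk
import Crest.Agent.X212.Cyl58.Int

/-!
# Row 212, RFACE: the inside of an `S¹ × S²` wall

`RS` : the inside is `D² × S² # n (-ℂP²)` with its lattice; `DS` : the inside is `S¹ × D³`;
`RN` : the numbers of the two closed manifolds.
-/

set_option autoImplicit false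
set_option linter.unusedSectionVars false
noncomputable section
open Set Function Metric
open scoped ContDiff Manifold InnerProductSpace Real
open Crest.Agent.R208.F (Ext)

namespace Crest.Agent.X212.Rf65
open An M Dr59 G75 Cyl58 Cyf70
open Line51 (Ln Uni ang)
open Lab56 (Sc)

abbrev V3 : Type := EuclideanSpace ℝ (Fin 3)

/-- simply connected sets -/
def SC {X : Type} [TopologicalSpace X] (U : Set X) : Prop :=
  IsPreconnected U ∧ ∀ x ∈ U, Dfl49.Sur {x} U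

/-- `(θ, ϖ)` identifies `(Y, F)` with the product of the unit circle and the unit sphere -/
structure PR {Y : Mf 3} {κ : Type} [Fintype κ] (F : Fr Y.I Y.M κ) (θ : Y.M → Circle)
    (ϖ : Y.M → V3) : Prop where
  nrm : ∀ y, ‖ϖ y‖ = 1
  oe : IsOE (IC Y.I) ((𝓡 1).prod 𝓘(ℝ, V3)) fun p : Y.M × ℝ => (θ p.1, Real.exp p.2 • ϖ p.1)
  surj : ∀ z v, ‖v‖ = 1 → ∃ y, θ y = z ∧ ϖ y = v
  g1 : ∀ y (v w : ℂ), ∑ k, ⟪v, F.D k (fun y => (θ y : ℂ)) y⟫_ℝ * ⟪w, F.D k (fun y => (θ y : ℂ)) y⟫_ℝ =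
    ⟪v, w⟫_ℝ - ⟪v, (θ y : ℂ)⟫_ℝ * ⟪w, (θ y : ℂ)⟫_ℝ
  g2 : ∀ y (v w : V3), ∑ k, ⟪v, F.D k ϖ y⟫_ℝ * ⟪w, F.D k ϖ y⟫_ℝ =
    ⟪v, w⟫_ℝ - ⟪v, ϖ y⟫_ℝ * ⟪w, ϖ y⟫_ℝ
  g12 : ∀ y (v : ℂ) (w : V3), ∑ k, ⟪v, F.D k (fun y => (θ y : ℂ)) y⟫_ℝ * ⟪w, F.D k ϖ y⟫_ℝ = 0

section forms
variable {E H : Type} [NormedAddCommGroup E] [NormedSpace ℝ E] [FiniteDimensional ℝ E]
  [TopologicalSpace H] (I : ModelWithCorners ℝ E H) {N : Type} [TopologicalSpace N]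
  [ChartedSpace H N] [IsManifold I ∞ N]

/-- the pull back of the area form of the unit sphere -/
def ar (ϖ : N → V3) (y : N) : Ext E :=
  ∑ k : Fin 3, ϖ y k • (df I (fun z => ϖ z (k + 1)) y * df I (fun z => ϖ z (k + 2)) y)

/-- a line with a parallel unit section off a compact subset of `U` -/
structure LE {μ : Type} [Fintype μ] (L : Ln E N μ) (U : Set N) : Prop where
  ok : L.On I univ
  fr : ∃ K s, IsCompact K ∧ K ⊆ U ∧ L.Fr I s 0 Kᶜ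

/-- a spin^c structure on `U` with determinant of class `Λ + c` -/
def Ref {lam : Type} [Fintype lam] (p : N → Matrix lam lam ℂ) (U : Set N) (c : N → Ext E) : Prop :=
  ∃ (ι κ : Type) (_ : Fintype ι) (_ : DecidableEq ι) (_ : Fintype κ) (_ : DecidableEq κ)
    (d : Sc I N ι κ), d.On U ∧
    Ex I U (Ln.F I ⟨d.det, 0⟩ - Ln.F I ⟨p, 0⟩ - (2 * π) • c)

end forms

variable {κ lam : Type} [Fintype κ] [Fintype lam] [DecidableEq lam] {Lm : LM κ lam}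
  (S : Scene Lm) (i : S.L) (R : S.A)

/-- the inner end of the band -/
abbrev nE : Set ((S.M.bn R).Y.M × ℝ) := {q | q.2 ∈ Ioo (-1 : ℝ) 0}

/-- a form seen in the band -/
abbrev bd (w : S.X.M → Ext S.X.E) := pm (IC (S.M.bn R).Y.I) S.X.I (S.M.bn R).j w

/-- an `S¹ × S²` wall with the product metric and the trivial line -/
structure RW (θ : (S.M.bn R).Y.M → Circle) (ϖ : (S.M.bn R).Y.M → V3) : Prop where
  np : ¬S.M.pin R
  nl : R ∉ S.ls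
  cmp : ∀ l ∈ S.ls, S.M.sys.Cmp R l
  fz : ∀ a ∈ S.fz, (S.M.sys.w a).band ⊆ (S.M.sys.w R).sd true
  pr : PR (S.M.gY R) θ ϖ
  ln : ∃ p₀, (S.N i).LY R = ⟨fun _ => p₀, 0⟩

open Classical in
/-- the lens walls inside -/
def lsI : Finset S.A := {l ∈ S.ls | hf S.M l false ⊆ (S.M.sys.w R).sd false}

/-- the data inside the wall `R`; `e false`, `e true` are the two pinch walls -/
structure QD (e : Bool → S.A) : Type 1 where
  θ : (S.M.bn R).Y.M → Circle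
  ϖ : (S.M.bn R).Y.M → V3
  ι : Type
  [fι : Fintype ι]
  [dι : DecidableEq ι]
  μ : Type
  [fμ : Fintype μ]
  L : ι → Ln S.X.E S.X.M μ
  Z : Finset ι
  a : ι → ℤ
  η : Bool → S.X.M → Ext S.X.E
  γ : Bool → S.X.M → Ext S.X.E
  α : S.X.M → Ext S.X.E
  x : ℤ

attribute [instance] QD.fι QD.dι QD.fμ

variable {S R} in
/-- the exceptional classes -/
def QD.ε {e : Bool → S.A} (D : QD S R e) (k : D.ι) : S.X.M → Ext S.X.E :=
  (2 * π)⁻¹ • (D.L k).F S.X.I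

variable {S R} in
structure QD.OK {e : Bool → S.A} (D : QD S R e) : Prop extends RW S i R D.θ D.ϖ where
  pin : ∀ b, S.M.pin (e b) ∧ S.M.sys.Cmp R (e b) ∧
    hf S.M (e b) false ⊆ (S.M.sys.w R).sd false
  out : ∀ σ ∈ S.K i, R ∈ σ → ∀ a ∈ σ, a = R ∨ (∃ b, a = e b) ∨
    (S.M.sys.w a).band ⊆ (S.M.sys.w R).sd true
  sc : SC ((S.M.sys.w R).sd false)
  sc' : ∀ b, SC ((S.M.sys.w R).sd false ∩ (S.M.sys.w (e b)).sd true)
  le : ∀ k, LE S.X.I (D.L k) ((S.M.sys.w R).sd false)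
  gram : ∀ k l, ip S.X.I S.M.o (D.ε k) (D.ε l) = if k = l then -1 else 0
  lam : ∀ k, |ip S.X.I S.M.o (Ln.F S.X.I ⟨(S.N i).p, 0⟩) (D.ε k) / (2 * π)| =
    if k ∈ D.Z then 0 else 1
  a1 : ∀ k ∈ D.Z, |D.a k| = 1
  card : D.Z.card = 1 + (lsI S R).card ∧ D.Z.card ≤ 2
  cut : ∀ l ∈ lsI S R, ∀ k ∈ D.Z, Hol14.flux S.X.I (S.cut l i) (D.ε k) = D.a k
  clη : ∀ b, Cl S.X.I 2 ((S.M.sys.w R).sd false) (D.η b)
  η0 : ∀ b, ∀ z ∈ hf S.M (e b) false, D.η b z = 0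
  ηE : ∀ b, EqOn (bd S R (D.η b)) (ar (IC (S.M.bn R).Y.I) fun q => D.ϖ q.1) (nE S R)
  span : ∀ w, Cl S.X.I 2 ((S.M.sys.w R).sd false) w → ∃ (c : D.ι → ℝ) (r : ℝ),
    Ex S.X.I ((S.M.sys.w R).sd false) (w - ∑ k, c k • D.ε k - r • D.η false)
  csγ : ∀ b, Cs S.X.I 2 ((S.M.sys.w (e b)).sd false) (D.γ b)
  exγ : Ex S.X.I ((S.M.sys.w R).sd false) (D.γ false - ∑ k ∈ D.Z, (D.a k : ℝ) • D.ε k)
  smα : Dr59.Sm S.X.I ((S.M.sys.w R).sd false) D.α ∧ Dg 1 ((S.M.sys.w R).sd false) D.α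
  dα : EqOn (dM S.X.I D.α) (D.γ false - D.γ true) ((S.M.sys.w R).sd false)
  αE : EqOn (bd S R D.α) ((D.x / (2 * π) : ℝ) • ang (IC (S.M.bn R).Y.I) fun q => D.θ q.1) (nE S R)
  odd : Odd D.x
  ref : Ref S.X.I (S.N i).p ((S.M.sys.w R).sd false) (D.γ false)
  int : ∀ (n : Type) [Fintype n] [DecidableEq n] (L : Ln S.X.E S.X.M n), L.On S.X.I ((S.M.sys.w R).sd false) →
    ∀ k, ∃ m : ℤ, ip S.X.I S.M.o (L.F S.X.I) (D.ε k) = 2 * π * m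
  num : ∀ b β sg l2, S.Nb i ((S.M.sys.w (e b)).sd false) β sg l2 → β = 1 ∧ l2 - sg = D.Z.card

/-- **`G75.Th.RS`** -/
def RS (e e' : S.A) : Prop := ∃ D : QD S R fun b => cond b e' e, D.OK i

/-- the chart of the inside `S¹ × D³` -/
structure DD (θ : (S.M.bn R).Y.M → Circle) (ϖ : (S.M.bn R).Y.M → V3)
    (Ξ : PartialDiffeomorph ((𝓡 1).prod 𝓘(ℝ, V3)) S.X.I (Circle × V3) S.X.M ∞) (ρ : ℝ → ℝ) (r : ℝ) :
    Prop extends RW S i R θ ϖ where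
  out : ∀ σ ∈ S.K i, R ∈ σ → ∀ a ∈ σ, a = R ∨ (S.M.sys.w a).band ⊆ (S.M.sys.w R).sd true
  ls : ∀ l ∈ S.ls, hf S.M l false ⊆ (S.M.sys.w R).sd true
  up : Up ρ univ
  pos : ∀ s, ρ s ∈ Ioo 0 r
  src : univ ×ˢ ball 0 r ⊆ Ξ.source
  jj : ∀ q, (S.M.bn R).j q = Ξ (θ q.1, ρ q.2 • ϖ q.1)
  sd : (S.M.sys.w R).sd false = Ξ '' (univ ×ˢ ball 0 (ρ 0))
  mrk : ∃ s v, Uni S.X.I (fun _ => (1 : Matrix Unit Unit ℂ)) (S.N i).p s (hf S.M R false) ∧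
    ∀ q : (S.M.bn R).Y.M × ℝ, |q.2| ≤ 3 → (S.N i).m R q * s ((S.M.bn R).j q) = v
  ref : Ref S.X.I (S.N i).p ((S.M.sys.w R).sd false) 0

/-- **`G75.Th.DS`** -/
def DS : Prop := ∃ θ ϖ Ξ ρ r, DD S i R θ ϖ Ξ ρ r

/-- the numbers of the two closed manifolds -/
def RN (S' : Scene Lm) (i' : S'.L) : Prop :=
  ∀ β sg l2 β' sg' l2', S.Nb i univ β sg l2 → S'.Nb i' univ β' sg' l2' →
    β = β' + 1 ∧ l2 - sg = l2' - sg' + 1 + ((S.ls.card : ℝ) - S'.ls.card)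

end Crest.Agent.X212.Rf65
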