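import Crest.Agent.X212.Rf65.Pt
import Crest.Agent.X212.Nd18.Gj
import Crest.Agent.X212.Gl67.Leaf

/-!
# Row 212, RFACE: the leaves at the faces with walls of positive scalar curvature

Job level: `AnH` (analysis on `Z c`), `H1` ⇒ strata of the first stage, `H2` ⇒ final strata.
Scene level: the class `GX`, the inputs of the numerical leaves.
-/

set_option autoImplicit false
set_option linter.unusedSectionVars false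
noncomputable section
open scoped Manifold ContDiff Topology InnerProductSpace
open MeasureTheory Set Function Filter

namespace Crest.Agent.X212.Rf65
open An M Nd18 Mod61 Nk89 Cht98 Rdc90
open An.Job (Sol SolOn StrOn Str)

section job
variable {Wi : Type} {X : Mf 4} {A κ lam : Type} [Fintype A] [Fintype κ] [Fintype lam]
  [DecidableEq lam] {M : Mark X A κ} {W : World M} {N : ML M lam} {Λ : Lns W N}
  {A' h : Type} [Fintype A'] [DecidableEq A'] [Fintype h] {r n : ℕ}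
  {J : Job Wi Λ A' h r n} {c : M.Cl}

/-! ### pieces without spinor -/

/-- almost anti-self-dual on the piece -/
structure EA (ε : ℝ) (y : J.Obc c) (π : Reg A) : Prop where
  int : IntegrableOn (fun z => ‖y.x.m.Fg (J.G c y.s).F y.x.W z‖ ^ 2) (W.pc c π) (J.G c y.s).F.μ
  le : ∫ z in W.pc c π, ‖y.x.m.p2 (J.B c) z (y.x.m.Fg (J.G c y.s).F y.x.W z)‖ ^ 2 ∂(J.G c y.s).F.μ ≤
    ε ^ 2 * ∫ z in W.pc c π, ‖y.x.m.Fg (J.G c y.s).F y.x.W z‖ ^ 2 ∂(J.G c y.s).F.μ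

/-- flat on the piece -/
def Fl (y : J.Obc c) (π : Reg A) : Prop := ∀ z ∈ W.pc c π, y.x.m.Fg (J.G c y.s).F y.x.W z = 0

/-- a parallel unit section on the piece -/
def Un (y : J.Obc c) (π : Reg A) : Prop :=
  ∃ ξ, ParS (J.G c y.s).F y.x.con (W.pc c π) ξ ∧ ∀ z ∈ W.pc c π, ‖ξ z‖ = 4

/-- `z` fills the piece `π` inside the wall `a` along the outer limit of `y` -/
structure Fil (δ ε : ℝ) (y z : J.Obc c) (a : A) (π : Reg A) : Prop where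
  s : z.s = y.s
  go : Go δ z {π}
  ta : z.TA π
  ea : EA ε z π
  un : Un z π
  pos : 0 ≤ z.kap (W.pc c π)
  eqv : (J.xs a).D.Eqv (y.β a true) (z.β a false)

variable (J c) (δ ε : ℝ) (sh : Set A') (σ : Cel A') (Adm : (Wi →₀ ℝ) → Prop) (n₀ : ℤ)

/-- pieces without spinor and without neck terms -/
def EpsAt : Prop := ∀ σ ∈ J.𝒦, ∀ (c : M.Cl) q (y : J.Obc c) π, Adm q → Sol σ q y →
  M.sys.Piece c.1 π → ¬y.TF π → (∀ a, a ∈ M.sys.inn π ∨ π a ≠ none → Nl J a) →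
  EA ε y π ∧ 0 ≤ y.kap (W.pc c π) ∧ (y.kap (W.pc c π) = 0 → Fl y π)

/-- **LEAF EPS** -/
def Eps : Prop := J.OK → (∀ w, Wrd81.Bas (J.tw w)) → ∀ ε > 0, Sml fun Adm => EpsAt J ε Adm

/-- **LEAF ISO**: strong limits and isomorphisms -/
def IsoL : Prop := J.OK → ∀ σ ∈ J.𝒦, ∀ q (y : J.Obc c), Sol σ q y →
  (∀ (α : Type) (l : Filter α), Str l (fun _ => y) y) ∧ ∀ y', Sol σ q y' → y.Tight → y'.Tight →
    Job.Iso y y' → (∀ π, y.TF π → y'.TF π) ∧ (∀ π ∈ Pc c, y.TA π → y'.TA π) ∧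
      (∀ a ∈ cylW c, ∀ b, (J.xs a).D.Eqv (y.β a b) (y'.β a b)) ∧
      ∀ (α : Type) (l : Filter α) (z : α → J.Obc c), (∀ᶠ i in l, ∃ q', Sol σ q' (z i)) →
        Str l z y → Str l z y'

/-! ### the analysis on `Z c` -/

structure An0 : Prop where
  spl : SplAt J c δ
  dec : DecAt J c δ
  pt : PtAt J c δ
  sym : Sym93.Sym J c

/-- all inputs that do not depend on the perturbation -/
structure AnH : Prop extends An0 J c δ where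
  d0 : 0 < δ
  ok : J.OK
  loc : LocP J sh
  r0 : r ≠ 0
  pj : PJ J c
  noz : An0 J.noz c δ
  wl : ∀ a, WlStmt (J.xs a).D
  ab : ∀ a ∈ cylW c, ∀ β, Bs (J.xs a).D β → dz (J.xs a).D β ≠ 0
  dead : J.Dead c
  lin : J.LinCl c
  ccl : Ccl J c σ
  iso : IsoL J c
  mem : σ ∈ J.𝒦

/-- the faces (`Mdl.Fa`) -/
def Fa : Prop := n₀ + Job.dim σ = 1 ∧ c.1 ⊆ cylW c ∧ ∃ a ∈ J.wa σ, c = J.cf a

/-- the faces of the first stage -/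
def Fa1 : Prop := c.1 ⊆ cylW c ∧ ∃ a ∈ J.wa σ, c = J.cf a

/-- the ends without harmonic forms -/
def zw : Set (Ed c) := {i | ∀ β, Bs (J.xs i.1).D β → dh (J.xs i.1).D β = 0}

/-- the type of the limits on a face -/
abbrev muF (P : Set (Reg A)) := mu P (zw J c) (cylW c)

/-- the outer part is regular -/
abbrev RegO (q : Wi →₀ ℝ) (y : J.Obc c) (x : A) : Prop :=
  RegP δ σ (pO J c sh σ x) (muF J c {hp x true}) q y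

/-- the whole face is regular -/
abbrev RegW (q : Wi →₀ ℝ) (y : J.Obc c) (x : A) : Prop :=
  RegP δ σ (pW J c sh σ x) (muF J c {hp x true, hp x false}) q y

/-- face objects that are abelian inside -/
def FA (y : J.Obc c) (x : A) : Prop :=
  Fc J c σ n₀ y x ∧ ¬y.TF (hp x false) ∧ y.TA (hp x false)

/-- the inputs of the first stage -/
structure H1 : Prop extends AnH J c δ sh σ where
  fin : J.FinE σ c Adm
  rch : Rch J c σ Adm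
  kill : Kill J c δ sh σ Adm n₀
  num : FNum J c δ sh σ Adm n₀

/-- every ideal solution is a face object, regular outside if there is no spinor inside -/
def G1 (q : Wi →₀ ℝ) : Prop := ∀ y : J.Obc c, Sol σ q y → ¬y.Top →
  ∃ x, Fc J c σ n₀ y x ∧
    (¬y.TF (hp x false) → Ok δ y (pO J c sh σ x) ∧ RegO J c δ sh σ q y x)

/-- **STAGE 1** (helper65) -/
def Stra1 : Prop := H1 J c δ sh σ Adm n₀ → ∃ T : J.Stra c,
  T.Ax Adm σ Job.Obc.Top (Fa1 J c σ) ∧ ∀ s q y, T.face s → Adm q → Sol σ q y → T.mem s y →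
    ∃ x, Fc J c σ n₀ y x ∧ (T.Reg s q y → ¬y.TF (hp x false) →
      Ok δ y (pO J c sh σ x) ∧ RegO J c δ sh σ q y x)

/-- compactness of the tight solutions at `q₀` -/
def Cg (q₀ : Wi →₀ ℝ) : Prop := ∀ (α : Type) (𝒰 : Ultrafilter α) (q : α → Wi →₀ ℝ)
  (y : α → J.Obc c), St.Cv (𝒰 : Filter α) q q₀ →
  (∀ᶠ k in (𝒰 : Filter α), Adm (q k) ∧ Sol σ (q k) (y k)) → ∃ y₀, Sol σ q₀ y₀ ∧ Str 𝒰 y y₀

variable (Tr : (Wi →₀ ℝ) → J.Obc c → Prop)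

/-- **LEAF COK**: no cokernel inside a wall without terms -/
def CokL : Prop := ∀ q y x, Adm q → Sol σ q y → Fc J c σ n₀ y x → RT J c σ (hp x false) ∨
  Cok δ σ (pV J c sh σ x) (muF J c {hp x true, hp x false}) q y (hp x false)

/-- **LEAF UQ**: abelian face objects near a transverse one are unique -/
def UqL : Prop := ∀ q₀ y₀ x, Adm q₀ → Sol σ q₀ y₀ → FA J c σ n₀ y₀ x → RegO J c δ sh σ q₀ y₀ x →
  n₀ + Job.dim σ = 1 → Tr q₀ y₀ → ∀ (α : Type) (𝒰 : Ultrafilter α) (q : α → Wi →₀ ℝ) (y y' : α → J.Obc c),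
    St.Cv (𝒰 : Filter α) q q₀ → (∀ᶠ k in (𝒰 : Filter α), Adm (q k) ∧ (Sol σ (q k) (y k) ∧
      FA J c σ n₀ (y k) x) ∧ Sol σ (q k) (y' k) ∧ FA J c σ n₀ (y' k) x) →
    Str 𝒰 y y₀ → Str 𝒰 y' y₀ → ∀ᶠ k in (𝒰 : Filter α), Job.Iso (y k) (y' k)

/-- **LEAF NT**: a transverse abelian face object becomes regular after a small perturbation -/
def NtL : Prop := ∀ q y x, Adm q → Sol σ q y → FA J c σ n₀ y x → RegO J c δ sh σ q y x →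
  n₀ + Job.dim σ = 1 → Tr q y → ∀ (b : Bp J c) (E : EC b (pW J c sh σ x) _ δ) x' ψ,
    E.Gd σ (muF J c {hp x true, hp x false}) q y x' ψ → ∃ qq : ℕ → Wi →₀ ℝ, St.Cv atTop qq q ∧
      ∀ᶠ k in atTop, Sol σ (qq k) y ∧ E.Reg (qq k) x' ψ

/-- **LEAF TR**: transversality inside is generic -/
def TrL : Prop := ∀ G, Low.Ax ⟨Adm, G⟩ → (∀ q, G q → G1 J c δ sh σ n₀ q ∧ Cg J c σ Adm q) →
  Gen Adm fun q => ∀ y x, Sol σ q y → FA J c σ n₀ y x → n₀ + Job.dim σ = 1 ∧ Tr q y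

/-- the inputs of the second stage -/
structure H2 : Prop extends H1 J c δ sh σ Adm n₀ where
  cok : CokL J c δ sh σ Adm n₀
  uq : UqL J c δ sh σ Adm n₀ Tr
  nt : NtL J c δ sh σ Adm n₀ Tr
  tr : TrL J c δ sh σ Adm n₀ Tr

/-- **STAGE 2** (helper65) -/
def Stra2 : Prop := H2 J c δ sh σ Adm n₀ Tr → ∀ G, Low.Ax ⟨Adm, G⟩ →
  (∀ q, G q → G1 J c δ sh σ n₀ q ∧ (c ≠ M.c0 → Cg J c σ Adm q)) →
  ∃ (T : J.Stra c) (G' : (Wi →₀ ℝ) → Prop), Low.Ax ⟨Adm, G'⟩ ∧ ∀ A, (∀ q, A q → G' q) →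
    T.Ax A σ Job.Obc.Top (Fa J c σ n₀) ∧ ∀ s q y, T.face s → A q → Sol σ q y → T.mem s y →
      ∃ x, FA J c σ n₀ y x ∧ Ok δ y (pO J c sh σ x) ∧ RegO J c δ sh σ q y x ∧
        RegW J c δ sh σ q y x ∧ Tr q y

end job

section wall
variable {Wi : Type} {X : Mf 4} {A κ lam : Type} [Fintype A] [Fintype κ] [Fintype lam]
  [DecidableEq lam] {M : Mark X A κ} {W : World M} {N : ML M lam} {Λ : Lns W N}
  {A' h : Type} [Fintype A'] [DecidableEq A'] [Fintype h] {r n : ℕ} (J : Job Wi Λ A' h r n)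

/-- the wall data of the gluing theorem -/
def WallL (a : A') (δ : ℝ) (sh : Set A') (σ : Cel A') (n₀ : ℤ) : Prop :=
  AnH J (J.cf a) δ sh σ → W.Nrm → Λ.Nrm → a ∈ J.wa σ → ∀ q y x, Sol σ q y →
  FA J (J.cf a) σ n₀ y x → RegW J (J.cf a) δ sh σ q y x → J.unc (J.cf a) = univ →
  n₀ + Job.dim σ = 1 →
  dz (J.xs x).D (y.β x true) = 1 → dmy δ y (pW J (J.cf a) sh σ x) = 2 →
  (∀ a', σ a' = none → a' ≠ a → y.s a' ∈ Ioo (0 : ℝ) 1) →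
  ∃ (U Up R : Gj67.FD) (d : Gj67.Dat J σ a U.V Up.V R.V) (δ' : ℝ), Job.Iso d.y y ∧ d.Wall q δ' 8

/-- **LEAF WALL** (row 6713) -/
def WallStmt (a : A') : Prop := J.OK → PJ J (J.cf a) →
  ∃ δ₀ > 0, ∀ δ ∈ Ioc 0 δ₀, ∀ sh σ n₀, WallL J a δ sh σ n₀

end wall

/-! ### scenes -/

section scene
open G75 Ins26 Jb7
open Br55 (NC)
variable {κ lam : Type} [Fintype κ] [Fintype lam] [DecidableEq lam] {Lm : LM κ lam}
  {S : Scene Lm} {D : S.Dat} {i : S.L} {Wi : Type} {r n : ℕ}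

variable (S) in
/-- the shared coordinates -/
def shX (X : Finset S.A) : Set (S.A ⊕ Unit) := {a | ∀ x ∈ hard S X, a ≠ .inl x}

open Classical in
/-- **the generic class** with the further hard walls `X` (`Nd18.GJ` : `X = ∅`) -/
structure GX (J : Job Wi (D.Λ i) (S.A ⊕ Unit) S.ls r n) (X : Finset S.A) (a₀ : Option S.A) (j : ℕ)
    (n₀ : ℤ) (T : ℝ) : Prop where
  sc : S.OK
  ok : J.OK
  loc : LocP J (shX S X)
  r : r = j + 1 + n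
  k : J.k = kz S i j n₀
  ct : J.ct = S.ct i
  nb : J.nb = S.nb
  hd : J.hd = Sum.elim (fun a => if a ∈ hard S X then some a else none) fun _ => a₀
  fz : ∀ a ∈ a₀, a ∈ S.fz
  nil : ∀ a ∉ a₀, Nl J a
  ν : ∀ a s, J.ν a s ∈ Icc (0 : ℝ) 1
  cell : ∀ σ' ∈ J.𝒦, ∃ τ o σ, σ' = cel τ o ∧ τ ⊆ σ ∧ σ ∈ S.K i ∧ NC S i σ ∧ ↑τ ⊆ hard S X ∧
    n₀ + σ.card + sf o ≤ 1
  par : ∀ τ o, cel τ o ∈ J.𝒦 → ∀ s ∈ Job.cl (cel τ o), S.Pt τ T (J.Θ s).2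
  rich : ∀ σ' ∈ J.𝒦, ∀ s ∈ Job.cl σ', ∀ c : S.M.Cl, Sys.inf (J.Θ s).2 = c.1 → (∀ a ∈ a₀, a ∉ c.1) →
    J.RichS s ∧ ∀ π, S.M.sys.Piece c.1 π → ((∀ l ∈ S.ls, π l ≠ some false) → J.RichT s π) ∧
      ∀ l, S.nb l ⊆ S.M.sys.U π → J.RichC s π l
  van : ∀ σ' ∈ J.𝒦, ∀ s ∈ Job.cl σ', ∀ l : S.ls, s (.inl l) = 1 → ∀ w,
    (J.co w s ≠ 0 → Wrd81.TmIn S.X.I ((S.M.sys.w l).sd true) (J.tw w)) ∧
    ∀ l' ≠ l, J.cc l' w s ≠ 0 → XiIn S.X.I ((S.M.sys.w l).sd true) (J.tc l' w).ξ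

theorem GX.of {J : Job Wi (D.Λ i) (S.A ⊕ Unit) S.ls r n} {a₀ : Option S.A} {j : ℕ} {n₀ : ℤ} {T : ℝ}
    (h : GJ J a₀ j n₀ T) : GX J ∅ a₀ j n₀ T :=
  { h with cell := fun σ' k => let ⟨τ, o, σ, a, b, c, d, e, f⟩ := h.cell σ' k
      ⟨τ, o, σ, a, b, c, d, (Finset.coe_subset.2 b).trans e, f⟩ }

section add
variable {W : World S.M} {Λ : Lns W (S.N i)} {A' h : Type} [Fintype A'] [DecidableEq A'] [Fintype h]
  (J : Job Wi Λ A' h r n) (c : S.M.Cl) (δ : ℝ)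

/-- the body of `Add` -/
def AddAt : Prop := ∀ σ ∈ J.𝒦, ∀ s, J.Ov σ c s → ∀ (c₀ : S.M.Cl) π₀,
  c₀.1 = {a ∈ c.1 | S.M.pin a} →
  S.M.sys.Piece c₀.1 π₀ → ∀ β sg l2, S.Nb i (S.M.sys.U π₀) β sg l2 →
  ∀ (y : Reg S.A → J.Obc c) (γ : ∀ a, YC (J.xs a).Y.M κ (lam ⊕ lam)),
    (∀ ρ, S.In c π₀ ρ → (y ρ).s = s ∧ Go δ (y ρ) {ρ} ∧ ∀ a ∈ cylW c, ∀ b, ρ a = some b →
      Bs (J.xs a).D (γ a) ∧ (J.xs a).D.Eqv (γ a) ((y ρ).β a b)) →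
    let k := ∑ᶠ ρ ∈ {ρ | S.In c π₀ ρ}, (y ρ).kap (W.pc c ρ)
    (∑ᶠ ρ ∈ {ρ | S.In c π₀ ρ}, (ia δ (y ρ) ρ : ℝ)) = 8 * k - 3 * β +
      ∑ᶠ a ∈ cylW c ∩ S.M.sys.inn π₀, ((dz (J.xs a).D (γ a) : ℝ) - dh (J.xs a).D (γ a)) ∧
    (∑ᶠ ρ ∈ {ρ | S.In c π₀ ρ}, (idr δ (y ρ) ρ : ℝ)) = -2 * k + (l2 - sg) / 2 ∧
    ∃ m : ℤ, k = (l2 - sg) / 4 + m

theorem Add.at (H : Add J c) (hJ : J.OK) (hP : PJ J c) :
    ∃ δ₀ > 0, ∀ δ ∈ Ioc 0 δ₀, SplAt J c δ → AddAt J c δ := H hJ hP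

end add

variable (J : Job Wi (D.Λ i) (S.A ⊕ Unit) S.ls r n) (c : S.M.Cl) (δ : ℝ) (Adm : (Wi →₀ ℝ) → Prop)

open Classical in
/-- the inside of a broken lens wall -/
def LixAt : Prop := (∀ l ∈ S.ls, PY (J.xs l).D 0) ∧ ∀ σ ∈ J.𝒦, ∀ q (y : J.Obc c) (l : S.ls), Adm q → Sol σ q y → l.1 ∈ c.1 →
  ¬y.TF (hp l.1 false) ∧ ∃ (z : J.Obc c) (e : ℕ), Fil δ 0 y z l (hp l.1 false) ∧
    y.kap (D.W.pc c (hp l.1 false)) + y.k l = z.kap (D.W.pc c (hp l.1 false)) + e ∧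
    let m : ℤ := e + if l ∈ y.H then 0 else 1
    1 ≤ ia δ z (hp l.1 false) + 8 * m ∧ 2 ≤ ia δ z (hp l.1 false) + idr δ z (hp l.1 false) + 6 * m ∧
    (ia δ z (hp l.1 false) + idr δ z (hp l.1 false) + 6 * m = 2 → m = 0 ∧ y.j l = 0 ∧
      dz (J.xs l).D (y.β l true) = 1 ∧ idr δ z (hp l.1 false) = 0 ∧
      z.kap (D.W.pc c (hp l.1 false)) = 1 / 4)

/-- the level inside a regular abelian face object -/
def Q4 (sh : Set (S.A ⊕ Unit)) (σ : Cel (S.A ⊕ Unit)) (n₀ : ℤ) : Prop :=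
  ∀ q y x, Adm q → Sol σ q y → FA J c σ n₀ y x → RegO J c δ sh σ q y x →
    y.kap (D.W.pc c (hp x false)) = 1 / 4 ∧ n₀ + Job.dim σ = 1

variable (Lm)

/-- **LEAF LY**: the cross-sections of lens walls -/
def LyStmt : Prop := ∀ (S : Scene Lm) (D : S.Dat) i Wi r n
  (J : Job Wi (D.Λ i) (S.A ⊕ Unit) S.ls r n), S.OK → J.OK → ∀ l ∈ S.ls,
  PY (J.xs l).D 0 ∧ ∀ β, Bs (J.xs l).D β → dz (J.xs l).D β ≠ 0

/-- a property of all jobs of the class, faces without `a₀`, small weights and perturbations -/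
def AllG (P : ∀ (S : Scene Lm) (D : S.Dat) i Wi r n (J : Job Wi (D.Λ i) (S.A ⊕ Unit) S.ls r n)
    (_ : Finset S.A) (_ : ℤ) (_ : S.M.Cl) (_ : ℝ) (_ : (Wi →₀ ℝ) → Prop), Prop) : Prop :=
  ∀ (S : Scene Lm) (D : S.Dat) i Wi r n (J : Job Wi (D.Λ i) (S.A ⊕ Unit) S.ls r n) X a₀ j n₀ T
    (c : S.M.Cl), GX J X a₀ j n₀ T → (∀ a ∈ a₀, a ∉ c.1) → PJ J c →
    ∃ δ₀ > 0, ∀ δ ∈ Ioc 0 δ₀, Sml fun Adm => P S D i Wi r n J X n₀ c δ Adm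

/-- **LEAF LIX** -/
def LixStmt : Prop := AllG Lm fun _ _ _ _ _ _ J _ _ c δ Adm =>
  SplAt J c δ → DecAt J c δ → AddAt J c δ → LixAt J c δ Adm

/-- **LEAVES COK, UQ, NT at lens faces** -/
def LfStmt (P : ∀ {S : Scene Lm} {D : S.Dat} {i Wi r n} (J : Job Wi (D.Λ i) (S.A ⊕ Unit) S.ls r n)
    (_ : S.M.Cl) (_ : ℝ) (_ : Set (S.A ⊕ Unit)) (_ : Cel (S.A ⊕ Unit)) (_ : (Wi →₀ ℝ) → Prop) (_ : ℤ),
    Prop) : Prop := AllG Lm fun S _ _ _ _ _ J X n₀ c δ Adm => ∀ σ, cylW c ⊆ S.ls →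
  H1 J c δ (shX S X) σ Adm n₀ → LixAt J c δ Adm → Q4 J c δ Adm (shX S X) σ n₀ →
  P J c δ (shX S X) σ Adm n₀

def CokStmt : Prop := LfStmt Lm fun J c δ sh σ Adm n₀ => CokL J c δ sh σ Adm n₀
def UqStmt : Prop := LfStmt Lm fun J c δ sh σ Adm n₀ => UqL J c δ sh σ Adm n₀ fun _ _ => True
def NtStmt : Prop := LfStmt Lm fun J c δ sh σ Adm n₀ => NtL J c δ sh σ Adm n₀ fun _ _ => True

/-- **LEAF SUM**: the numbers of the regions -/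
def SumStmt : Prop := ∀ (S : Scene Lm) i (c₀ : Finset S.A) (β sg l2 : Reg S.A → ℝ) b s l,
  S.M.sys.Cell ↑c₀ → (∀ a ∈ c₀, S.M.pin a) → S.Nb i univ b s l →
  (∀ π, S.M.sys.Piece ↑c₀ π → S.Nb i (S.M.sys.U π) (β π) (sg π) (l2 π)) →
  ∑ᶠ π ∈ {π | S.M.sys.Piece ↑c₀ π}, β π = b + c₀.card ∧
    ∑ᶠ π ∈ {π | S.M.sys.Piece ↑c₀ π}, (l2 π - sg π) = l - s

/-- **LEAF ABW**: `Scene.Ab` for pasted objects -/
def AbwStmt : Prop := ∀ (S : Scene Lm) i σ c₀ π₀ P, S.Ab i σ c₀ π₀ P → ∃ ε > 0,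
  ∀ᶠ T in 𝓝[<] (1 : ℝ), ∀ (D : S.Dat) Wi r n (J : Job Wi (D.Λ i) (S.A ⊕ Unit) S.ls r n)
    (c : S.M.Cl) δ s (y : Reg S.A → J.Obc c) (γ : ∀ a, YC (J.xs a).Y.M κ (lam ⊕ lam)), J.OK → 0 < δ →
    (∀ a, a ∈ c₀ ↔ a ∈ c.1 ∧ (S.M.pin a ∨ a ∈ S.fz)) → S.Pt σ T (J.Θ s).2 →
    Sys.inf (J.Θ s).2 = c.1 → cylW c ⊆ J.m.1 → S.M.sys.Piece ↑c₀ π₀ →
    (∀ ρ, S.In c π₀ ρ → (y ρ).s = s ∧ Go δ (y ρ) {ρ} ∧ (y ρ).TA ρ ∧ EA ε (y ρ) ρ ∧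
      (∀ a ∈ cylW c, ∀ b, ρ a = some b → a ∈ S.M.sys.inn π₀ →
        Bs (J.xs a).D (γ a) ∧ (J.xs a).D.Eqv (γ a) ((y ρ).β a b)) ∧
      ∀ a ∈ c.1, a ∈ S.M.sys.inn π₀ → S.M.sys.U ρ ⊆ (S.M.sys.w a).sd false → Un (y ρ) ρ) →
    P (∑ᶠ ρ ∈ {ρ | S.In c π₀ ρ}, (y ρ).kap (D.W.pc c ρ))

/-- **LEAF KILL-LENS** (from SUM, ABW) -/
def KlStmt : Prop := ∀ S : Scene Lm, ∃ K₀ : ℝ, ∃ ε > 0, ∀ᶠ T in 𝓝[<] (1 : ℝ),
  ∀ j (n₀ : ℤ) (D : S.Dat) i Wi r n (J : Job Wi (D.Λ i) (S.A ⊕ Unit) S.ls r n) X a₀ (c : S.M.Cl) δ σ Adm,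
    GX J X a₀ j n₀ T → (∀ a ∈ a₀, a ∉ c.1) → cylW c ⊆ S.ls → AnH J c δ (shX S X) σ →
    AddAt J c δ → LixAt J c δ Adm → EpsAt J ε Adm → NK J Adm K₀ →
    Rch J c σ Adm ∧ Kill J c δ (shX S X) σ Adm n₀ ∧ FNum J c δ (shX S X) σ Adm n₀ ∧
      Q4 J c δ Adm (shX S X) σ n₀

end scene
end Crest.Agent.X212.Rf65
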