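import Crest.Agent.X212.Rf65.Imm
import Crest.Agent.X212.Wz78.Kos
import Crest.Agent.X212.Tmp64.Sq

/-! Row 212 (helper65): metrics which are locally `(round sphere) × (flat)`, with the flat
directions spanned by global parallel one-forms `ν i`. -/

set_option autoImplicit false
set_option linter.unusedSectionVars false
noncomputable section
open scoped Manifold ContDiff Topology InnerProductSpace
open Function Filter Finset

namespace Crest.Agent.X212.Rf65
open An Wz78 Sob92 Cyf70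

section alg
variable {ι η V : Type*} [Fintype ι] [Fintype η] [DecidableEq η] [NormedAddCommGroup V]
  [InnerProductSpace ℝ V] {n : η → ι → ℝ}

theorem pyth (h : ∀ i j, ∑ a, n i a * n j a = if i = j then 1 else 0) (w : ι → V) :
    ∑ b, ‖w b - ∑ i, n i b • ∑ l, n i l • w l‖ ^ 2 =
      ∑ b, ‖w b‖ ^ 2 - ∑ i, ‖∑ l, n i l • w l‖ ^ 2 := by
  set c : η → V := fun i => ∑ l, n i l • w l with hc
  have h1 : ∑ b, ⟪w b, ∑ i, n i b • c i⟫_ℝ = ∑ i, ‖c i‖ ^ 2 := by
    simp only [inner_sum, real_inner_smul_right]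
    rw [sum_comm]
    refine sum_congr rfl fun i _ => ?_
    rw [← real_inner_self_eq_norm_sq]
    conv_rhs => rw [hc]
    simp only [sum_inner, real_inner_smul_left, hc]
  have h2 : ∑ b, ‖∑ i, n i b • c i‖ ^ 2 = ∑ i, ‖c i‖ ^ 2 := by
    simp only [← real_inner_self_eq_norm_sq, sum_inner, inner_sum, real_inner_smul_left,
      real_inner_smul_right, ← mul_assoc]
    rw [sum_comm]
    refine sum_congr rfl fun i _ => ?_
    rw [sum_comm]
    simp [← sum_mul, h]
  simp only [norm_sub_sq_real, sum_add_distrib, sum_sub_distrib, ← mul_sum]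
  change _ - 2 * ∑ b, ⟪w b, ∑ i, n i b • c i⟫_ℝ + ∑ b, ‖∑ i, n i b • c i‖ ^ 2 = _ - ∑ i, ‖c i‖ ^ 2
  rw [h1, h2]; ring

theorem bessel (h : ∀ i j, ∑ a, n i a * n j a = if i = j then 1 else 0) (w : ι → V) :
    ∑ i, ‖∑ l, n i l • w l‖ ^ 2 ≤ ∑ b, ‖w b‖ ^ 2 :=
  sub_nonneg.1 (pyth h w ▸ sum_nonneg fun _ _ => sq_nonneg _)

end alg

variable {E : Type} [NormedAddCommGroup E] [NormedSpace ℝ E] [FiniteDimensional ℝ E]
  [MeasurableSpace E] [BorelSpace E]
  {HM : Type} [TopologicalSpace HM] {I : ModelWithCorners ℝ E HM}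
  {M : Type} [TopologicalSpace M] [ChartedSpace HM M] [IsManifold I ∞ M]
  [MeasurableSpace M] {ι η : Type} [Fintype ι] [Fintype η] [DecidableEq η]
  {V : Type} [NormedAddCommGroup V] [InnerProductSpace ℝ V]

/-- the Ricci curvature is `r > 0` on the complement of the parallel forms `ν i` -/
structure Psc (F : Fr I M ι) (ν : η → ι → M → ℝ) (r : ℝ) : Prop where
  pos : 0 < r
  sm : ∀ i a, Sm I (ν i a)
  P : ∀ i a x, ∑ b, F.P a b x * ν i b x = ν i a x
  par : ∀ i a b x, F.D a (ν i b) x = ∑ k, F.Gam a b k x * ν i k x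
  ort : ∀ i j x, ∑ a, ν i a x * ν j a x = if i = j then 1 else 0
  ric : ∀ b l x, Ric I F.e F.c F.Gam b l x = r * (F.P b l x - ∑ i, ν i b x * ν i l x)
  sc : ∀ x, r ≤ scal I F.e F.c F.Gam x

/-- the component along `ν i` -/
def ctr (ν : η → ι → M → ℝ) (θ : ι → M → V) (i : η) (x : M) : V := ∑ b, ν i b x • θ b x

/-- the component orthogonal to all `ν i` -/
def prp (ν : η → ι → M → ℝ) (θ : ι → M → V) (b : ι) (x : M) : V :=
  θ b x - ∑ i, ν i b x • ctr ν θ i x

namespace Psc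
variable {F : Fr I M ι} {ν : η → ι → M → ℝ} {r : ℝ} (h : Psc F ν r)
  {θ : ι → M → V} {A : ι → M → V →L[ℝ] V} {x : M}
include h

theorem sm_ctr (hθ : ∀ b, Sm I (θ b)) (i : η) : Sm I (ctr ν θ i) :=
  contMDiff_finsetSum fun b _ => (h.sm i b).smul (hθ b)

theorem sm_prp (hθ : ∀ b, Sm I (θ b)) (b : ι) : Sm I (prp ν θ b) :=
  (hθ b).sub (contMDiff_finsetSum fun i _ => (h.sm i b).smul (h.sm_ctr hθ i))

theorem nrm_prp : ∑ b, ‖prp ν θ b x‖ ^ 2 = ∑ b, ‖θ b x‖ ^ 2 - ∑ i, ‖ctr ν θ i x‖ ^ 2 :=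
  pyth (n := fun i b => ν i b x) (fun i j => h.ort i j x) fun b => θ b x

theorem ctr_sum (ξ : η → M → V) (i : η) (x : M) :
    ctr ν (fun b y => ∑ j, ν j b y • ξ j y) i x = ξ i x := by
  simp only [ctr, smul_sum, smul_smul]
  rw [sum_comm]
  simp [← sum_smul, h.ort]

/-- contraction with a parallel form commutes with the covariant derivative -/
theorem nab_ctr (hθ : ∀ b, SA I (θ b) x) (hP : ∀ a, ∑ b, F.P a b x • θ b x = θ a x) (i : η)
    (a : ι) : nab I F.e A a (ctr ν θ i) x = ∑ b, ν i b x • cov I F.e F.Gam A θ a b x := by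
  have h0 := (frm F).dP_zero a x (T := fun b k => ν i b x • θ k x)
    (fun b k => by simp only [smul_smul, ← sum_smul, h.P])
    fun b k => by simp only [smul_comm (F.P k _ x), ← smul_sum, hP]
  simp only [(lc_gam F).met, add_smul, sum_add_distrib] at h0
  rw [sum_comm (f := fun b k => F.Gam a k b x • ν i b x • θ k x)] at h0
  rw [show ctr ν θ i = fun y => ∑ b, ν i b y • θ b y from rfl,
    nab_sum a _ (u := fun b y => ν i b y • θ b y) fun b => (h.sm i b x).smul (hθ b)]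
  simp only [nab_smul a (h.sm i _ x) (hθ _), ← F.D_def, h.par, cov, smul_sub, sum_sub_distrib,
    sum_add_distrib, sum_smul, mul_smul, smul_sum, smul_comm (ν i _ x) (F.Gam _ _ _ x)]
  rw [eq_neg_of_add_eq_zero_right h0]
  abel

theorem cov_sum {ξ : η → M → V} (hξ : ∀ i, SA I (ξ i) x) (a b : ι) :
    cov I F.e F.Gam A (fun b y => ∑ i, ν i b y • ξ i y) a b x =
      ∑ i, ν i b x • nab I F.e A a (ξ i) x := by
  rw [cov, nab_sum a _ (u := fun i y => ν i b y • ξ i y) fun i => (h.sm i b x).smul (hξ i)]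
  simp only [nab_smul a (h.sm _ _ x) (hξ _), ← F.D_def, h.par, sum_add_distrib, sum_smul, mul_smul,
    smul_sum]
  rw [sum_comm (f := fun i k => F.Gam a b k x • ν i k x • ξ i x)]
  abel

theorem nab_ctr_le (hθ : ∀ b, SA I (θ b) x) (hP : ∀ a, ∑ b, F.P a b x • θ b x = θ a x) :
    ∑ i, ∑ a, ‖nab I F.e A a (ctr ν θ i) x‖ ^ 2 ≤ ∑ a, ∑ b, ‖cov I F.e F.Gam A θ a b x‖ ^ 2 := by
  rw [sum_comm]
  refine sum_le_sum fun a _ => ?_
  simp only [h.nab_ctr hθ hP]
  exact bessel (n := fun i b => ν i b x) (fun i j => h.ort i j x) _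

theorem ric_form (hP : ∀ a, ∑ b, F.P a b x • θ b x = θ a x) :
    ∑ b, ∑ l, Ric I F.e F.c F.Gam b l x * ⟪θ b x, θ l x⟫_ℝ = r * ∑ b, ‖prp ν θ b x‖ ^ 2 := by
  have h1 : ∀ b, ∑ l, F.P b l x * ⟪θ b x, θ l x⟫_ℝ = ‖θ b x‖ ^ 2 := fun b => by
    simp only [← real_inner_smul_right, ← inner_sum, hP, real_inner_self_eq_norm_sq]
  have h2 : ∑ b, ∑ l, (∑ i, ν i b x * ν i l x) * ⟪θ b x, θ l x⟫_ℝ = ∑ i, ‖ctr ν θ i x‖ ^ 2 := by
    simp only [← real_inner_self_eq_norm_sq, ctr, sum_inner, inner_sum, real_inner_smul_left,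
      real_inner_smul_right, sum_mul]
    rw [sum_comm (γ := η)]
    refine sum_congr rfl fun b _ => ?_
    rw [sum_comm (γ := η)]
    exact sum_congr rfl fun l _ => sum_congr rfl fun i _ => by rw [real_inner_comm]; ring
  simp only [h.ric, mul_assoc, ← mul_sum, sub_mul, sum_sub_distrib, h1, h2, h.nrm_prp]

end Psc

/-- from local maps onto pieces of `sphere × flat` -/
theorem psc_of_sph (F : Fr I M ι) [FiniteDimensional ℝ V] {π : V →L[ℝ] V} {v : η → V}
    {ν : η → ι → M → ℝ} {n : ℝ} (hn : 2 ≤ n) (tr : LinearMap.trace ℝ V π = n + 1)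
    (hd : ∀ y, ∑ a, F.P a a y = (Module.finrank ℝ V : ℝ) - 1)
    (hv : ∀ w, w - π w = ∑ i, ⟪v i, w⟫_ℝ • v i)
    (ho : ∀ i j, ⟪v i, v j⟫_ℝ = if i = j then 1 else 0)
    (hΘ : ∀ x, ∃ Θ : M → V, Sph I F.e π Θ x ∧
      ∀ᶠ y in 𝓝 x, ∀ i a, ν i a y = ⟪v i, F.D a Θ y⟫_ℝ) : Psc F ν (n - 1) := by
  have L := lc_gam F
  have G := frm F
  have h0 : ∀ i, π (v i) = 0 := fun i => by
    have := hv (v i)
    simpa [ho] using this
  refine ⟨by linarith, fun i a x => ?_, fun i a x => ?_, fun i a b x => ?_, fun i j x => ?_,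
    fun b l x => ?_, fun x => ?_⟩ <;> obtain ⟨Θ, h1, h2⟩ := hΘ x
  · exact ((G.sD a h1.sm.self_of_nhds).clm (innerSL ℝ (v i))).congr_of_eventuallyEq
      (h2.mono fun y hy => hy i a)
  · simp only [h2.self_of_nhds, ← real_inner_smul_right, ← inner_sum, F.D_def, G.projD]
  · rw [F.D_def, dv_congr (h2.mono fun y hy => hy i b)]
    simp only [h2.self_of_nhds]
    exact h1.par L G (h1.imm G hd) (h0 i) a b
  · simp only [h2.self_of_nhds, F.D_def]
    rw [h1.gram.self_of_nhds, ← h1.symm, h0, inner_zero_left, zero_mul, sub_zero, ho]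
  · rw [h1.Ric_eq L G (h1.imm G hd), tr, ← (h1.imm G hd).iso.self_of_nhds, Qs,
      ← sub_sub_cancel (dv I (F.e b) Θ x) (π _), hv, inner_sub_left]
    simp only [h2.self_of_nhds, F.D_def, sum_inner, real_inner_smul_left]
    ring
  · rw [h1.scal_eq L G (h1.imm G hd), tr]
    nlinarith

section cyl
variable [I.Boundaryless] [T2Space M] [BorelSpace M] [SecondCountableTopology M]
  [SigmaCompactSpace M]

/-- the forms `dt` and `ν i` on the cylinder -/
def cν (ν : η → ι → M → ℝ) : Option η → Option ι → M × ℝ → ℝ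
  | none, none => fun _ => 1
  | some i, some a => fun x => ν i a x.1
  | _, _ => fun _ => 0

theorem D_const (F : Pre I M ι) (a : ι) (t : ℝ) (x : M) : F.D a (fun _ => t) x = 0 :=
  congrFun (dv_const t) x

theorem sm_gam (F : Fr I M ι) (a b k : ι) : Sm I (F.Gam a b k) := (lc_gam F).sm a b k

theorem rm_cyl (F : Fr I M ι) (a b m l : Option ι) (x : M × ℝ) :
    Rm (IC I) (cyl F).e (cyl F).c (cyl F).Gam a b m l x =
      match a, b, m, l with
      | some a, some b, some m, some l => Rm I F.e F.c F.Gam a b m l x.1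
      | _, _, _, _ => 0 := by
  rw [Tmp64.gam_cyl]
  have e : ∀ a (f : M × ℝ → ℝ), dv (IC I) ((cyl F).e a) f = (cylP F.toPre).D a f := fun _ _ => rfl
  have e' : (cyl F).c = cc F.c := rfl
  cases a <;> cases b <;> cases m <;> cases l <;>
    simp [Rm, e, e', cc, Fintype.sum_option, D_const, D_none_fst F.toPre (sm_gam F _ _ _),
      D_some_fst F.toPre (sm_gam F _ _ _), F.D_def]

theorem Psc.cyl {F : Fr I M ι} {ν : η → ι → M → ℝ} {r : ℝ} (h : Psc F ν r) :
    Psc (cyl F) (cν ν) r := by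
  have e : ∀ a (f : M × ℝ → ℝ), (Cyf70.cyl F).D a f = (cylP F.toPre).D a f := fun _ _ => rfl
  have e' : (Cyf70.cyl F).P = cP F.P := rfl
  refine ⟨h.pos, fun i a => ?_, fun i a x => ?_, fun i a b x => ?_, fun i j x => ?_,
    fun b l x => ?_, fun x => ?_⟩
  · cases i <;> cases a
    exacts [contMDiff_const, contMDiff_const, contMDiff_const, sm_fst (h.sm _ _)]
  · cases i <;> cases a <;> simp [Fintype.sum_option, e', cP, cν, h.P]
  · rw [Tmp64.gam_cyl]
    cases i <;> cases a <;> cases b <;>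
      simp [Fintype.sum_option, e, cc, cν, D_const, D_none_fst F.toPre (h.sm _ _),
        D_some_fst F.toPre (h.sm _ _), h.par]
  · cases i <;> cases j <;> simp [Fintype.sum_option, cν, h.ort]
  · cases b <;> cases l <;>
      simp [Ric, rm_cyl, Fintype.sum_option, e', cP, cν, ← h.ric]
  · simpa [scal, rm_cyl, Fintype.sum_option] using h.sc x.1

end cyl

end Crest.Agent.X212.Rf65
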