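import Crest.Agent.X212.Rf65.Ec
import Crest.Agent.X212.Eqv71.Job
import Crest.Agent.X212.G75.Defs

/-!
# Row 212, RFACE: the leaves on indices and on parts with ends of positive scalar curvature
-/

set_option autoImplicit false
set_option linter.unusedSectionVars false
noncomputable section
open scoped Manifold ContDiff Topology InnerProductSpace
open MeasureTheory Set Function Filter

namespace Crest.Agent.X212.Rf65
open An M Nd18 Mod61 Nk89 Cht98 Rdc90 Eqv71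
open An.Job (SolOn StrOn)

variable {Wi : Type} {X : Mf 4} {A κ lam : Type} [Fintype A] [Fintype κ] [Fintype lam]
  [DecidableEq lam] {M : Mark X A κ} {W : World M} {N : ML M lam} {Λ : Lns W N}
  {A' h : Type} [Fintype A'] [DecidableEq A'] [Fintype h] {r n : ℕ}
  {J : Job Wi Λ A' h r n} {c : M.Cl}

/-- the ends of the pieces `P` -/
def EdP (c : M.Cl) (P : Set (Reg A)) : Set (Ed c) := {i | ∃ π ∈ P, π i.1 = some i.2}

/-- the direction of an end -/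
abbrev dr (b : Bool) : Filter ℝ := bif b then atBot else atTop

/-- the connection converges to flat limits faster than `δ` on the ends of `P` -/
structure Go (δ : ℝ) (y : J.Obc c) (P : Set (Reg A)) : Prop where
  br : J.Θ y.s ∈ M.Br c.1
  O : J.Θ y.s ∈ M.O c.1
  adm : Adm0 y.x.con (J.B c) (J.G c y.s)
  bs : ∀ i ∈ EdP c P, Bs (J.xs i.1).D (y.β i.1 i.2)
  lim : ∀ i ∈ EdP c P, ∀ ha : Act J.m c i.1 (some i.2) (J.Θ y.s), ∃ d > δ,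
    (J.K c i.1 _ _ ha).ELim d y.x.con (y.β i.1 i.2) 1 (dr i.2)
  int : IntegrableOn y.kd (W.un c P) (J.G c y.s).F.μ

/-! ### charts with cuts -/

instance (p : Prt A A' h) : Fintype p.H := Fintype.ofFinite _

namespace EC
variable {b : Bp J c} {p : Prt A A' h} {U : Type} [Fintype U] {δ : ℝ} (E : EC b p U δ)

/-- the fields of the cuts -/
abbrev K : Type := ∀ i : p.H, (J.cut c i).H (J.B c) E.o.m

/-- the configurations -/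
abbrev C : Type := E.o.C r 8 × E.K

/-- the equations -/
abbrev Y : Type := E.o.Y n (min r 1) 8 × E.K × (p.H → ℝ)

variable (b p U δ) in
/-- the perturbed equations -/
def tot (q : Wi →₀ ℝ) : Tq p U → PtX (W.Z c).M (Option κ) (lam ⊕ lam) r n (min r 1) :=
  b.e p U δ + q.sum fun w a => a • b.τ p U w

/-- the row of a cut -/
def row (q : Wi →₀ ℝ) (x : Pnt E.o r) (i : p.H) :
    CL ((J.cut c i).H (J.B c) E.o.m) ((J.cut c i).H (J.B c) E.o.m) :=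
  (J.cut c i).T (J.B c) (J.G c (b.θ p U x.t)).F E.o.m x.cfg.W -
    (show CL ((J.cut c i).H (J.B c) E.o.m) ((J.cut c i).H (J.B c) E.o.m) from
      J.σc c q (b.θ p U x.t) i x.cfg)

/-- `f` is the map of the chart -/
structure Map (q : Wi →₀ ℝ) (f : E.C → E.Y) : Prop where
  sm : ContDiffOn ℝ ∞ f (E.o.U r 8 ×ˢ univ)
  e : ∀ (x : Pnt E.o r) ψ, RepE (tot b p U δ q) x (f (x.pt 8, ψ)).1
  row : ∀ (x : Pnt E.o r) ψ i, (f (x.pt 8, ψ)).2.1 i = E.row q x i (ψ i)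
  nrm : ∀ (x : Pnt E.o r) ψ i, (f (x.pt 8, ψ)).2.2 i = ‖ψ i‖ ^ 2 - 1

/-- regular points -/
def Reg (q : Wi →₀ ℝ) (x : Pnt E.o r) (ψ : E.K) : Prop :=
  ∃ f, E.Map q f ∧ Surjective (fderiv ℝ f (x.pt 8, ψ))

/-- regular points of the field equations -/
def RegF (q : Wi →₀ ℝ) (x : Pnt E.o r) : Prop :=
  ∃ f : E.o.C r 8 → E.o.Y n (min r 1) 8, ContDiffOn ℝ ∞ f (E.o.U r 8) ∧
    (∀ x : Pnt E.o r, RepE (tot b p U δ q) x (f (x.pt 8))) ∧ Surjective (fderiv ℝ f (x.pt 8))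

/-- the point with the fields `ψ` represents `y` -/
structure RepC (y : J.Obc c) (x : Pnt E.o r) (ψ : E.K) : Prop where
  s : ∀ a : p.V, x.t.1 a = y.s a
  e : ∃ (u : (W.Z c).M → CL y.x.m.V E.o.m.V) (ζ : Circle),
    EqOn (J.B c) (J.G c (b.θ p U x.t)).F (W.un c p.P) y.x x.cfg u ζ ∧
    ∀ i : p.H, (J.cut c i).Eqv (J.cut c i) (J.B c) (J.B c) u (y.ψ i) (ψ i)

/-- a chart of the type `μ` with decay at most `δ₀` at `y` -/
structure Ch (δ₀ : ℝ) (σ : Cel A') (μ : Ed c → Option U) (y : J.Obc c) (x : Pnt E.o r) (ψ : E.K) :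
    Prop where
  ok : E.OK
  hμ : E.μ = μ
  ov : J.Ov σ c b.s
  z : E.o.Φ0 = 0
  le : δ ≤ δ₀
  mt : ∀ a : cylW c, μ (a, false) = μ (a, true) → μ (a, false) ≠ none → ∀ t,
    (J.xs a).D.Eqv (E.lim (a, false) t) (E.lim (a, true) t)
  go : Go δ y p.P
  rep : E.RepC y x ψ

end EC

/-- the moving ends: each parameter moves one end, or both ends of one wall -/
structure MuOK {U : Type} (μ : Ed c → Option U) (P : Set (Reg A)) : Prop where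
  off : ∀ i ∉ EdP c P, μ i = none
  inj : ∀ i j, μ i = μ j → μ i ≠ none → i.1 = j.1
  sur : ∀ u, ∃ i, μ i = some u

/-- solutions on the part with limits of the type `μ` on which the based group acts freely -/
structure SolE (p : Prt A A' h) {U : Type} (μ : Ed c → Option U) (σ : Cel A') (q : Wi →₀ ℝ)
    (y : J.Obc c) : Prop extends SolOn p σ q y where
  fr : ∀ π ∈ p.P, (∃ a ∈ cylW c, π a ≠ none) ∨ y.TF π ∨ π ∉ p.P' ∧ ¬y.TA π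
  fx : ∀ i ∈ EdP c p.P, μ i = none →
    dh (J.xs i.1).D (y.β i.1 i.2) = 0 ∨ dz (J.xs i.1).D (y.β i.1 i.2) = 3
  mv : ∀ i, μ i ≠ none → dh (J.xs i.1).D (y.β i.1 i.2) = 1 ∧ dz (J.xs i.1).D (y.β i.1 i.2) = 1
  mt : ∀ a : cylW c, μ (a, false) = μ (a, true) → μ (a, false) ≠ none →
    (J.xs a).D.Eqv (y.β a false) (y.β a true)

/-- the chart sees the nearby solutions -/
def EC.Nr {b : Bp J c} {p : Prt A A' h} {U : Type} [Fintype U] {δ : ℝ} (E : EC b p U δ)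
    (σ : Cel A') (μ : Ed c → Option U) (q : Wi →₀ ℝ) (y : J.Obc c) (x : Pnt E.o r) (ψ : E.K) :
    Prop :=
  ∀ (α : Type) (𝒰 : Ultrafilter α) (q' : α → Wi →₀ ℝ) (y' : α → J.Obc c),
    St.Cv (𝒰 : Filter α) q' q → (∀ᶠ k in (𝒰 : Filter α), SolE p μ σ (q' k) (y' k)) →
    StrOn p 𝒰 y' y → ∃ (x' : α → Pnt E.o r) (ψ' : α → E.K),
      Tendsto (fun k => ((x' k).pt 8, ψ' k)) 𝒰 (𝓝 (x.pt 8, ψ)) ∧
      ∀ᶠ k in (𝒰 : Filter α), E.RepC (y' k) (x' k) (ψ' k)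

/-- equivalence on the part -/
def EqP (p : Prt A A' h) (y y' : J.Obc c) : Prop := (∀ a ∈ p.V, y.s a = y'.s a) ∧
  ∃ (u : (W.Z c).M → CL y.x.m.V y'.x.m.V) (ζ : Circle),
    EqOn (J.B c) (J.G c y.s).F (W.un c p.P) y.x y'.x u ζ ∧
    ∀ i ∈ p.H, (J.cut c i).Eqv (J.cut c i) (J.B c) (J.B c) u (y.ψ i) (y'.ψ i)

/-- the standing hypotheses on a part -/
structure PH (J : Job Wi Λ A' h r n) (σ : Cel A') (c : M.Cl) (p : Prt A A' h) {U : Type}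
    (μ : Ed c → Option U) : Prop where
  ok : J.OK
  mem : σ ∈ J.𝒦
  pok : J.POK σ c p
  pj : PJ J c
  mu : MuOK μ p.P

variable (J c)

/-- solutions decay faster than `δ` -/
def DecAt (δ : ℝ) : Prop := ∀ σ p q (y : J.Obc c), σ ∈ J.𝒦 → J.POK σ c p → SolOn p σ q y →
  Go δ y p.P ∧ ∀ i ∈ EdP c p.P, ∀ ha : Act J.m c i.1 (some i.2) (J.Θ y.s), ∃ d > δ,
    (J.K c i.1 _ _ ha).ELim d y.x (y.β i.1 i.2) (y.ζ i.1 i.2) (dr i.2)

/-- **LEAF DEC**: solutions decay exponentially, with one rate -/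
def Dec : Prop := J.OK → PJ J c → ∃ δ₀ > 0, DecAt J c δ₀

/-- the index facts at the decay `δ` -/
structure SplAt (δ : ℝ) : Prop where
  ex : ∀ (y : J.Obc c) P P', (∀ π ∈ P, M.sys.Piece c.1 π) → P' ⊆ P → Go δ y P →
    Ix δ y P P' (ix δ y P P')
  ch : ∀ σ p (U : Type) [Fintype U] μ (b : Bp J c) (E : EC b p U δ) y x ψ q, PH J σ c p μ →
    J.Ov σ c y.s → E.Ch δ σ μ y x ψ → Idx 8 (EC.tot b p U δ q) x (ix δ y p.P p.P')

/-- **LEAF SPL**: the index of a chart is the sum of the indices of the pieces -/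
def Spl : Prop := J.OK → PJ J c → ∃ δ₀ > 0, ∀ δ ∈ Ioc 0 δ₀, SplAt J c δ

/-- richness for the rows and the cuts -/
structure CRich (σ : Cel A') (p : Prt A A' h) : Prop where
  z : r = 0 → p.P' = ∅ ∧ n = 0
  S : ∀ s ∈ Job.cl σ, Sys.inf (J.Θ s).2 = c.1 → J.RichS s
  C : ∀ s ∈ Job.cl σ, Sys.inf (J.Θ s).2 = c.1 → ∀ π ∈ p.P, ∀ i ∈ p.H, J.nb i ⊆ M.sys.U π →
    J.RichC s π i

/-- the models of the parts at the decay `δ` -/
def PartAt (δ : ℝ) : Prop := ∀ σ p (U : Type) [Fintype U] (μ : Ed c → Option U) Adm,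
  PH J σ c p μ → ∃ D : Mo Wi (J.Obc c), (∀ i, (D.Pb i).Ax Adm) ∧
    (∀ i y x, D.rep i y x → ∃ (b : Bp J c) (E : EC b p U δ) (x' : Pnt E.o r) (ψ : E.K),
      ∀ q, Adm q → SolE p μ σ q y → (D.Pb i).Sol q x ∧ E.Ch δ σ μ y x' ψ ∧ E.Nr σ μ q y x' ψ ∧
        ((D.Pb i).Reg q x ↔ E.Reg q x' ψ)) ∧
    (∀ q y, Adm q → SolE p μ σ q y → ∃ i x, D.rep i y x ∧ (CRich J c σ p → Job.In p y →
      ((∀ s ∈ Job.cl σ, Sys.inf (J.Θ s).2 = c.1 → ∀ π ∈ p.P, J.RichT s π) ∨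
        ∀ (b : Bp J c) (E : EC b p U δ) x' ψ, E.Ch δ σ μ y x' ψ → E.RegF q x') →
      ∃ S, (D.Pb i).Onto q x S)) ∧
    ∀ q₀, Adm q₀ → ∀ (α : Type) (𝒰 : Ultrafilter α) (q : α → Wi →₀ ℝ) (y : α → J.Obc c) y₀,
      St.Cv (𝒰 : Filter α) q q₀ → (∀ᶠ k in (𝒰 : Filter α), Adm (q k) ∧ SolE p μ σ (q k) (y k)) →
      SolE p μ σ q₀ y₀ → StrOn p 𝒰 y y₀ → ∀ i x₀, D.rep i y₀ x₀ → RNear (D.rep i) 𝒰 y x₀

/-- **LEAF PART**: models of the parts -/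
def Part : Prop := J.OK → PJ J c → ∃ δ₀ > 0, ∀ δ ∈ Ioc 0 δ₀, PartAt J c δ

/-- **LEAF SYM**: the phase and the stabilisers at the ends of the irreducible pieces `P₁` bound
the index of a regular point; if they exhaust it, nearby solutions are unique -/
def Sym : Prop := ∀ σ p (U : Type) [Fintype U] (μ : Ed c → Option U) (b : Bp J c) δ
  (E : EC b p U δ) q y x ψ (P₁ : Set (Reg A)), PH J σ c p μ → SplAt J c δ → SolE p μ σ q y →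
  E.Ch δ σ μ y x ψ → E.Reg q x ψ → P₁ ⊆ p.P → (∀ π ∈ P₁, y.TF π ∨ ¬y.TA π) →
  ((min r 1 + stb y P₁ : ℕ) : ℤ) ≤ dm δ y p (Fintype.card U) ∧
  (E.Nr σ μ q y x ψ → ((min r 1 + stb y P₁ : ℕ) : ℤ) = dm δ y p (Fintype.card U) →
    ∀ (α : Type) (𝒰 : Ultrafilter α) (q' : α → Wi →₀ ℝ) (y' y'' : α → J.Obc c),
      St.Cv (𝒰 : Filter α) q' q →
      (∀ᶠ k in (𝒰 : Filter α), SolE p μ σ (q' k) (y' k) ∧ SolE p μ σ (q' k) (y'' k)) →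
      StrOn p 𝒰 y' y → StrOn p 𝒰 y'' y → ∀ᶠ k in (𝒰 : Filter α), EqP p (y' k) (y'' k))

variable {J c}

/-! ### identification of pieces -/

section nat
variable {Wi₂ : Type} {X₂ : Mf 4} {A₂ : Type} [Fintype A₂] {M₂ : Mark X₂ A₂ κ} {W₂ : World M₂}
  {N₂ : ML M₂ lam} {Λ₂ : Lns W₂ N₂} {A₃ h₂ : Type} [Fintype A₃] [DecidableEq A₃] [Fintype h₂]
  {r₂ n₂ : ℕ}

/-- `φ` identifies the pieces `P` of `Z c` at `s` with the pieces `P₂` of `Z c₂` at `s₂`,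
literally on the ends -/
structure GId (J : Job Wi Λ A' h r n) (c : M.Cl) (s : A' → ℝ) (P : Set (Reg A))
    (J₂ : Job Wi₂ Λ₂ A₃ h₂ r₂ n₂) (c₂ : M₂.Cl) (s₂ : A₃ → ℝ) (P₂ : Set (Reg A₂))
    (φ : (W.Z c).M → (W₂.Z c₂).M) (ψ : (W₂.Z c₂).M → (W.Z c).M)
    (U : (W.Z c).M → Option κ → Option κ → ℝ) (v : (W.Z c).M → CL (Eu (lam ⊕ lam)) (Eu (lam ⊕ lam)))
    (e : EdP c P ≃ EdP c₂ P₂) : Prop where
  kt : KT (J.B c) (J.G c s) (J₂.B c₂) (J₂.G c₂ s₂) (W.un c P) (W₂.un c₂ P₂) φ ψ U v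
  sd : ∀ i, (e i).1.2 = i.1.2
  nk : ∀ i, ∃ g : (M.bn i.1.1).Y.M ≃ₘ^∞⟮(M.bn i.1.1).Y.I, (M₂.bn (e i).1.1).Y.I⟯ (M₂.bn (e i).1.1).Y.M,
    Cy.Iso (N.cy i.1.1) (N₂.cy (e i).1.1) g ∧ ∀ y t, 0 < pm i.1.2 * t → pm i.1.2 * t < 1 →
      φ (W.nj c i.1.1 (y, t)) = W₂.nj c₂ (e i).1.1 (g y, t) ∧
      (∀ k l, U (W.nj c i.1.1 (y, t)) k l = (J.B c).P k l (W.nj c i.1.1 (y, t))) ∧
      v (W.nj c i.1.1 (y, t)) = (J.B c).l (W.nj c i.1.1 (y, t))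

/-- the connections of `y` and `y₂` correspond on the pieces -/
def CId {J₂ : Job Wi₂ Λ₂ A₃ h₂ r₂ n₂} {c₂ : M₂.Cl} (y : J.Obc c) (P : Set (Reg A)) (y₂ : J₂.Obc c₂)
    (P₂ : Set (Reg A₂)) : Prop :=
  ∃ φ ψ U v e u, GId J c y.s P J₂ c₂ y₂.s P₂ φ ψ U v e ∧
    CEq (J.G c y.s).F y.x.con y₂.x.con (W.un c P) φ U v u 1

/-- **LEAF NAT**: the indices are invariant -/
def INat (J : Job Wi Λ A' h r n) (c : M.Cl) (J₂ : Job Wi₂ Λ₂ A₃ h₂ r₂ n₂) (c₂ : M₂.Cl) : Prop :=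
  ∀ δ (y : J.Obc c) π (y₂ : J₂.Obc c₂) π₂, 0 < δ → J.OK → J₂.OK → SplAt J c δ → SplAt J₂ c₂ δ →
    M.sys.Piece c.1 π → M₂.sys.Piece c₂.1 π₂ → Go δ y {π} → Go δ y₂ {π₂} → CId y {π} y₂ {π₂} →
    ia δ y π = ia δ y₂ π₂ ∧ idr δ y π = idr δ y₂ π₂ ∧ y.kap (W.pc c π) = y₂.kap (W₂.pc c₂ π₂) ∧
      stb y {π} = stb y₂ {π₂}

end nat

/-! ### additivity -/

section add
open G75
variable {Lm : LM κ lam} {S : Scene Lm} {i : S.L} {W : World S.M} {Λ : Lns W (S.N i)}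
  (J : Job Wi Λ A' h r n) (c : S.M.Cl)

/-- **LEAF ADD**: objects on the pieces inside a region `π₀` bounded by pinch walls, with matching
limits `β` -/
def Add : Prop := J.OK → PJ J c → ∃ δ₀ > 0, ∀ δ ∈ Ioc 0 δ₀, SplAt J c δ →
  ∀ σ ∈ J.𝒦, ∀ s, J.Ov σ c s → ∀ (c₀ : S.M.Cl) π₀, c₀.1 = {a ∈ c.1 | S.M.pin a} →
  S.M.sys.Piece c₀.1 π₀ → ∀ β sg l2, S.Nb i (S.M.sys.U π₀) β sg l2 →
  ∀ (y : Reg S.A → J.Obc c) (γ : ∀ a, YC (J.xs a).Y.M κ (lam ⊕ lam)),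
    (∀ ρ, S.In c π₀ ρ → (y ρ).s = s ∧ Go δ (y ρ) {ρ} ∧ ∀ a ∈ cylW c, ∀ b, ρ a = some b →
      Bs (J.xs a).D (γ a) ∧ (J.xs a).D.Eqv (γ a) ((y ρ).β a b)) →
    let k := ∑ᶠ ρ ∈ {ρ | S.In c π₀ ρ}, (y ρ).kap (W.pc c ρ)
    (∑ᶠ ρ ∈ {ρ | S.In c π₀ ρ}, (ia δ (y ρ) ρ : ℝ)) = 8 * k - 3 * β +
      ∑ᶠ a ∈ cylW c ∩ S.M.sys.inn π₀, ((dz (J.xs a).D (γ a) : ℝ) - dh (J.xs a).D (γ a)) ∧
    (∑ᶠ ρ ∈ {ρ | S.In c π₀ ρ}, (idr δ (y ρ) ρ : ℝ)) = -2 * k + (l2 - sg) / 2 ∧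
    ∃ m : ℤ, k = (l2 - sg) / 4 + m

end add

end Crest.Agent.X212.Rf65
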