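import Crest.Agent.X212.Ell97.Main
import Crest.Agent.X212.Cht98.Br

/-! Row 212 (helper65): spectral gap and Poincaré inequality on closed manifolds. -/

set_option autoImplicit false
set_option linter.unusedSectionVars false
noncomputable section
open scoped Manifold ContDiff Topology InnerProductSpace
open MeasureTheory Set Function Filter Module

namespace Crest.Agent.X212.Rf65
open An An.Pre Sob92 Ell97
open Wz78 (nab Skew)

variable {E : Type} [NormedAddCommGroup E] [NormedSpace ℝ E] [FiniteDimensional ℝ E]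
  [MeasurableSpace E] [BorelSpace E]
  {HM : Type} [TopologicalSpace HM] {I : ModelWithCorners ℝ E HM} [I.Boundaryless]
  {M : Type} [TopologicalSpace M] [ChartedSpace HM M] [IsManifold I ∞ M]
  [MeasurableSpace M] {ι : Type} [Fintype ι]
  {V W : Type} [NormedAddCommGroup V] [InnerProductSpace ℝ V] [FiniteDimensional ℝ V]
  [NormedAddCommGroup W] [InnerProductSpace ℝ W] [FiniteDimensional ℝ W]
  [T2Space M] [BorelSpace M] [SecondCountableTopology M] [CompactSpace M]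
  {F : Fr I M ι} {A : Op M ι V W} {C C' : ℕ → ℝ}

theorem abs_gap {X Y G : Type*} [NormedAddCommGroup X] [NormedSpace ℝ X] [CompleteSpace X]
    [NormedAddCommGroup Y] [NormedSpace ℝ Y] [NormedAddCommGroup G] [InnerProductSpace ℝ G]
    {L : X →L[ℝ] Y} {J : X →L[ℝ] G} {K : ℝ} (hK : Fred93.Est L J K) (hJ : IsCompactOperator J)
    (hi : Injective J) : ∃ c > 0, ∀ x, (∀ y, L y = 0 → ⟪J x, J y⟫_ℝ = 0) → ‖x‖ ≤ c * ‖L x‖ := by
  have := hK.finite_ker hJ
  let S : Submodule ℝ G := L.ker.map (J : X →ₗ[ℝ] G)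
  let T : X →L[ℝ] G := S.starProjection.comp J
  have h' : Fred93.Est (L.prod T) J |K| := fun x => (hK x).trans <|
    (mul_le_mul_of_nonneg_right (le_abs_self K) (by positivity)).trans <|
      mul_le_mul_of_nonneg_left (by
        have : ‖L x‖ ≤ ‖L.prod T x‖ := norm_fst_le (L.prod T x)
        linarith) (abs_nonneg K)
  obtain ⟨c, hc0, hb⟩ := h'.bound_of_inj hJ (by
    rw [injective_iff_map_eq_zero]
    intro x hx
    have h1 : L x = 0 := congrArg Prod.fst hx
    have h2 : S.starProjection (J x) = 0 := congrArg Prod.snd hx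
    rw [Submodule.starProjection_eq_self_iff.2 (show J x ∈ S from ⟨x, h1, rfl⟩)] at h2
    exact hi (h2.trans (map_zero _).symm))
  refine ⟨c, hc0, fun x hx => ?_⟩
  have h0 : T x = 0 := (Submodule.starProjection_apply_eq_zero_iff S).2 <|
    (Submodule.mem_orthogonal' _ _).2 fun _ ⟨y, h1, h2⟩ => h2 ▸ hx y h1
  have h1 := hb x
  rwa [ContinuousLinearMap.prod_apply, h0, Prod.norm_mk, norm_zero,
    max_eq_left (norm_nonneg _)] at h1

/-- **Spectral gap** of an operator with injective symbol on a closed manifold. -/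
theorem gap_closed (hF : F.Tame C) (hA : A.Good F C') (hc : A.CliffL F) :
    ∃ c > 0, ∀ u : Sec I A.p, (∀ v : Sec I A.p, A.app F v.1 = 0 → F.ip 0 u.1 v.1 = 0) →
      F.nrm 1 u.1 ≤ c * F.nrm 0 (A.app F u.1) := by
  obtain ⟨K, hK⟩ := gard hF hA hc 0
  obtain ⟨c, hc0, hb⟩ := abs_gap hK (Cht98.rellich zero_lt_one) (incl_inj F (Nat.zero_le _) A.p)
  refine ⟨c, hc0, fun u hu => ?_⟩
  have h1 := hb (F.toH _ A.p u) fun y hy => by
    obtain ⟨v, h1, h2⟩ := sec_of_eq hF hA hc (w := 0) (hy.trans (map_zero _).symm)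
    rw [← h1, incl_toH (Nat.zero_le _), incl_toH (Nat.zero_le _), inner_toH]
    exact hu v h2
  rwa [H_toH hA, norm_toH, norm_toH] at h1

theorem cliffL_nab (F : Fr I M ι) (A : ι → M → V →L[ℝ] V) : (nabOp F A).CliffL F := by
  intro a b x v w
  have hi := (Wz78.frPr F x).idem
  have e : ∀ a b, ⟪(nabOp F A).σ a x v, (nabOp F A).σ b x w⟫_ℝ = F.P a b x * ⟪v, w⟫_ℝ := by
    intro a b
    simp only [nabOp, _root_.sum_apply, _root_.smul_apply, ← map_smul, PiLp.inner_apply, sum_ij,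
      real_inner_smul_left, real_inner_smul_right, ← mul_assoc, ← Finset.sum_mul]
    rw [← hi a b]
    congr 1
    exact Finset.sum_congr rfl fun c _ => by rw [F.P_symm b c, mul_comm]
  rw [e, e, F.P_symm b a]
  change _ = 2 * F.P a b x * ⟪v, w⟫_ℝ
  ring

theorem ip_le_succ (F : Pre I M ι) (u : M → V) : F.ip 0 u u ≤ F.ip 1 u u :=
  le_add_of_nonneg_right (Finset.sum_nonneg fun _ _ => F.ip_nonneg _ _)

/-- **Poincaré inequality**: sections orthogonal to the parallel sections. -/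
theorem poincare (F : Fr I M ι) (hn : finrank ℝ E ≤ 4) {A : ι → M → V →L[ℝ] V}
    (hA : ∀ a, Sm I (A a)) (hs : ∀ a x, Skew (A a x)) :
    ∃ c > 0, ∀ ξ : M → V, Sm I ξ →
      (∀ η : M → V, Sm I η → (∀ a x, nab I F.e A a η x = 0) → ∫ x, ⟪ξ x, η x⟫_ℝ ∂F.μ = 0) →
      ∫ x, ‖ξ x‖ ^ 2 ∂F.μ ≤ c * ∫ x, ∑ a, ‖nab I F.e A a ξ x‖ ^ 2 ∂F.μ := by
  obtain ⟨C, hF⟩ := Cht98.exists_tame F hn
  obtain ⟨C', h⟩ := du_nab hF (fun a => Cb_of_compact (hA a)) hs
  obtain ⟨c, hc, hb⟩ := gap_closed hF h.g (cliffL_nab F A)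
  refine ⟨c ^ 2, by positivity, fun ξ hξ h0 => ?_⟩
  have h1 := hb ⟨ξ, hξ, HasCompactSupport.of_compactSpace _, fun _ => rfl⟩ fun v hv =>
    h0 v.1 v.2.1 fun a x => by rw [← nabOp_app_apply, hv]; rfl
  have h2 : F.ip 0 ξ ξ ≤ c ^ 2 * F.ip 0 ((nabOp F A).app F ξ) ((nabOp F A).app F ξ) := by
    refine (ip_le_succ F.toPre ξ).trans ?_
    rw [← Real.sq_sqrt (F.ip_nonneg 1 ξ), ← Real.sq_sqrt (F.ip_nonneg 0 ((nabOp F A).app F ξ)),
      ← mul_pow]
    exact pow_le_pow_left₀ (Real.sqrt_nonneg _) h1 2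
  simpa only [Pre.ip, real_inner_self_eq_norm_sq, PiLp.norm_sq_eq_of_L2, nabOp_app_apply] using h2

end Crest.Agent.X212.Rf65
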