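import Crest.Agent.X212.Rf65.Psc
import Crest.Agent.X212.Rf65.Poi

/-! Row 212 (helper65): the Bochner energy of one-forms on `sphere × flat` and on its cylinder. -/

set_option autoImplicit false
set_option linter.unusedSectionVars false
noncomputable section
open scoped Manifold ContDiff Topology InnerProductSpace
open MeasureTheory Function Filter Finset

namespace Crest.Agent.X212.Rf65
open An Wz78 Sob92 Cyf70

variable {E : Type} [NormedAddCommGroup E] [NormedSpace ℝ E] [FiniteDimensional ℝ E]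
  [MeasurableSpace E] [BorelSpace E]
  {HM : Type} [TopologicalSpace HM] {I : ModelWithCorners ℝ E HM}
  {M : Type} [TopologicalSpace M] [ChartedSpace HM M] [IsManifold I ∞ M]
  [MeasurableSpace M] {ι η : Type} [Fintype ι] [Fintype η] [DecidableEq η]
  {V W : Type} [NormedAddCommGroup V] [InnerProductSpace ℝ V] [NormedAddCommGroup W]
  [InnerProductSpace ℝ W]

/-- the Bochner energy density of a one-form -/
def en (F : Fr I M ι) (A : ι → M → V →L[ℝ] V) (θ : ι → M → V) (x : M) : ℝ :=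
  ∑ a, ∑ b, ‖cov I F.e F.Gam A θ a b x‖ ^ 2 +
    ∑ b, ∑ l, Ric I F.e F.c F.Gam b l x * ⟪θ b x, θ l x⟫_ℝ

/-- parallel sections of the bundle `q` -/
structure Pl (F : Fr I M ι) (A : ι → M → V →L[ℝ] V) (q : M → V →L[ℝ] V) (ζ : M → V) : Prop where
  sm : Sm I ζ
  mem : ∀ x, q x (ζ x) = ζ x
  par : ∀ a x, nab I F.e A a ζ x = 0

/-- a parallel orthogonal projector of a metric connection -/
structure Pq (F : Fr I M ι) (A : ι → M → V →L[ℝ] V) (q : M → V →L[ℝ] V) : Prop where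
  smA : ∀ a, Sm I (A a)
  sk : ∀ a x, Skew (A a x)
  sm : Sm I q
  idem : ∀ x v, q x (q x v) = q x v
  symm : ∀ x v w, ⟪q x v, w⟫_ℝ = ⟪v, q x w⟫_ℝ
  par : ∀ a x, nabE I F.e A a q x = 0

namespace Psc
variable {F : Fr I M ι} {ν : η → ι → M → ℝ} {r : ℝ} (h : Psc F ν r)
  {θ : ι → M → V} {A : ι → M → V →L[ℝ] V} {x : M}
  (hθ : ∀ b, SA I (θ b) x) (hP : ∀ a, ∑ b, F.P a b x • θ b x = θ a x)
include h hθ hP

theorem le_en : r * ∑ b, ‖prp ν θ b x‖ ^ 2 + ∑ i, ∑ a, ‖nab I F.e A a (ctr ν θ i) x‖ ^ 2 ≤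
    en F A θ x := by
  rw [en, h.ric_form hP]
  linarith [h.nab_ctr_le (A := A) hθ hP]

theorem en_nonneg : 0 ≤ en F A θ x :=
  le_trans (by have := h.pos; positivity) (h.le_en hθ hP)

theorem of_en (h0 : en F A θ x ≤ 0) :
    (∀ b, θ b x = ∑ i, ν i b x • ctr ν θ i x) ∧ ∀ i a, nab I F.e A a (ctr ν θ i) x = 0 := by
  have h1 := (h.le_en (A := A) hθ hP).trans h0
  have h2 : 0 ≤ r * ∑ b, ‖prp ν θ b x‖ ^ 2 := by have := h.pos; positivity
  have h3 : 0 ≤ ∑ i, ∑ a, ‖nab I F.e A a (ctr ν θ i) x‖ ^ 2 := by positivity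
  have h4 : ∑ b, ‖prp ν θ b x‖ ^ 2 = 0 :=
    (mul_eq_zero.1 (le_antisymm (by linarith) h2)).resolve_left h.pos.ne'
  have h5 : ∑ i, ∑ a, ‖nab I F.e A a (ctr ν θ i) x‖ ^ 2 = 0 := le_antisymm (by linarith) h3
  rw [sum_eq_zero_iff_of_nonneg fun _ _ => by positivity] at h4 h5
  refine ⟨fun b => sub_eq_zero.1 (by simpa [prp] using h4 b (mem_univ _)), fun i a => ?_⟩
  simpa using (sum_eq_zero_iff_of_nonneg fun _ _ => by positivity).1 (h5 i (mem_univ _)) a
    (mem_univ _)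

omit hθ hP in
theorem nrm_sub (ζ : η → V) : ∑ b, ‖θ b x - ∑ i, ν i b x • ζ i‖ ^ 2 =
    ∑ b, ‖prp ν θ b x‖ ^ 2 + ∑ i, ‖ctr ν θ i x - ζ i‖ ^ 2 := by
  have h1 := h.nrm_prp (θ := fun b y => θ b y - ∑ i, ν i b y • ζ i) (x := x)
  have h2 : ∀ i, ctr ν (fun b y => θ b y - ∑ i, ν i b y • ζ i) i x = ctr ν θ i x - ζ i := fun i => by
    rw [← h.ctr_sum (fun i _ => ζ i) i x]
    simp only [ctr, smul_sub, sum_sub_distrib]
  simp only [prp, h2, smul_sub, sum_sub_distrib, sub_sub_sub_cancel_right] at h1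
  simp only [prp, h1]; ring

end Psc

section closed
variable [FiniteDimensional ℝ V] [I.Boundaryless] [T2Space M] [BorelSpace M]
  [SecondCountableTopology M] [CompactSpace M] {F : Fr I M ι} {A : ι → M → V →L[ℝ] V}
  {q : M → V →L[ℝ] V}

theorem Pq.poi (h : Pq F A q) (hn : Module.finrank ℝ E ≤ 4) :
    ∃ c > 0, ∀ ξ : M → V, Sm I ξ → (∀ x, q x (ξ x) = ξ x) →
      (∀ ζ, Pl F A q ζ → ∫ x, ⟪ξ x, ζ x⟫_ℝ ∂F.μ = 0) →
      ∫ x, ‖ξ x‖ ^ 2 ∂F.μ ≤ c * ∫ x, ∑ a, ‖nab I F.e A a ξ x‖ ^ 2 ∂F.μ := by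
  obtain ⟨c, hc, hb⟩ := poincare F hn h.smA h.sk
  refine ⟨c, hc, fun ξ h1 h2 h3 => hb ξ h1 fun ζ h4 h5 => ?_⟩
  rw [← h3 (fun x => q x (ζ x)) ⟨h.sm.clm_apply h4, fun x => h.idem x _, fun a x => by
    rw [nab_app' a (h.sm x) (h4 x), h.par, h5]; simp⟩]
  simp only [← h.symm, h2]

end closed

section cyl
variable [I.Boundaryless] [T2Space M] [BorelSpace M] [SecondCountableTopology M] [CompactSpace M]
  {F : Fr I M ι} {A : Option ι → M → V →L[ℝ] V} {q : M → V →L[ℝ] V}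

/-- the connection on the cylinder -/
abbrev cA (A : Option ι → M → V →L[ℝ] V) : Option ι → M × ℝ → V →L[ℝ] V := fun a x => A a x.1
/-- the connection on the cross-section -/
abbrev sA (A : Option ι → M → V →L[ℝ] V) : ι → M → V →L[ℝ] V := fun a => A (some a)

theorem nab_some {ξ : M × ℝ → V} (hξ : Sm (IC I) ξ) (a : ι) (x : M × ℝ) :
    nab (IC I) (cyl F).e (cA A) (some a) ξ x = nab I F.e (sA A) a (fun y => ξ (y, x.2)) x.1 :=
  congrArg (· + _) (D_some F.toPre hξ a x)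

theorem nab_fst (h0 : ∀ y, A none y = 0) {ξ : M → V} (hξ : Sm I ξ) (a : Option ι) (x : M × ℝ) :
    nab (IC I) (cyl F).e (cA A) a (fun y => ξ y.1) x =
      a.elim 0 fun a => nab I F.e (sA A) a ξ x.1 := by
  cases a with
  | none =>
    change (cylP F.toPre).D none (fun y => ξ y.1) x + A none x.1 _ = 0
    rw [D_none_fst _ hξ, h0]; simp
  | some a => exact nab_some (sm_fst hξ) a x

theorem hcs_nab {ι : Type} [Fintype ι] {M : Type} [TopologicalSpace M] [ChartedSpace HM M]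
    [IsManifold I ∞ M] [MeasurableSpace M] (F : Fr I M ι) (A : ι → M → V →L[ℝ] V) {ξ : M → V}
    (h : HasCompactSupport ξ) (a : ι) : HasCompactSupport (nab I F.e A a ξ) :=
  (F.hcs_D h a).add (h.mono fun x hx h0 => hx (by simp [h0]))

variable [FiniteDimensional ℝ V]

/-- the Poincaré inequality on all slices -/
theorem Pq.poi_cyl (h : Pq F (sA A) q) (h' : Sm I (A none)) (hn : Module.finrank ℝ E ≤ 4) :
    ∃ c > 0, ∀ ξ ζ : M × ℝ → V, Sm (IC I) ξ → HasCompactSupport ξ → (∀ x, q x.1 (ξ x) = ξ x) →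
      Continuous ζ → HasCompactSupport ζ → (∀ t, Pl F (sA A) q fun y => ζ (y, t)) →
      (∀ t ζ', Pl F (sA A) q ζ' → ∫ y, ⟪ξ (y, t) - ζ (y, t), ζ' y⟫_ℝ ∂F.μ = 0) →
      ∫ x, ‖ξ x - ζ x‖ ^ 2 ∂(cyl F).μ ≤
        c * ∫ x, ∑ a, ‖nab (IC I) (cyl F).e (cA A) a ξ x‖ ^ 2 ∂(cyl F).μ := by
  obtain ⟨c, hc, hb⟩ := h.poi hn
  refine ⟨c, hc, fun ξ ζ h1 h2 h3 h4 h5 h6 h7 => ?_⟩
  have sA' : ∀ a, Sm (IC I) (cA A a) := fun a => sm_fst (by cases a; exacts [h', h.smA _])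
  have sn : ∀ a, Sm (IC I) (nab (IC I) (cyl F).e (cA A) a ξ) := fun a x =>
    (frm (cyl F)).sN (fun a => sA' a x) a (h1 x)
  have c1 : Continuous fun x => ‖ξ x - ζ x‖ ^ 2 := ((h1.continuous.sub h4).norm).pow 2
  have k1 : HasCompactSupport fun x => ‖ξ x - ζ x‖ ^ 2 :=
    (h2.sub h5).mono fun x hx h0 => hx (by simpa using h0)
  have c2 : ∀ a, Continuous fun x => ‖nab (IC I) (cyl F).e (cA A) a ξ x‖ ^ 2 := fun a =>
    (sn a).continuous.norm.pow 2
  have k2 : ∀ a, HasCompactSupport fun x => ‖nab (IC I) (cyl F).e (cA A) a ξ x‖ ^ 2 := fun a =>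
    (hcs_nab (cyl F) (cA A) h2 a).mono fun x hx h0 => hx (by simpa using h0)
  have i2 := fun a => (c2 a).integrable_of_hasCompactSupport (μ := (cyl F).μ) (k2 a)
  have i3 := integrable_finsetSum univ fun a _ => i2 (some a)
  refine le_trans ?_ (mul_le_mul_of_nonneg_left (integral_mono i3
    (integrable_finsetSum univ fun a _ => i2 a) fun x => by
      simp only [Fintype.sum_option]; exact le_add_of_nonneg_left (sq_nonneg _)) hc.le)
  have i1 := c1.integrable_of_hasCompactSupport (μ := F.μ.prod volume) k1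
  change ∫ x, _ ∂F.μ.prod volume ≤ c * ∫ x, _ ∂F.μ.prod volume
  rw [integral_prod_symm _ i1, integral_prod_symm _ i3, ← integral_const_mul]
  refine integral_mono i1.integral_prod_right (i3.integral_prod_right.const_mul c) fun t => ?_
  have s1 := sm_slice_fst h1 t
  refine (hb _ (s1.sub (h6 t).sm) (fun y => by rw [map_sub, h3 (y, t), (h6 t).mem]) (h7 t)).trans_eq
    (congrArg (c * ·) (integral_congr_ae (.of_forall fun y => sum_congr rfl fun a _ => ?_)))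
  rw [nab_some h1, nab_sub a (s1 y) ((h6 t).sm y), (h6 t).par, sub_zero]

omit [FiniteDimensional ℝ V] in
theorem sm_cA (h : ∀ a, Sm I (A a)) (a : Option ι) : Sm (IC I) (cA A a) := sm_fst (h a)

/-- **The gap on the cylinder**: `ζ` is the slice-wise projection onto the kernel. -/
theorem Psc.low_cyl {ν : η → ι → M → ℝ} {r : ℝ} (H : Psc F ν r) (h : Pq F (sA A) q)
    (h' : Sm I (A none)) (hn : Module.finrank ℝ E ≤ 4) :
    ∃ c > 0, ∀ (θ : Option ι → M × ℝ → V) (ζ : Option η → M × ℝ → V), (∀ b, Sm (IC I) (θ b)) →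
      (∀ b, HasCompactSupport (θ b)) → (∀ a x, ∑ b, (Cyf70.cyl F).P a b x • θ b x = θ a x) →
      (∀ b x, q x.1 (θ b x) = θ b x) → (∀ i, Continuous (ζ i)) → (∀ i, HasCompactSupport (ζ i)) →
      (∀ i t, Pl F (sA A) q fun y => ζ i (y, t)) →
      (∀ i t ζ', Pl F (sA A) q ζ' →
        ∫ y, ⟪ctr (cν ν) θ i (y, t) - ζ i (y, t), ζ' y⟫_ℝ ∂F.μ = 0) →
      ∫ x, ∑ b, ‖θ b x - ∑ i, cν ν i b x • ζ i x‖ ^ 2 ∂(Cyf70.cyl F).μ ≤
        c * ∫ x, en (Cyf70.cyl F) (cA A) θ x ∂(Cyf70.cyl F).μ := by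
  obtain ⟨c, hc, hb⟩ := h.poi_cyl h' hn
  have hr := H.pos
  have Z := H.cyl
  refine ⟨max c r⁻¹, lt_max_of_lt_left hc, fun θ ζ h1 h2 h3 h4 h5 h6 h7 h8 => ?_⟩
  have sA' := sm_cA (A := A) fun a => by cases a; exacts [h', h.smA _]
  have ig : ∀ {f : M × ℝ → V}, Continuous f → HasCompactSupport f →
      Integrable (fun x => ‖f x‖ ^ 2) (Cyf70.cyl F).μ := fun hf hk =>
    (hf.norm.pow 2).integrable_of_hasCompactSupport (hk.mono fun x hx h0 => hx (by simpa using h0))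
  have k0 : ∀ {f : M × ℝ → V}, (∀ x, (∀ b, θ b x = 0) → f x = 0) → HasCompactSupport f :=
    fun hf => HasCompactSupport.intro (isCompact_iUnion fun b => (h2 b).isCompact) fun x hx =>
      hf x fun b => by
        by_contra h0
        exact hx (Set.mem_iUnion.2 ⟨b, subset_tsupport _ h0⟩)
  have k1 : ∀ i, HasCompactSupport (ctr (cν ν) θ i) := fun i => k0 fun x hx => by simp [ctr, hx]
  have i1 := fun b => ig (Z.sm_prp h1 b).continuous (k0 fun x hx => by simp [prp, ctr, hx])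
  have i2 := fun i => ig ((Z.sm_ctr h1 i).continuous.sub (h5 i)) ((k1 i).sub (h6 i))
  have i3 := fun i => integrable_finsetSum univ fun a _ => ig (ContMDiff.continuous fun x =>
    (frm (Cyf70.cyl F)).sN (fun a => sA' a x) a (Z.sm_ctr h1 i x)) (hcs_nab _ (cA A) (k1 i) a)
  have i4 : Integrable (en (Cyf70.cyl F) (cA A) θ) (Cyf70.cyl F).μ := by
    refine (integrable_finsetSum _ fun a _ => integrable_finsetSum _ fun b _ => ig ?_ ?_).add ?_
    · exact ContMDiff.continuous fun x => ((frm _).sN (fun a => sA' a x) a (h1 b x)).sub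
        (SA.sum _ fun k _ => (sm_gam _ a b k x).smul (h1 k x))
    · exact (hcs_nab _ (cA A) (h2 b) a).sub (k0 fun x hx => by simp [hx])
    · simp only [Z.ric_form (h3 · _)]
      exact (integrable_finsetSum _ fun b _ => i1 b).const_mul r
  have j1 := integrable_finsetSum univ fun b _ => i1 b
  have j3 := integrable_finsetSum univ fun i _ => i3 i
  have e1 := integral_mono ((j1.const_mul r).add j3) i4 fun x =>
    Z.le_en (A := cA A) (fun b => h1 b x) (h3 · x)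
  have e2 := sum_le_sum fun i (_ : i ∈ univ) => hb _ _ (Z.sm_ctr h1 i) (k1 i)
    (fun x => by simp only [ctr, map_sum, map_smul, h4]) (h5 i) (h6 i) (h7 i) (h8 i)
  simp only [Pi.add_apply] at e1
  simp only [Pi.sub_apply] at i2
  rw [integral_add (j1.const_mul r) j3, integral_const_mul, integral_finsetSum _ fun i _ => i3 i]
    at e1
  simp only [Z.nrm_sub]
  rw [integral_add j1 (integrable_finsetSum _ fun i _ => i2 i),
    integral_finsetSum _ fun i _ => i2 i]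
  rw [← mul_sum] at e2
  have p1 : 0 ≤ ∫ x, ∑ b, ‖prp (cν ν) θ b x‖ ^ 2 ∂(Cyf70.cyl F).μ := by positivity
  have p2 : 0 ≤ ∑ i, ∫ x, ∑ a, ‖nab (IC I) (Cyf70.cyl F).e (cA A) a (ctr (cν ν) θ i) x‖ ^ 2
      ∂(Cyf70.cyl F).μ := by positivity
  have m1 : 1 ≤ max c r⁻¹ * r := by
    rw [← inv_mul_cancel₀ hr.ne']; exact mul_le_mul_of_nonneg_right (le_max_right _ _) hr.le
  have m2 := mul_le_mul_of_nonneg_right (le_max_left c r⁻¹) p2
  have m3 := mul_le_mul_of_nonneg_left e1 (hc.le.trans (le_max_left c r⁻¹))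
  have m4 := mul_le_mul_of_nonneg_right m1 p1
  nlinarith

omit [FiniteDimensional ℝ V]

theorem nab_cut (h0 : ∀ y, A none y = 0) {χ : ℝ → ℝ} (hχ : ContDiff ℝ ∞ χ) {ξ : M → V}
    (hξ : Sm I ξ) (a : Option ι) (x : M × ℝ) :
    nab (IC I) (cyl F).e (cA A) a (fun y => χ y.2 • ξ y.1) x =
      a.elim (deriv χ x.2 • ξ x.1) fun a => χ x.2 • nab I F.e (sA A) a ξ x.1 := by
  rw [nab_smul a (sm_snd hχ x) (sm_fst hξ x), nab_fst h0 hξ]
  change (cylP F.toPre).D a _ x • _ + _ = _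
  cases a with
  | none => simp [D_none_snd _ hχ]
  | some a => simp [D_some_snd _ hχ]

theorem sum_nab_cut (h0 : ∀ y, A none y = 0) {χ : ℝ → ℝ} (hχ : ContDiff ℝ ∞ χ) {ξ : M → V}
    (hξ : Sm I ξ) (x : M × ℝ) :
    ∑ a, ‖nab (IC I) (cyl F).e (cA A) a (fun y => χ y.2 • ξ y.1) x‖ ^ 2 =
      χ x.2 ^ 2 * ∑ a, ‖nab (IC I) (cyl F).e (cA A) a (fun y => ξ y.1) x‖ ^ 2 +
        deriv χ x.2 ^ 2 * ‖ξ x.1‖ ^ 2 := by
  simp [nab_cut h0 hχ hξ, nab_fst h0 hξ, Fintype.sum_option, norm_smul, mul_pow, mul_sum, add_comm]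

theorem en_cut (h0 : ∀ y, A none y = 0) {χ : ℝ → ℝ} (hχ : ContDiff ℝ ∞ χ) {θ : Option ι → M → V}
    (hθ : ∀ b, Sm I (θ b)) (x : M × ℝ) :
    en (cyl F) (cA A) (fun b y => χ y.2 • θ b y.1) x =
      χ x.2 ^ 2 * en (cyl F) (cA A) (fun b y => θ b y.1) x +
        deriv χ x.2 ^ 2 * ∑ b, ‖θ b x.1‖ ^ 2 := by
  have e1 : ∀ b k, (cyl F).Gam none b k x = 0 := fun b k => by rw [Tmp64.gam_cyl]; rfl
  have e2 : ∀ a b, cov (IC I) (cyl F).e (cyl F).Gam (cA A) (fun b y => χ y.2 • θ b y.1) (some a) b x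
      = χ x.2 • cov (IC I) (cyl F).e (cyl F).Gam (cA A) (fun b y => θ b y.1) (some a) b x :=
    fun a b => by
    simp only [cov, nab_cut h0 hχ (hθ b), nab_fst h0 (hθ b), Option.elim, smul_sub, smul_sum,
      smul_comm (χ x.2)]
  rw [en, en, Fintype.sum_option, Fintype.sum_option (fun a => ∑ b, ‖cov _ _ _ _ _ a b x‖ ^ 2)]
  simp only [e2]
  simp only [cov, nab_cut h0 hχ (hθ _), nab_fst h0 (hθ _), Option.elim, e1, zero_smul,
    sum_const_zero, sub_zero, norm_smul, mul_pow, Real.norm_eq_abs, sq_abs, real_inner_smul_left,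
    real_inner_smul_right, norm_zero, mul_add, mul_sum, ne_eq, OfNat.ofNat_ne_zero,
    not_false_eq_true, zero_pow, zero_add]
  rw [add_assoc, add_comm]
  congr 2
  exact sum_congr rfl fun b _ => sum_congr rfl fun l _ => by ring

/-- a `t`-invariant density is determined by the cut-off identity -/
theorem integral_cut {e : M → ℝ} (he : Continuous e) {χ : ℝ → ℝ} (hχ : Continuous χ)
    (hc : HasCompactSupport χ) :
    Integrable (fun x : M × ℝ => χ x.2 * e x.1) (cyl F).μ ∧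
      ∫ x, χ x.2 * e x.1 ∂(cyl F).μ = (∫ t, χ t) * ∫ y, e y ∂F.μ := by
  have h1 : Integrable e F.μ := he.integrable_of_hasCompactSupport (.of_compactSpace _)
  have h2 : Integrable χ := hχ.integrable_of_hasCompactSupport hc
  simp only [mul_comm (χ _)]
  exact ⟨h1.mul_prod h2, (integral_prod_mul e χ).trans (mul_comm _ _)⟩

end cyl

end Crest.Agent.X212.Rf65
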