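import Crest.Agent.X212.Wz78.Lich
import Crest.Agent.X212.Wz78.Int

/-!
# Row 212, PSC (helper65): the Gauss equation; curvature of `Sⁿ × ℝᵐ` from local functions
-/

set_option autoImplicit false
set_option linter.unusedSectionVars false
set_option maxHeartbeats 400000
open scoped Manifold ContDiff Topology InnerProductSpace
open Finset Filter

noncomputable section
namespace Crest.Agent.X212.Rf65
open Wz78 Sob92

variable {E H : Type*} [NormedAddCommGroup E] [NormedSpace ℝ E] [TopologicalSpace H]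
  {I : ModelWithCorners ℝ E H} {M : Type*} [TopologicalSpace M] [ChartedSpace H M]
  {V : Type*} [NormedAddCommGroup V] [InnerProductSpace ℝ V]
  {ι : Type*} [Fintype ι] [IsManifold I 1 M]

variable (I) in
/-- Ricci tensor -/
def Ric (e : ι → (x : M) → TangentSpace I x) (c Γ : ι → ι → ι → M → ℝ) (b l : ι) (x : M) : ℝ :=
  ∑ a, Rm I e c Γ a b l a x

variable (I) in
/-- the Hessian of a vector valued function -/
def sff (e : ι → (x : M) → TangentSpace I x) (Γ : ι → ι → ι → M → ℝ) (Θ : M → V) (a b : ι)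
    (y : M) : V := dv I (e a) (dv I (e b) Θ) y - ∑ k, Γ a b k y • dv I (e k) Θ y

variable (I) in
/-- an isometric immersion near `x` -/
structure Imm (e : ι → (x : M) → TangentSpace I x) (P : ι → ι → M → ℝ) (Θ : M → V) (x : M) :
    Prop where
  sm : ∀ᶠ y in 𝓝 x, SA I Θ y
  iso : ∀ᶠ y in 𝓝 x, ∀ a b, ⟪dv I (e a) Θ y, dv I (e b) Θ y⟫_ℝ = P a b y

variable {e : ι → (x : M) → TangentSpace I x} {P : ι → ι → M → ℝ} {c Γ : ι → ι → ι → M → ℝ}
  {Θ : M → V} {x : M}

theorem scal_eq (x : M) : scal I e c Γ x = ∑ b, Ric I e c Γ b b x := sum_comm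

theorem dv_ip (v : (x : M) → TangentSpace I x) {u w : M → V} (hu : SA I u x) (hw : SA I w x) :
    dv I v (fun y => ⟪u y, w y⟫_ℝ) x = ⟪dv I v u x, w x⟫_ℝ + ⟪u x, dv I v w x⟫_ℝ :=
  dv_bil (innerSL ℝ (E := V)) hu.md hw.md

theorem dv_ev_const {v : (x : M) → TangentSpace I x} {f : M → ℝ} {r : ℝ}
    (h : ∀ᶠ y in 𝓝 x, f y = r) : dv I v f x = 0 := by
  rw [dv_congr (v := fun _ => r) h, dv_const]; rfl

theorem Imm.ev (h : Imm I e P Θ x) : ∀ᶠ y in 𝓝 x, Imm I e P Θ y :=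
  (h.sm.eventually_nhds.and h.iso.eventually_nhds).mono fun _ hy => ⟨hy.1, hy.2⟩

variable (L : LC I e P c Γ) (F : Frm I e P c)
include L F

theorem sff_symm (h : SA I Θ x) (a b : ι) : sff I e Γ Θ a b x = sff I e Γ Θ b a x := by
  have := L.hess_skew F con_zero a b h
  simpa only [sff, hess, nab_zero, curv_zero, zero_apply, sub_eq_zero] using this

theorem sa_sff (h : SA I Θ x) (a b : ι) : SA I (sff I e Γ Θ a b) x :=
  (F.sD a (F.sD b h)).sub (SA.sum _ fun k _ => (L.sm a b k x).smul (F.sD k h))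

namespace Imm
variable (h : Imm I e P Θ x)
include h

theorem perp (a b k : ι) : ⟪sff I e Γ Θ a b x, dv I (e k) Θ x⟫_ℝ = 0 := by
  have hs := h.sm.self_of_nhds
  have h1 : ∀ a b k, ⟪sff I e Γ Θ a b x, dv I (e k) Θ x⟫_ℝ =
      ⟪dv I (e a) (dv I (e b) Θ) x, dv I (e k) Θ x⟫_ℝ - Γ a b k x := fun a b k => by
    simp only [sff, inner_sub_left, sum_inner, real_inner_smul_left, h.iso.self_of_nhds, L.proj]
  have h2 : ∀ a b k, ⟪sff I e Γ Θ a b x, dv I (e k) Θ x⟫_ℝ =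
      -⟪sff I e Γ Θ a k x, dv I (e b) Θ x⟫_ℝ := fun a b k => by
    have := dv_ip (e a) (F.sD b hs) (F.sD k hs)
    rw [dv_congr (h.iso.mono fun y hy => hy b k), L.met, real_inner_comm _ (dv I (e b) Θ x)] at this
    rw [h1, h1]; linarith
  have h3 := fun a b => sff_symm L F hs a b
  have e1 := h2 a b k
  have e2 := h2 k a b
  have e3 := h2 b k a
  rw [h3 a k] at e1
  rw [h3 k b] at e2
  rw [h3 b a] at e3
  linarith

/-- **Gauss equation.** -/
theorem gauss (a b m l : ι) : Rm I e c Γ a b m l x =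
    ⟪sff I e Γ Θ b m x, sff I e Γ Θ a l x⟫_ℝ - ⟪sff I e Γ Θ a m x, sff I e Γ Θ b l x⟫_ℝ := by
  have hs := h.sm.self_of_nhds
  have h1 := L.ricci F (A := fun _ _ => (0 : V →L[ℝ] V)) (x := x) (fun _ => contMDiffAt_const)
    (θ := fun k => dv I (e k) Θ) (fun k => F.sD k hs) (fun k => F.projD k Θ x) a b m
  have h2 : ∀ a b, cov I e Γ (fun _ _ => (0 : V →L[ℝ] V)) (fun k => dv I (e k) Θ) a b =
      sff I e Γ Θ a b := fun a b => _root_.funext fun y => by simp only [cov, nab_zero, sff]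
  have h3 : ∀ a b m, ⟪dv I (e a) (sff I e Γ Θ b m) x, dv I (e l) Θ x⟫_ℝ =
      -⟪sff I e Γ Θ b m x, sff I e Γ Θ a l x⟫_ℝ := fun a b m => by
    have := dv_ip (e a) (sa_sff L F hs b m) (F.sD l hs)
    rw [dv_ev_const (h.ev.mono fun y hy => hy.perp L F b m l)] at this
    rw [sff.eq_1 I e Γ Θ a l, inner_sub_right, inner_sum]
    simp only [real_inner_smul_right, h.perp L F, mul_zero, sum_const_zero]
    linarith
  have h4 := congrArg (fun v => ⟪v, dv I (e l) Θ x⟫_ℝ) h1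
  simp only [h2, nab_zero, curv_zero, zero_apply, inner_zero_left,
    inner_add_left, inner_sub_left, sum_inner, real_inner_smul_left, h.iso.self_of_nhds,
    L.Rm_p4 F, h3, h.perp L F, mul_zero, sub_zero, sum_const_zero] at h4
  linarith

end Imm

omit L F in
variable (I) in
/-- near `x`, `Θ` maps onto a piece of `(unit sphere of range π) × ker π` -/
structure Sph (e : ι → (x : M) → TangentSpace I x) (π : V →L[ℝ] V) (Θ : M → V) (x : M) :
    Prop where
  idem : ∀ v, π (π v) = π v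
  symm : ∀ v w, ⟪π v, w⟫_ℝ = ⟪v, π w⟫_ℝ
  sm : ∀ᶠ y in 𝓝 x, SA I Θ y
  nrm : ∀ᶠ y in 𝓝 x, ‖π (Θ y)‖ = 1
  gram : ∀ᶠ y in 𝓝 x, ∀ v w, ∑ a, ⟪v, dv I (e a) Θ y⟫_ℝ * ⟪w, dv I (e a) Θ y⟫_ℝ =
    ⟪v, w⟫_ℝ - ⟪v, π (Θ y)⟫_ℝ * ⟪w, π (Θ y)⟫_ℝ

omit L F in
variable (I) in
/-- the projector onto the directions of the sphere -/
def Qs (e : ι → (x : M) → TangentSpace I x) (π : V →L[ℝ] V) (Θ : M → V) (a b : ι) (x : M) : ℝ :=
  ⟪π (dv I (e a) Θ x), dv I (e b) Θ x⟫_ℝ

namespace Sph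
variable {π : V →L[ℝ] V} (h : Sph I e π Θ x)
include h

omit L F in
theorem ev : ∀ᶠ y in 𝓝 x, Sph I e π Θ y :=
  (h.sm.eventually_nhds.and (h.nrm.eventually_nhds.and h.gram.eventually_nhds)).mono
    fun _ hy => ⟨h.idem, h.symm, hy.1, hy.2.1, hy.2.2⟩

omit L F in
theorem one : ⟪π (Θ x), π (Θ x)⟫_ℝ = 1 := by
  rw [real_inner_self_eq_norm_sq, h.nrm.self_of_nhds, one_pow]

omit L F in
theorem tang (a : ι) : ⟪dv I (e a) Θ x, π (Θ x)⟫_ℝ = 0 := by
  have hs := h.sm.self_of_nhds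
  have := dv_ip (e a) (hs.clm π) (hs.clm π)
  rw [dv_ev_const (h.ev.mono fun y hy => hy.one), dv_clm π hs.md,
    real_inner_comm _ (π (Θ x)), h.symm, h.idem] at this
  linarith

omit L F in
theorem tr_gram [FiniteDimensional ℝ V] (T : V →L[ℝ] V) (hi : ∀ v, T (T v) = T v)
    (hT : ∀ v w, ⟪T v, w⟫_ℝ = ⟪v, T w⟫_ℝ) (hπ : T (π (Θ x)) = π (Θ x)) :
    ∑ a, ⟪T (dv I (e a) Θ x), dv I (e a) Θ x⟫_ℝ = LinearMap.trace ℝ V T - 1 := by
  let b := stdOrthonormalBasis ℝ V
  have h1 : ∀ v, ⟪T v, v⟫_ℝ = ∑ i, ⟪T (b i), v⟫_ℝ * ⟪T (b i), v⟫_ℝ := fun v => by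
    rw [← hi v, hT, ← b.sum_inner_mul_inner]
    exact sum_congr rfl fun i _ => by rw [real_inner_comm, hT]
  have h2 := h1 (π (Θ x))
  rw [hπ, h.one] at h2
  rw [LinearMap.trace_eq_sum_inner _ b, h2, ← sum_sub_distrib]
  simp only [h1 (dv I (e _) Θ x)]
  rw [sum_comm]
  refine sum_congr rfl fun i _ => ?_
  rw [h.gram.self_of_nhds, hT (b i) (T (b i)), hi]; rfl

omit L in
/-- the immersion is isometric as soon as the dimensions agree -/
theorem imm [FiniteDimensional ℝ V]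
    (hd : ∀ y, ∑ a, P a a y = (Module.finrank ℝ V : ℝ) - 1) : Imm I e P Θ x := by
  refine ⟨h.sm, h.ev.mono fun y hy => ?_⟩
  set G : ι → ι → ℝ := fun a b => ⟪dv I (e a) Θ y, dv I (e b) Θ y⟫_ℝ with hG
  have g1 : ∀ a b, ∑ k, G a k * G b k = G a b := fun a b => by
    simp only [hG]; rw [hy.gram.self_of_nhds, hy.tang, zero_mul, sub_zero]
  have g2 : ∀ a b, ∑ k, P b k y * G a k = G a b := fun a b => by
    simp only [hG, ← real_inner_smul_right, ← inner_sum, F.projD]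
  have g3 : ∑ a, G a a = ∑ a, P a a y := by
    have := hy.tr_gram (ContinuousLinearMap.id ℝ V) (fun _ => rfl) (fun _ _ => rfl) rfl
    rw [hd]
    simpa [hG] using this
  have g4 : ∑ a, ∑ k, (G a k - P a k y) ^ 2 = 0 := by
    have : ∀ a, ∑ k, (G a k - P a k y) ^ 2 = P a a y - G a a := fun a => by
      have e : ∀ k, (G a k - P a k y) ^ 2 =
          G a k * G a k - 2 * (P a k y * G a k) + P a k y * P k a y := fun k => by
        rw [(F.pr y).symm k a]; ring
      simp only [e, sum_add_distrib, sum_sub_distrib, ← mul_sum, g1, g2, (F.pr y).idem]; ring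
    simp only [this, sum_sub_distrib, g3, sub_self]
  intro a b
  have h1 := (sum_eq_zero_iff_of_nonneg fun a _ => sum_nonneg fun k _ => sq_nonneg _).1 g4 a
    (mem_univ a)
  have h2 := (sum_eq_zero_iff_of_nonneg fun k _ => sq_nonneg _).1 h1 b (mem_univ b)
  exact sub_eq_zero.1 (pow_eq_zero_iff two_ne_zero |>.1 h2)

omit L F in
theorem Q_symm (a b : ι) : Qs I e π Θ a b x = Qs I e π Θ b a x := by
  rw [Qs, Qs, h.symm, real_inner_comm]

omit L F in
theorem Q_idem (a b : ι) : ∑ k, Qs I e π Θ a k x * Qs I e π Θ b k x = Qs I e π Θ a b x := by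
  simp only [Qs]
  rw [h.gram.self_of_nhds, h.symm _ (π (Θ x)), h.idem, h.tang, zero_mul, sub_zero,
    ← h.symm, h.idem]

omit L F in
theorem Q_tr [FiniteDimensional ℝ V] : ∑ a, Qs I e π Θ a a x = LinearMap.trace ℝ V π - 1 :=
  h.tr_gram π h.idem h.symm (h.idem _)

variable (hi : Imm I e P Θ x)
include hi

theorem sff_eq (a b : ι) : sff I e Γ Θ a b x = -Qs I e π Θ a b x • π (Θ x) := by
  have hs := h.sm.self_of_nhds
  have h1 : ⟪sff I e Γ Θ a b x, π (Θ x)⟫_ℝ = -Qs I e π Θ a b x := by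
    have := dv_ip (e a) (F.sD b hs) (hs.clm π)
    rw [dv_ev_const (h.ev.mono fun y hy => hy.tang b), dv_clm π hs.md,
      real_inner_comm _ (dv I (e b) Θ x)] at this
    simp only [sff, inner_sub_left, sum_inner, real_inner_smul_left, h.tang, mul_zero,
      sum_const_zero, Qs]
    linarith
  refine ext_inner_right ℝ fun w => ?_
  have h2 := h.gram.self_of_nhds (sff I e Γ Θ a b x) w
  simp only [hi.perp L F, zero_mul, sum_const_zero, h1] at h2
  rw [real_inner_smul_left, real_inner_comm w (π _)]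
  linarith

theorem Rm_eq (a b m l : ι) : Rm I e c Γ a b m l x =
    Qs I e π Θ b m x * Qs I e π Θ a l x - Qs I e π Θ a m x * Qs I e π Θ b l x := by
  simp only [hi.gauss L F, h.sff_eq L F hi, real_inner_smul_left, real_inner_smul_right, h.one]
  ring

theorem Ric_eq [FiniteDimensional ℝ V] (b l : ι) :
    Ric I e c Γ b l x = (LinearMap.trace ℝ V π - 2) * Qs I e π Θ b l x := by
  have h1 : ∑ a, Qs I e π Θ a l x * Qs I e π Θ b a x = Qs I e π Θ b l x := by
    rw [← h.Q_idem b l]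
    exact sum_congr rfl fun a _ => by rw [h.Q_symm a l, mul_comm]
  simp only [Ric, h.Rm_eq L F hi, sum_sub_distrib, ← mul_sum, h.Q_tr, h1]
  ring

theorem scal_eq [FiniteDimensional ℝ V] :
    scal I e c Γ x = (LinearMap.trace ℝ V π - 2) * (LinearMap.trace ℝ V π - 1) := by
  simp only [Rf65.scal_eq, h.Ric_eq L F hi, ← mul_sum, h.Q_tr]

/-- the flat directions are parallel -/
theorem par {v : V} (hv : π v = 0) (a b : ι) :
    dv I (e a) (fun y => ⟪v, dv I (e b) Θ y⟫_ℝ) x = ∑ k, Γ a b k x * ⟪v, dv I (e k) Θ x⟫_ℝ := by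
  have h1 := congrArg (fun w => ⟪v, w⟫_ℝ) (h.sff_eq L F hi a b)
  simp only [sff, inner_sub_right, inner_sum, real_inner_smul_right, ← h.symm, hv, inner_zero_left,
    mul_zero, sub_eq_zero] at h1
  rw [← h1]
  exact dv_clm (innerSL ℝ v) (F.sD b h.sm.self_of_nhds).md

end Sph

end Crest.Agent.X212.Rf65
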