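import Crest.Agent.X212.Cht98.Jb
import Crest.Agent.X212.Wrd81.Trf
import Crest.Agent.X212.Nk89.Lv
import Crest.Agent.X212.Rdc90.Defs
import Crest.Agent.X212.Ink3.Main

/-!
# Row 212, RFACE: charts of parts with (moving) cylindrical ends, the index of a part

`PX` : walls of positive scalar curvature.  `Bp` : a base parameter with its weighted family and
equations.  `EC` : a literal reference whose limits move along harmonic forms.  `Ix` : the index.
-/

set_option autoImplicit false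
set_option linter.unusedSectionVars false
noncomputable section
open scoped Manifold ContDiff Topology InnerProductSpace
open MeasureTheory Set Function Filter

namespace Crest.Agent.X212.Rf65
open An M Nd18 Mod61 Nk89 Cht98 Rdc90
open Wz78 (nab)

/-! ### cross-sections -/

section ysec
variable {E3 : Type} [NormedAddCommGroup E3] [NormedSpace ℝ E3] [FiniteDimensional ℝ E3]
  [MeasurableSpace E3] [BorelSpace E3]
  {H3 : Type} [TopologicalSpace H3] {I3 : ModelWithCorners ℝ E3 H3} [I3.Boundaryless]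
  {Y : Type} [TopologicalSpace Y] [ChartedSpace H3 Y] [IsManifold I3 ∞ Y] [T2Space Y]
  [MeasurableSpace Y] [BorelSpace Y] [SecondCountableTopology Y] [CompactSpace Y]
  {κ : Type} [Fintype κ] {lam : Type} [Fintype lam] (D : YD I3 Y κ lam) (β : YC Y κ lam)

/-- parallel sections of `g` -/
structure ParY (ξ : Y → β.m.A) : Prop where
  sm : Sm I3 ξ
  mem : ∀ y, ξ y ∈ β.m.gS y
  par : ∀ k y, nab I3 D.F.e (A0 β) k ξ y = 0

/-- the dimension of the stabiliser -/
def dz : ℕ := Module.finrank ℝ (Submodule.span ℝ {ξ | ParY D β ξ})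

/-- the dimension of the harmonic forms -/
def dh : ℕ := Module.finrank ℝ (Submodule.span ℝ {η | Har D β η})

/-- positive scalar curvature; `b` parallel forms (`b = 0` : lens, `b = 1` : `S¹ × S²`) -/
structure PY (b : ℕ) : Prop where
  b1 : b ≤ 1
  ps : ∃ c₀ > 0, PS D c₀
  psc : ∃ (ν : Fin b → κ → Y → ℝ) (ρ : ℝ), Psc D.F ν ρ

end ysec

variable {Wi : Type} {X : Mf 4} {A κ lam : Type} [Fintype A] [Fintype κ] [Fintype lam]
  [DecidableEq lam] {M : Mark X A κ} {W : World M} {N : ML M lam} {Λ : Lns W N}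
  {A' h : Type} [Fintype A'] [DecidableEq A'] [Fintype h] {r n : ℕ}

/-- a wall of positive scalar curvature without neck terms -/
structure PX (S : Xs Wi κ lam) : Prop where
  nil : Ink3.Nil S.N
  ty : S.ty = 0
  py : ∃ b, PY S.D b

/-- the broken cylindrical walls have positive scalar curvature and no neck terms -/
structure PJ (J : Job Wi Λ A' h r n) (c : M.Cl) : Prop where
  nil : ∀ a ∈ cylW c, Ink3.Nil (J.xs a).N ∧ (J.xs a).ty = 0
  py : ∀ a ∈ cylW c, ∃ b, PY (J.xs a).D b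

/-! ### base parameters -/

instance (p : Prt A A' h) : Fintype p.V := Fintype.ofFinite _

/-- the parameters of a chart: live coordinates and moving limits -/
abbrev Tq (p : Prt A A' h) (U : Type) : Type := (p.V → ℝ) × (U → ℝ)

/-- the ends of `Z c` -/
abbrev Ed (c : M.Cl) : Type := cylW c × Bool

/-- a perturbation without real rows -/
def ptx {Z ι lam : Type} [Fintype ι] [Fintype lam] (m : ℕ) (τ : Pt Z ι lam r n) :
    PtX Z ι lam r n m := ⟨τ, fun _ => 0⟩

/-- the normalisation of `z` -/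
def nrm {Z ι lam : Type} [Fintype ι] [Fintype lam] (m : ℕ) : PtX Z ι lam r n m :=
  ⟨Ink3.pz, fun x _ => ‖x.z‖ ^ 2 - 1⟩

/-- a base parameter over the face `c` -/
structure Bp (J : Job Wi Λ A' h r n) (c : M.Cl) where
  s : A' → ℝ
  br : J.Θ s ∈ M.Br c.1
  O : J.Θ s ∈ M.O c.1

variable {J : Job Wi Λ A' h r n} {c : M.Cl}

namespace Bp
variable (b : Bp J c) {T : Type} [NormedAddCommGroup T] [NormedSpace ℝ T]

/-- the weighted family over the pieces `P ⊇ P'` along `θ` -/
abbrev Fm (P P' : Set (Reg A)) (θ : T → A' → ℝ) (δ : ℝ) :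
    Fam (W.Z c).I (W.Z c).M (Option κ) (lam ⊕ lam) T :=
  wF (jEnd (W.un c P) (W.un c P') θ b.br b.O) δ

/-- its ends -/
abbrev En (P P' : Set (Reg A)) (θ : T → A' → ℝ) (δ : ℝ) (i : Ed c) : End (b.Fm P P' θ δ) :=
  wE (jEnd (W.un c P) (W.un c P') θ b.br b.O) δ i

variable (p : Prt A A' h) (U : Type) [Fintype U]

open Classical in
/-- the parameters of the job -/
def θ (t : Tq p U) : A' → ℝ := fun a => if k : a ∈ p.V then t.1 ⟨a, k⟩ else b.s a

/-- the family of the part -/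
abbrev F (δ : ℝ) : Fam (W.Z c).I (W.Z c).M (Option κ) (lam ⊕ lam) (Tq p U) :=
  b.Fm p.P p.P' (b.θ p U) δ

/-- the equations -/
def e (δ : ℝ) (t : Tq p U) : PtX (W.Z c).M (Option κ) (lam ⊕ lam) r n (min r 1) :=
  (b.F p U δ).eq0 r n _ t - ptx _ (J.τ0 c (b.θ p U t)) + nrm _

/-- the perturbations -/
def τ (w : Wi) (t : Tq p U) : PtX (W.Z c).M (Option κ) (lam ⊕ lam) r n (min r 1) :=
  -ptx _ (J.τw c (b.θ p U t) w)

end Bp

/-! ### charts -/

/-- a chart: a reference on the family of the part; the limit at the end `i` is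
`β i + t (μ i) • η i` -/
structure EC (b : Bp J c) (p : Prt A A' h) (U : Type) [Fintype U] (δ : ℝ) where
  o : Ref (b.F p U δ)
  R : ℝ
  β : ∀ i : Ed c, YC (J.xs i.1).Y.M κ (lam ⊕ lam)
  η : ∀ i, κ → (J.xs i.1).Y.M → (β i).m.A
  μ : Ed c → Option U
  v : ∀ i, (J.xs i.1).Y.M × ℝ → CL (β i).m.V o.m.V

namespace EC
variable {b : Bp J c} {p : Prt A A' h} {U : Type} [Fintype U] {δ : ℝ} (E : EC b p U δ)

/-- the coordinate of the limit -/
def lm (i : Ed c) (t : Tq p U) : ℝ := (E.μ i).elim 0 t.2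

/-- the limit -/
def lim (i : Ed c) (t : Tq p U) : YC (J.xs i.1).Y.M κ (lam ⊕ lam) :=
  bh (E.β i) (E.lm i t • E.η i) 0

structure OK : Prop where
  d0 : 0 < δ
  d1 : δ ≤ dl0
  R5 : 5 ≤ E.R
  lit : ∀ i, (b.En p.P p.P' (b.θ p U) δ i).Lit E.o E.R
  har : ∀ i, p.En i.1 i.2 → E.μ i ≠ none →
    Bs (J.xs i.1).D (E.β i) ∧ Har (J.xs i.1).D (E.β i) (E.η i) ∧ E.η i ≠ 0
  mov : ∀ i, p.En i.1 i.2 → ∀ t ∈ (b.F p U δ).Q, EqOn (J.xs i.1).D.B (J.xs i.1).D.Z univ
    (cy (E.lim i t)) (cy ((b.En p.P p.P' (b.θ p U) δ i).sl E.o (E.R + 1) t)) (E.v i) 1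

/-- the point `x` represents the object `y` (without its cuts) -/
structure Rep (y : J.Obc c) (x : Pnt E.o r) : Prop where
  s : ∀ a : p.V, x.t.1 a = y.s a
  rep : Nk89.Rep y.x x

end EC

/-! ### the index -/

/-- the unperturbed equations at the connection of `y` over the pieces `P`, with the spinor over
`P'`, have the index `d` for the decay `δ` -/
def Ix (δ : ℝ) (y : J.Obc c) (P P' : Set (Reg A)) (d : ℤ) : Prop :=
  ∃ (b : Bp J c) (o : Ref (b.Fm P P' (fun _ : T0 => b.s) δ)) (R : ℝ) (x : Pnt o 0),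
    b.s = y.s ∧ 5 ≤ R ∧ (∀ i, (b.En P P' _ δ i).Lit o R) ∧ o.Φ0 = 0 ∧ Nk89.Rep y.x.con x ∧
    Idx 8 ((b.Fm P P' (fun _ : T0 => b.s) δ).eq0 0 0 0) x d

/-- the index of the connection over a piece -/
def ia (δ : ℝ) (y : J.Obc c) (π : Reg A) : ℤ := Classical.epsilon (Ix δ y {π} ∅)

/-- the (real) index of the Dirac operator over a piece -/
def idr (δ : ℝ) (y : J.Obc c) (π : Reg A) : ℤ := Classical.epsilon (Ix δ y {π} {π}) - ia δ y π

/-- the index of the fields of a part -/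
def ix (δ : ℝ) (y : J.Obc c) (P P' : Set (Reg A)) : ℤ :=
  ∑ᶠ π ∈ P, ia δ y π + ∑ᶠ π ∈ P', idr δ y π

/-- the stabilisers of the limits at the ends of the pieces `P` -/
def stb (y : J.Obc c) (P : Set (Reg A)) : ℕ :=
  ∑ᶠ i ∈ {i : Ed c | ∃ π ∈ P, π i.1 = some i.2}, dz (J.xs i.1).D (y.β i.1 i.2)

/-- the expected dimension of the chart of a part with `u` moving limits, modulo the based group -/
def dm (δ : ℝ) (y : J.Obc c) (p : Prt A A' h) (u : ℕ) : ℤ :=
  ix δ y p.P p.P' + 2 * r - 2 * n - (min r 1 : ℕ) + p.V.ncard + u - 2 * p.H.ncard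

end Crest.Agent.X212.Rf65
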