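import Mathlib

/-!
# Row 212, ZPK (helper65): the estimate for the peaked weight, for curves in a Hilbert space
-/

set_option autoImplicit false
set_option linter.unusedSectionVars false
set_option maxHeartbeats 400000
noncomputable section
open Set Filter Topology MeasureTheory Real
open scoped RealInnerProductSpace

namespace Crest.Agent.X212.Rf65

/-- the profile of a peaked weight: `ρ` is `|t|` (or `± t`) up to a constant off `[-1, 1]`;
`χ` is the density of the side condition -/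
structure Pk (ρ χ : ℝ → ℝ) (M : ℝ) : Prop where
  sm : ContDiff ℝ 2 ρ
  le : ∀ t, |deriv ρ t| ≤ 1
  sq : ∀ t, 1 < |t| → deriv ρ t ^ 2 = 1
  le2 : ∀ t, |deriv (deriv ρ) t| ≤ M
  z2 : ∀ t, 1 < |t| → deriv (deriv ρ) t = 0
  le0 : ∀ t, |t| ≤ 1 → |ρ t| ≤ 1
  ct : Continuous χ
  nn : ∀ t, 0 ≤ χ t
  z : ∀ t, 1 < |t| → χ t = 0
  one : ∫ t, χ t = 1

theorem sq_int_le {a : ℝ → ℝ} (ha : Continuous a) :
    (∫ t in (-1 : ℝ)..1, a t) ^ 2 ≤ 2 * ∫ t in (-1 : ℝ)..1, a t ^ 2 := by
  set c := (∫ t in (-1 : ℝ)..1, a t) / 2 with hc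
  have h0 : 0 ≤ ∫ t in (-1 : ℝ)..1, (a t - c) ^ 2 :=
    intervalIntegral.integral_nonneg (by norm_num) fun t _ => sq_nonneg _
  have e : (fun t => (a t - c) ^ 2) = fun t => (a t ^ 2 - 2 * c * a t) + c ^ 2 := by
    funext t; ring
  rw [e, intervalIntegral.integral_add (by apply Continuous.intervalIntegrable; fun_prop)
      (by apply Continuous.intervalIntegrable; fun_prop),
    intervalIntegral.integral_sub (by apply Continuous.intervalIntegrable; fun_prop)
      (by apply Continuous.intervalIntegrable; fun_prop),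
    intervalIntegral.integral_const_mul, intervalIntegral.integral_const, smul_eq_mul] at h0
  have : ∫ t in (-1 : ℝ)..1, a t = 2 * c := by rw [hc]; ring
  rw [this] at h0 ⊢
  nlinarith

variable {A : Type*} [NormedAddCommGroup A] [InnerProductSpace ℝ A] [CompleteSpace A]

theorem hcs_of {β γ : Type*} [Zero β] [Zero γ] {U : ℝ → β} {g : ℝ → γ} (h : HasCompactSupport U)
    (hg : ∀ t, U t = 0 → g t = 0) : HasCompactSupport g :=
  h.mono fun t ht h0 => ht (hg t h0)

/-- local bound of a curve by its mean and its derivative -/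
theorem loc_bound {ρ χ : ℝ → ℝ} {M : ℝ} (h : Pk ρ χ M) {g g' : ℝ → A}
    (hd : ∀ t, HasDerivAt g (g' t) t) (hc : Continuous g') {t : ℝ} (ht : |t| ≤ 1) :
    ‖g t‖ ≤ ‖∫ s, χ s • g s‖ + ∫ s in (-1 : ℝ)..1, ‖g' s‖ := by
  set L := ∫ s in (-1 : ℝ)..1, ‖g' s‖
  have hg : Continuous g := continuous_iff_continuousAt.2 fun s => (hd s).continuousAt
  have hχ : HasCompactSupport χ :=
    HasCompactSupport.intro (isCompact_Icc (a := -1) (b := 1)) fun s hs =>
      h.z s (by by_contra hh; exact hs (abs_le.1 (not_lt.1 hh)))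
  have hi := h.ct.integrable_of_hasCompactSupport (μ := volume) hχ
  have h1 : ∀ s, |s| ≤ 1 → ‖g t - g s‖ ≤ L := by
    intro s hs
    rw [← intervalIntegral.integral_eq_sub_of_hasDerivAt (fun x _ => hd x)
      (hc.intervalIntegrable _ _)]
    refine intervalIntegral.norm_integral_le_abs_integral_norm.trans ?_
    refine (intervalIntegral.abs_integral_mono_interval (c := -1) (d := 1) ?_
      (Eventually.of_forall fun x => norm_nonneg _) (hc.norm.intervalIntegrable _ _)).trans ?_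
    · exact uIoc_subset_uIoc_of_uIcc_subset_uIcc (uIcc_subset_uIcc
        (by rw [uIcc_of_le (by norm_num)]; exact abs_le.1 hs)
        (by rw [uIcc_of_le (by norm_num)]; exact abs_le.1 ht))
    · exact (abs_of_nonneg (intervalIntegral.integral_nonneg (by norm_num)
        fun x _ => norm_nonneg _)).le
  have hi2 : Integrable fun s => χ s • g s :=
    (h.ct.smul hg).integrable_of_hasCompactSupport (hcs_of hχ fun s hs => by simp [hs])
  have h2 : g t - ∫ s, χ s • g s = ∫ s, χ s • (g t - g s) := by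
    simp only [smul_sub]
    rw [integral_sub (hi.smul_const _) hi2, integral_smul_const, h.one, one_smul]
  have h3 : ‖∫ s, χ s • (g t - g s)‖ ≤ L := by
    refine (norm_integral_le_of_norm_le (hi.mul_const L) (Eventually.of_forall fun s => ?_)).trans
      (by rw [integral_mul_const, h.one, one_mul])
    rw [norm_smul, Real.norm_eq_abs, abs_of_nonneg (h.nn s)]
    by_cases hs : |s| ≤ 1
    · exact mul_le_mul_of_nonneg_left (h1 s hs) (h.nn s)
    · simp [h.z s (not_le.1 hs)]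
  have h4 := norm_add_le (∫ s, χ s • g s) (g t - ∫ s, χ s • g s)
  rw [add_sub_cancel, h2] at h4
  linarith

section proj
variable {P : A →L[ℝ] A} (hP : ∀ x y, ⟪x - P x, P y⟫ = 0)
include hP

theorem pythP (x : A) : ‖x‖ ^ 2 = ‖x - P x‖ ^ 2 + ‖P x‖ ^ 2 := by
  have := norm_add_sq_real (x - P x) (P x)
  rw [hP, sub_add_cancel] at this
  linarith

theorem norm_P_le (x : A) : ‖P x‖ ≤ ‖x‖ :=
  le_of_sq_le_sq (by nlinarith [pythP hP x, sq_nonneg ‖x - P x‖]) (norm_nonneg _)

theorem norm_sub_P_le (x : A) : ‖x - P x‖ ≤ ‖x‖ :=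
  le_of_sq_le_sq (by nlinarith [pythP hP x, sq_nonneg ‖P x‖]) (norm_nonneg _)

end proj

/-- the constant of the estimate -/
def cPk (C δ M : ℝ) : ℝ := 4 * C ^ 2 + δ⁻¹ * (δ⁻¹ + (|M| + 2) * (8 * exp 4))

/-- **The estimate for the peaked weight.** `U` is the conjugated section, `V = S U`,
`P` the projection onto the kernel of `S`. -/
theorem peak_curve {ρ χ : ℝ → ℝ} {M : ℝ} (h : Pk ρ χ M) {P : A →L[ℝ] A}
    (hP : ∀ x y, ⟪x - P x, P y⟫ = 0) {U U' V : ℝ → A} (hd : ∀ t, HasDerivAt U (U' t) t)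
    (hc : Continuous U') (hV : Continuous V) (hs : HasCompactSupport U)
    (hs' : HasCompactSupport U') (hsV : HasCompactSupport V) (hPV : ∀ t, P (V t) = 0)
    (ho : ∫ t, ⟪U' t, V t⟫ = 0) {C δ : ℝ} (hg : ∀ t, ‖U t - P (U t)‖ ≤ C * ‖V t‖) (hδ : 0 < δ)
    (hδ1 : δ ≤ 1) (hδC : 2 * (C * δ) ^ 2 ≤ 1 / 2) :
    ∫ t, ‖U t‖ ^ 2 ≤ cPk C δ M * ((∫ t, ‖U' t + V t + (δ * deriv ρ t) • U t‖ ^ 2) +
      ‖∫ t, χ t • exp (δ * ρ t) • P (U t)‖ ^ 2) := by
  have hU : Continuous U := continuous_iff_continuousAt.2 fun s => (hd s).continuousAt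
  have hρ1 : ContDiff ℝ 1 (deriv ρ) := h.sm.deriv' (n := 1)
  have hr : Continuous (deriv ρ) := hρ1.continuous
  have hr2 : Continuous (deriv (deriv ρ)) := (hρ1.deriv' (n := 0)).continuous
  have hdρ : ∀ t, HasDerivAt ρ (deriv ρ t) t := fun t =>
    (h.sm.differentiable (by simp) t).hasDerivAt
  have hdr : ∀ t, HasDerivAt (deriv ρ) (deriv (deriv ρ) t) t := fun t =>
    (hρ1.differentiable (by simp) t).hasDerivAt
  set f : ℝ → A := fun t => U' t + V t + (δ * deriv ρ t) • U t with hf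
  have hfc : Continuous f := by rw [hf]; fun_prop
  have hfs : HasCompactSupport f := (hs'.add hsV).add (hcs_of hs fun t ht => by simp [ht])
  have iF : Integrable fun t => ‖f t‖ ^ 2 :=
    (hfc.norm.pow 2).integrable_of_hasCompactSupport (hcs_of hfs fun t ht => by simp [ht])
  set Φ := ∫ t, ‖f t‖ ^ 2 with hΦ
  have hΦ0 : 0 ≤ Φ := integral_nonneg fun t => sq_nonneg _
  set m := ∫ t, χ t • exp (δ * ρ t) • P (U t)
  have iW : Integrable fun t => ‖U t - P (U t)‖ ^ 2 :=
    (by fun_prop : Continuous fun t => ‖U t - P (U t)‖ ^ 2).integrable_of_hasCompactSupport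
      (hcs_of hs fun t ht => by simp [ht])
  have iP : Integrable fun t => ‖P (U t)‖ ^ 2 :=
    (by fun_prop : Continuous fun t => ‖P (U t)‖ ^ 2).integrable_of_hasCompactSupport
      (hcs_of hs fun t ht => by simp [ht])
  have iO : Integrable fun t => ⟪U' t, V t⟫ :=
    (hc.inner hV).integrable_of_hasCompactSupport (hcs_of hsV fun t ht => by simp [ht])
  have hPf : ∀ t, P (f t) = P (U' t) + (δ * deriv ρ t) • P (U t) := fun t => by
    simp [hf, hPV]
  -- the part orthogonal to the kernel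
  have h1 : ∫ t, ‖U t - P (U t)‖ ^ 2 ≤ 4 * C ^ 2 * Φ := by
    have key : ∀ t, ‖U t - P (U t)‖ ^ 2 ≤ 4 * C ^ 2 * ‖f t‖ ^ 2 - 4 * C ^ 2 * ⟪U' t, V t⟫ := by
      intro t
      have e : (U' t - P (U' t)) + V t = (f t - P (f t)) - (δ * deriv ρ t) • (U t - P (U t)) := by
        rw [hPf, smul_sub]; simp only [hf]; abel
      have a1 : ‖(U' t - P (U' t)) + V t‖ ≤ ‖f t‖ + δ * ‖U t - P (U t)‖ := by
        rw [e]
        refine (norm_sub_le _ _).trans (add_le_add (norm_sub_P_le hP _) ?_)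
        rw [norm_smul, Real.norm_eq_abs, abs_mul, abs_of_pos hδ]
        exact mul_le_mul_of_nonneg_right (mul_le_of_le_one_right hδ.le (h.le t)) (norm_nonneg _)
      have a2 : ⟪P (U' t), V t⟫ = 0 := by
        have := hP (V t) (U' t)
        rwa [hPV, sub_zero, real_inner_comm] at this
      have a3 := norm_add_sq_real (U' t - P (U' t)) (V t)
      rw [inner_sub_left, a2, sub_zero] at a3
      have a4 := pow_le_pow_left₀ (norm_nonneg _) a1 2
      have a5 := pow_le_pow_left₀ (norm_nonneg _) (hg t) 2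
      have a6 : ‖V t‖ ^ 2 ≤ 2 * ‖f t‖ ^ 2 + 2 * (δ * ‖U t - P (U t)‖) ^ 2 - 2 * ⟪U' t, V t⟫ := by
        nlinarith [sq_nonneg ‖U' t - P (U' t)‖, sq_nonneg (‖f t‖ - δ * ‖U t - P (U t)‖)]
      have a7 := mul_le_mul_of_nonneg_left a6 (sq_nonneg C)
      have a8 := mul_le_mul_of_nonneg_right hδC (sq_nonneg ‖U t - P (U t)‖)
      nlinarith
    have iX : Integrable fun t => 4 * C ^ 2 * ‖f t‖ ^ 2 - 4 * C ^ 2 * ⟪U' t, V t⟫ :=
      (iF.const_mul _).sub (iO.const_mul _)
    refine (integral_mono iW iX key).trans (le_of_eq ?_)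
    rw [integral_sub (iF.const_mul _) (iO.const_mul _), integral_const_mul, integral_const_mul, ho,
      mul_zero, sub_zero]
  -- the local bound
  have h2 : ∀ t, |t| ≤ 1 → ‖P (U t)‖ ^ 2 ≤ 4 * exp 4 * (Φ + ‖m‖ ^ 2) := by
    intro t ht
    have hgd : ∀ s, HasDerivAt (fun s => exp (δ * ρ s) • P (U s)) (exp (δ * ρ s) • P (f s)) s := by
      intro s
      have := (((hdρ s).const_mul δ).exp).smul (P.hasFDerivAt.comp_hasDerivAt s (hd s))
      refine this.congr_deriv ?_
      rw [hPf, smul_add, mul_smul]; rfl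
    have hρc := h.sm.continuous
    have a1 := loc_bound h hgd (by fun_prop) ht
    have he : ∀ s, |s| ≤ 1 → exp (δ * ρ s) ≤ exp 1 ∧ exp (-1) ≤ exp (δ * ρ s) := fun s hs => by
      have := abs_le.1 (h.le0 s hs)
      exact ⟨exp_le_exp.2 (by nlinarith), exp_le_exp.2 (by nlinarith)⟩
    have a2 : ∫ s in (-1 : ℝ)..1, ‖exp (δ * ρ s) • P (f s)‖ ≤
        exp 1 * ∫ s in (-1 : ℝ)..1, ‖f s‖ := by
      rw [← intervalIntegral.integral_const_mul]
      refine intervalIntegral.integral_mono_on (by norm_num)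
        (by apply Continuous.intervalIntegrable; fun_prop)
        (by apply Continuous.intervalIntegrable; fun_prop) fun s hs => ?_
      rw [norm_smul, Real.norm_eq_abs, abs_of_pos (exp_pos _)]
      exact mul_le_mul (he s (abs_le.2 hs)).1 (norm_P_le hP _) (norm_nonneg _) (exp_pos _).le
    have a3 := sq_int_le hfc.norm
    have a4 : ∫ s in (-1 : ℝ)..1, ‖f s‖ ^ 2 ≤ Φ := by
      rw [intervalIntegral.integral_of_le (by norm_num)]
      exact setIntegral_le_integral iF (Eventually.of_forall fun s => sq_nonneg _)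
    rw [norm_smul, Real.norm_eq_abs, abs_of_pos (exp_pos _)] at a1
    set L := ∫ s in (-1 : ℝ)..1, ‖f s‖
    have a5 : ‖P (U t)‖ ≤ exp 1 * (‖m‖ + exp 1 * L) := by
      have b1 := mul_le_mul_of_nonneg_right (he t ht).2 (norm_nonneg (P (U t)))
      have b2 := mul_le_mul_of_nonneg_left (b1.trans (a1.trans (add_le_add_right a2 _)))
        (exp_pos 1).le
      rwa [← mul_assoc, ← exp_add, add_neg_cancel, exp_zero, one_mul] at b2
    have a6 := pow_le_pow_left₀ (norm_nonneg _) a5 2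
    have e1 : exp 4 = exp 1 ^ 4 := by rw [← exp_nat_mul]; norm_num
    have e2 : 1 ≤ exp 1 := one_le_exp zero_le_one
    have e3 : exp 1 ^ 2 ≤ exp 1 ^ 4 := pow_le_pow_right₀ e2 (by norm_num)
    have e4 : 0 ≤ exp 1 ^ 2 := by positivity
    rw [e1]
    have a7 : (‖m‖ + exp 1 * L) ^ 2 ≤ 2 * ‖m‖ ^ 2 + 2 * (exp 1 ^ 2 * L ^ 2) := by
      nlinarith [sq_nonneg (‖m‖ - exp 1 * L)]
    have a8 := mul_le_mul_of_nonneg_left a7 e4
    have a9 := mul_le_mul_of_nonneg_left (a3.trans (by linarith : _ ≤ 2 * Φ))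
      (by positivity : 0 ≤ exp 1 ^ 4)
    have a10 := mul_le_mul_of_nonneg_right e3 (sq_nonneg ‖m‖)
    nlinarith [mul_nonneg (by positivity : 0 ≤ exp 1 ^ 4) (sq_nonneg ‖m‖)]
  -- the multiplier identity
  set B := 4 * exp 4 * (Φ + ‖m‖ ^ 2) with hB
  have hB0 : 0 ≤ B := by positivity
  have h3 : δ * ∫ t, ‖P (U t)‖ ^ 2 ≤ (|M| + 2) * (2 * B) + δ⁻¹ * Φ := by
    set k : ℝ → ℝ := fun t => deriv (deriv ρ) t * ‖P (U t)‖ ^ 2 +
      deriv ρ t * (2 * ⟪P (U t), P (U' t)⟫) with hk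
    have hkd : ∀ t, HasDerivAt (fun t => deriv ρ t * ‖P (U t)‖ ^ 2) (k t) t := fun t =>
      (hdr t).mul (P.hasFDerivAt.comp_hasDerivAt t (hd t)).norm_sq
    have iK : Integrable k := (by rw [hk]; fun_prop : Continuous k).integrable_of_hasCompactSupport
      (hcs_of hs fun t ht => by simp [hk, ht])
    have k0 : ∫ t, k t = 0 := integral_eq_zero_of_hasDerivAt_of_integrable hkd iK
      ((by fun_prop : Continuous fun t => deriv ρ t * ‖P (U t)‖ ^ 2).integrable_of_hasCompactSupport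
        (hcs_of hs fun t ht => by simp [ht]))
    have iI : Integrable ((Icc (-1 : ℝ) 1).indicator fun _ => (|M| + 2) * B) :=
      (integrableOn_const (by simp)).integrable_indicator measurableSet_Icc
    have key : ∀ t, δ * ‖P (U t)‖ ^ 2 ≤
        ((Icc (-1 : ℝ) 1).indicator (fun _ => (|M| + 2) * B) t + δ⁻¹ * ‖f t‖ ^ 2) - k t := by
      intro t
      have e : P (U' t) = P (f t) - (δ * deriv ρ t) • P (U t) := by rw [hPf]; abel
      have a1 : k t = deriv (deriv ρ) t * ‖P (U t)‖ ^ 2 + deriv ρ t * (2 * ⟪P (U t), P (f t)⟫) -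
          2 * δ * deriv ρ t ^ 2 * ‖P (U t)‖ ^ 2 := by
        simp only [hk]
        rw [e, inner_sub_right, real_inner_smul_right, real_inner_self_eq_norm_sq]; ring
      have a2 : deriv ρ t * (2 * ⟪P (U t), P (f t)⟫) ≤ δ * ‖P (U t)‖ ^ 2 + δ⁻¹ * ‖f t‖ ^ 2 := by
        have b1 : |⟪P (U t), P (f t)⟫| ≤ ‖P (U t)‖ * ‖f t‖ := (abs_real_inner_le_norm _ _).trans
          (mul_le_mul_of_nonneg_left (norm_P_le hP _) (norm_nonneg _))
        have b2 : deriv ρ t * ⟪P (U t), P (f t)⟫ ≤ ‖P (U t)‖ * ‖f t‖ := by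
          refine (le_abs_self _).trans ?_
          rw [abs_mul]
          exact (mul_le_of_le_one_left (abs_nonneg _) (h.le t)).trans b1
        have b3 : δ⁻¹ * ‖f t‖ ^ 2 = δ * (δ⁻¹ * ‖f t‖) ^ 2 := by field_simp
        have b4 : ‖P (U t)‖ * ‖f t‖ = δ * (‖P (U t)‖ * (δ⁻¹ * ‖f t‖)) := by field_simp
        have b5 := mul_nonneg hδ.le (sq_nonneg (‖P (U t)‖ - δ⁻¹ * ‖f t‖))
        rw [b3]; nlinarith
      by_cases ht : |t| ≤ 1
      · rw [indicator_of_mem (mem_Icc.2 (abs_le.1 ht))]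
        have b1 := h2 t ht
        have b2 := sq_nonneg ‖P (U t)‖
        have b3 : deriv (deriv ρ) t * ‖P (U t)‖ ^ 2 ≤ |M| * B :=
          mul_le_mul ((le_abs_self _).trans ((h.le2 t).trans (le_abs_self M))) b1 b2 (abs_nonneg _)
        have b4 := mul_nonneg (mul_nonneg hδ.le (sq_nonneg (deriv ρ t))) b2
        have b5 := mul_le_mul hδ1 b1 b2 zero_le_one
        nlinarith
      · rw [indicator_of_notMem (fun hh => ht (abs_le.2 (mem_Icc.1 hh))), a1, h.z2 t (not_le.1 ht),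
          h.sq t (not_le.1 ht)]
        linarith
    have iY : Integrable fun t =>
        (Icc (-1 : ℝ) 1).indicator (fun _ => (|M| + 2) * B) t + δ⁻¹ * ‖f t‖ ^ 2 :=
      iI.add (iF.const_mul _)
    have iX : Integrable fun t =>
        ((Icc (-1 : ℝ) 1).indicator (fun _ => (|M| + 2) * B) t + δ⁻¹ * ‖f t‖ ^ 2) - k t :=
      iY.sub iK
    have := integral_mono (iP.const_mul δ) iX key
    rw [integral_const_mul, integral_sub iY iK,
      integral_add iI (iF.const_mul _), k0, integral_const_mul,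
      integral_indicator_const _ measurableSet_Icc] at this
    simp only [Real.volume_real_Icc, smul_eq_mul] at this
    norm_num at this
    linarith
  have h4 : ∫ t, ‖U t‖ ^ 2 = (∫ t, ‖U t - P (U t)‖ ^ 2) + ∫ t, ‖P (U t)‖ ^ 2 := by
    rw [← integral_add iW iP]
    exact integral_congr_ae (Eventually.of_forall fun t => pythP hP _)
  have h5 : ∫ t, ‖P (U t)‖ ^ 2 ≤ δ⁻¹ * ((|M| + 2) * (2 * B) + δ⁻¹ * Φ) := by
    rw [le_inv_mul_iff₀ hδ]; exact h3
  have hi : 0 < δ⁻¹ := inv_pos.2 hδ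
  rw [h4, cPk]
  rw [hB] at h5
  nlinarith [mul_nonneg (sq_nonneg C) (sq_nonneg ‖m‖),
    mul_nonneg (mul_nonneg hi.le hi.le) (sq_nonneg ‖m‖)]

end Crest.Agent.X212.Rf65
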