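import Crest.Agent.X212.Rf65.Yr
import Crest.Agent.X212.Rf65.Crv
import Crest.Agent.X212.Wz78.Boch
import Mathlib.Analysis.Distribution.AEEqOfIntegralContDiff

/-! Row 212 (helper65): the peaked lower bound on `(sphere × flat) × ℝ` at a flat connection. -/

set_option autoImplicit false
set_option linter.unusedSectionVars false
noncomputable section
open scoped Manifold ContDiff Topology InnerProductSpace
open MeasureTheory Function Filter Finset

namespace Crest.Agent.X212.Rf65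
open An Wz78 Sob92 Cyf70 Map77

variable {E : Type} [NormedAddCommGroup E] [NormedSpace ℝ E] [FiniteDimensional ℝ E]
  [MeasurableSpace E] [BorelSpace E]
  {HM : Type} [TopologicalSpace HM] {I : ModelWithCorners ℝ E HM} [I.Boundaryless]
  {Y : Type} [TopologicalSpace Y] [ChartedSpace HM Y] [IsManifold I ∞ Y] [T2Space Y]
  [MeasurableSpace Y] [BorelSpace Y] [SecondCountableTopology Y] [CompactSpace Y]
  {ι η κ J : Type} [Fintype ι] [Fintype η] [DecidableEq η] [Fintype κ] [DecidableEq κ]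
  [Fintype J] [DecidableEq J]

theorem hcs_inner {X V : Type} [TopologicalSpace X] [NormedAddCommGroup V] [InnerProductSpace ℝ V]
    (f : X → V) {g : X → V} (hc : HasCompactSupport g) : HasCompactSupport fun x => ⟪f x, g x⟫_ℝ :=
  hc.mono fun x hx h0 => hx (by simp only [h0, inner_zero_right])

section slice
variable (F : Fr I Y ι) {g : Y × ℝ → ℝ}

theorem int_slice (hg : Continuous g) (t : ℝ) : Integrable (fun y => g (y, t)) F.μ :=
  (hg.comp (by fun_prop)).integrable_of_hasCompactSupport (.of_compactSpace _)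

theorem cont_int (hg : Continuous g) : Continuous fun s => ∫ y, g (y, s) ∂F.μ := by
  simpa using continuous_parametric_integral_of_continuous (μ := F.μ) (f := fun s y => g (y, s))
    (hg.comp continuous_swap) isCompact_univ

theorem hcs_int (hc : HasCompactSupport g) : HasCompactSupport fun s => ∫ y, g (y, s) ∂F.μ :=
  HasCompactSupport.intro (hc.isCompact.image continuous_snd) fun t ht => by
    simp [fun y => image_eq_zero_of_notMem_tsupport (f := g) fun h => ht ⟨(y, t), h, rfl⟩]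

theorem der_int (hg : Sm (IC I) g) (hc : HasCompactSupport g) (t : ℝ) :
    HasDerivAt (fun s => ∫ y, g (y, s) ∂F.μ) (∫ y, (cylP F.toPre).D none g (y, t) ∂F.μ) t := by
  have h1 := ((cylP F.toPre).sm_D hg none).continuous
  obtain ⟨C, hC⟩ := h1.bounded_above_of_compact_support ((cylP F.toPre).hcs_D hc none)
  exact (hasDerivAt_integral_of_dominated_loc_of_deriv_le (s := Set.univ)
    (F' := fun s y => (cylP F.toPre).D none g (y, s)) (bound := fun _ => C) univ_mem
    (.of_forall fun s => (int_slice F hg.continuous s).1) (int_slice F hg.continuous t)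
    (int_slice F h1 t).1 (.of_forall fun y s _ => hC _)
    (continuous_const.integrable_of_hasCompactSupport (.of_compactSpace _))
    (.of_forall fun y s _ => hasDerivAt_slice F.toPre hg y s)).2

theorem slice_ae {g' : Y × ℝ → ℝ} (hg : Continuous g) (hc : HasCompactSupport g)
    (hg' : Continuous g') (hc' : HasCompactSupport g')
    (h : ∀ χ : ℝ → ℝ, ContDiff ℝ ∞ χ →
      ∫ x, deriv χ x.2 * g x ∂(cyl F).μ = ∫ x, deriv χ x.2 * g' x ∂(cyl F).μ) (t : ℝ) :
    ∫ y, g (y, t) ∂F.μ = ∫ y, g' (y, t) ∂F.μ := by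
  refine congrFun (((cont_int F hg).ae_eq_iff_eq volume (cont_int F hg')).1
    (ae_eq_of_integral_contDiff_smul_eq (cont_int F hg).locallyIntegrable
      (cont_int F hg').locallyIntegrable fun φ hφ _ => ?_)) t
  have e : deriv (fun t => ∫ s in (0 : ℝ)..t, φ s) = φ :=
    funext fun t => hφ.continuous.deriv_integral _ _ _
  have k : ∀ {g : Y × ℝ → ℝ}, Continuous g → HasCompactSupport g →
      ∫ t, φ t • ∫ y, g (y, t) ∂F.μ = ∫ x, φ x.2 * g x ∂(cyl F).μ := fun hg hc => by
    rw [show (cyl F).μ = (cylP F.toPre).μ from rfl,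
      integral_cyl F.toPre (u := fun x => φ x.2 * _)
        ((hφ.continuous.comp continuous_snd).mul hg) hc.mul_left]
    simp [integral_const_mul]
  rw [k hg hc, k hg' hc', ← e]
  exact h _ (contDiff_infty_iff_deriv.2 ⟨fun t =>
    (hφ.continuous.integral_hasStrictDerivAt 0 t).hasDerivAt.differentiableAt, e.symm ▸ hφ⟩)

end slice

/-- a flat connection in temporal gauge on the cylinder over `sphere × flat` -/
structure PZ (F : Fr I Y ι) (d : Bd (Y × ℝ) (Option ι) κ) (W : Option ι → Y → En κ)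
    (q : Y → CL (HS κ) (HS κ)) (ν : η → ι → Y → ℝ) (r : ℝ) : Prop where
  cp : Cp d (cyl F) (cyl F).Gam (cA W)
  rm : Riem (cyl F)
  psc : Psc F ν r
  tmp : ∀ y, W none y = 0
  g : ∀ x, d.g x = q x.1
  flat : ∀ x u w, d.pC x w = w → kF d (cyl F) (cyl F).Gam (cA W) x u w =
    ∑ a, ∑ t, Ric (IC I) (cyl F).e (cyl F).c (cyl F).Gam a t x * ⟪fa u a, fa w t⟫_ℝ
      + scal (IC I) (cyl F).e (cyl F).c (cyl F).Gam x / 4 * ⟪fp u, fp w⟫_ℝ
  dim : Module.finrank ℝ E ≤ 4

/-- the elements `ν i ⊗ ξ`, `dt ⊗ ξ` of the kernel -/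
def kk (ν : η → ι → Y → ℝ) (i : Option η) (ξ : Y → HS κ) (x : Y × ℝ) : Cf (Option ι) κ :=
  i1 _ _ (WithLp.toLp 2 fun b => cν ν i b x • ξ x.1)

/-- the gauge fixed linearisation -/
abbrev LZ (F : Fr I Y ι) (d : Bd (Y × ℝ) (Option ι) κ) (W : Option ι → Y → En κ) :=
  d.full (cyl F) (base (cA W) 0)

/-- the coefficient along `k` -/
def cf (F : Fr I Y ι) (k u : Y × ℝ → Cf (Option ι) κ) (t : ℝ) : ℝ := ∫ y, ⟪k (y, t), u (y, t)⟫_ℝ ∂F.μ

variable {F : Fr I Y ι} {d : Bd (Y × ℝ) (Option ι) κ} {W : Option ι → Y → En κ}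
  {q : Y → CL (HS κ) (HS κ)} {ν : η → ι → Y → ℝ} {r : ℝ} {ξ : Y → HS κ} {i : Option η}
  {u : Y × ℝ → Cf (Option ι) κ}

theorem fa_kk (x : Y × ℝ) (b : Option ι) : fa (kk ν i ξ x) b = cν ν i b x • ξ x.1 := rfl
theorem fp_kk (x : Y × ℝ) : fp (kk ν i ξ x) = 0 := rfl

theorem kk_t (y : Y) (s t : ℝ) : kk ν i ξ (y, s) = kk ν i ξ (y, t) :=
  ext2 (fm_ext fun b => by cases i <;> cases b <;> rfl) rfl

theorem inner_kk (x : Y × ℝ) :
    ⟪kk ν i ξ x, u x⟫_ℝ = ⟪ξ x.1, ctr (cν ν) (fun b y => fa (u y) b) i x⟫_ℝ := by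
  simp only [inner2 (kk ν i ξ x), fp_kk, inner_zero_left, add_zero, inner_fm (X := HS κ), fa_kk,
    ctr, inner_sum, real_inner_smul_left, real_inner_smul_right]

namespace PZ
variable (h : PZ F d W q ν r)
include h

theorem tmp' (y : Y) : adw W none y = 0 := by
  rw [show adw W none y = adcL (W none y) from rfl, h.tmp, map_zero]

theorem smA (a : Option ι) : Sm I (adw W a) := sm_slice_fst (h.cp.con_adw.sm a) 0

theorem smq : Sm I q := by
  simpa only [h.g] using sm_slice_fst h.cp.sg 0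

theorem pq : Pq F (sA (adw W)) q where
  smA a := h.smA _
  sk a y := h.cp.skew_adw (some a) (y, 0)
  sm := h.smq
  idem y := by simpa only [h.g] using h.cp.ok.g.idem (y, 0)
  symm y := by simpa only [h.g] using h.cp.ok.g.symm (y, 0)
  par a y := by
    have := h.cp.g (some a) (y, 0)
    rw [show d.g = fun x => q x.1 from funext h.g] at this
    rw [← this]
    exact congrArg (· + _) (congrFun (D_some_fst F.toPre h.smq a) (y, 0)).symm

theorem sm_kk (hξ : Sm I ξ) : Sm (IC I) (kk ν i ξ) := fun x =>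
  SA.clm (i1 _ (Eu κ)) (SA.toLp (f := fun b y => cν ν i b y • ξ y.1) fun b =>
    (h.psc.cyl.sm i b x).smul (sm_fst hξ x))

theorem kk_mem (hξ : Pl F (sA (adw W)) q ξ) (x : Y × ℝ) : d.pC x (kk ν i ξ x) = kk ν i ξ x := by
  refine ext2 ?_ (by rw [s2_ps, fp_kk, map_zero])
  rw [f2_ps]
  refine h.cp.ok.p1_fix x (fun a => ?_) fun a => ?_
  · rw [fa_kk, map_smul, h.g, hξ.mem]
  · simp only [fa_kk, smul_smul, ← sum_smul, ← h.cp.P, h.psc.cyl.P]

theorem cov_kk (hξ : Pl F (sA (adw W)) q ξ) {χ : ℝ → ℝ} (hχ : ContDiff ℝ ∞ χ) (a b : Option ι)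
    (x : Y × ℝ) : cov (IC I) (cyl F).e (cyl F).Gam (adw (cA W))
      (fun b y => fa (χ y.2 • kk ν i ξ y) b) a b x =
      a.elim (deriv χ x.2 • fa (kk ν i ξ x) b) fun _ => 0 := by
  have := h.psc.cyl.cov_sum (A := cA (adw W)) (x := x)
    (ξ := Pi.single (M := fun _ => Y × ℝ → HS κ) i fun y => χ y.2 • ξ y.1) (fun j => by
      rcases eq_or_ne j i with rfl | e
      · rw [Pi.single_eq_same]; exact (sm_snd hχ x).smul (sm_fst hξ.sm x)
      · rw [Pi.single_eq_of_ne e]; exact contMDiffAt_const) a b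
  rw [sum_eq_single i (fun j _ e => by simp [Pi.single_eq_of_ne e, nab]) (by simp),
    Pi.single_eq_same, nab_cut h.tmp' hχ hξ.sm] at this
  refine Eq.trans (congrArg (fun θ => cov _ _ _ _ θ a b x) (funext₂ fun b y => ?_))
    (this.trans ?_)
  · rw [sum_eq_single i (fun j _ e => by simp [Pi.single_eq_of_ne e]) (by simp),
      Pi.single_eq_same, map_smul, PiLp.smul_apply, fa_kk, smul_comm]
  · cases a
    · exact smul_comm _ _ _
    · simp [hξ.par]

theorem zf0 (x : Y × ℝ) : zf d (cyl F) (cyl F).Gam 0 x = 0 :=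
  zf_zero (h.rm.dft h.cp.lc · _) rfl

theorem app_kk (hξ : Pl F (sA (adw W)) q ξ) {χ : ℝ → ℝ} (hχ : ContDiff ℝ ∞ χ) (x : Y × ℝ) :
    (LZ F d W).app (cyl F) (fun y => χ y.2 • kk ν i ξ y) x =
      deriv χ x.2 • (LZ F d W).σ none x (kk ν i ξ x) := by
  classical
  have h1 : SA (IC I) (fun y => χ y.2 • kk ν i ξ y) x := (sm_snd hχ x).smul (h.sm_kk hξ.sm x)
  have h2 : d.pC x (χ x.2 • kk ν i ξ x) = χ x.2 • kk ν i ξ x := by rw [map_smul, h.kk_mem hξ]
  have h3 : ∀ a, nab (IC I) (cyl F).e (cC (cyl F) (cyl F).Gam (cA W)) a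
      (fun y => χ y.2 • kk ν i ξ y) x = a.elim (deriv χ x.2 • kk ν i ξ x) fun _ => 0 := fun a => by
    refine ext2 (fm_ext fun b => ?_) ?_
    · rw [h.cp.fa_nab h1 h2, h.cov_kk hξ hχ]; cases a <;> rfl
    · rw [s2_nab a h1]; cases a <;> simp [fp_kk, nab]
  rw [(h.cp.rp_full 0).app (u := fun y => χ y.2 • kk ν i ξ y) h2, h.zf0]
  simp only [dop, h3, Fintype.sum_option, Option.elim, map_zero, sum_const_zero, add_zero, map_smul,
    zero_apply, smul_zero]

theorem sm_σ (a : Option ι) : Sm (IC I) ((LZ F d W).σ a) := by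
  classical exact (h.cp.rp_full 0).sy.sm a

theorem inner_σ {x : Y × ℝ} {v : Cf (Option ι) κ} (hv : d.pC x v = v) (w : Cf (Option ι) κ) :
    ⟪(LZ F d W).σ none x v, (LZ F d W).σ none x w⟫_ℝ = ⟪v, w⟫_ℝ := by
  have := h.cp.ok.cliffL_full h.cp.P (base (cA W) 0) none none x v w
  change _ = 2 * 1 * ⟪d.pC x v, w⟫_ℝ at this
  rw [hv] at this; linarith

variable (hu : Sm (IC I) u) (hc : HasCompactSupport u) (pu : ∀ x, d.pC x (u x) = u x)
include hu pu

theorem sm_app : Sm (IC I) ((LZ F d W).app (cyl F) u) := fun x => by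
  classical
  have e : (LZ F d W).app (cyl F) u = _ := funext fun x => (h.cp.rp_full 0).app (pu x)
  simp only [e, h.zf0, zero_apply, add_zero]
  exact (h.cp.rp_full 0).sy.dop_sm (frm _) (h.cp.con_cC.sm · x) (hu x)

include hc

omit h hu pu in
theorem hcs_app : HasCompactSupport ((LZ F d W).app (cyl F) u) :=
  HasCompactSupport.intro hc.isCompact fun x hx => by
    simp [Op.app, Pre.op, image_eq_zero_of_notMem_tsupport hx,
      fun a => image_eq_zero_of_notMem_tsupport fun h => hx ((cyl F).tsupport_D u a h)]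

theorem der_cf (hξ : Sm I ξ) (t : ℝ) : HasDerivAt (cf F (kk ν i ξ) u)
    (cf F (kk ν i ξ) ((cylP F.toPre).D none u) t) t := by
  have h1 : Sm (IC I) fun x => ⟪kk ν i ξ x, u x⟫_ℝ := fun x => SA.inner (h.sm_kk hξ x) (hu x)
  refine (der_int F h1 (hcs_inner _ hc) t).congr_deriv
    (integral_congr_ae (.of_forall fun y => (hasDerivAt_slice F.toPre h1 y t).unique ?_))
  simpa only [kk_t y _ t, inner_zero_left, add_zero] using
    (hasDerivAt_const t (kk ν i ξ (y, t))).inner ℝ (hasDerivAt_slice F.toPre hu y t)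

/-- the component of `L u` along `σ k` is the derivative of the coefficient of `u` along `k` -/
theorem slice_eq (hξ : Pl F (sA (adw W)) q ξ) (t : ℝ) :
    ∫ y, ⟪(LZ F d W).σ none (y, t) (kk ν i ξ (y, t)), (LZ F d W).app (cyl F) u (y, t)⟫_ℝ ∂F.μ =
      cf F (kk ν i ξ) ((cylP F.toPre).D none u) t := by
  have k := h.sm_kk (i := i) hξ.sm
  have Z := h.psc.cyl
  refine slice_ae F (g := fun x => ⟪(LZ F d W).σ none x (kk ν i ξ x), (LZ F d W).app (cyl F) u x⟫_ℝ)
    (g' := fun x => ⟪kk ν i ξ x, (cylP F.toPre).D none u x⟫_ℝ)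
    (((h.sm_σ none).clm_apply k).continuous.inner (h.sm_app hu pu).continuous)
    (hcs_inner _ (hcs_app hc))
    (k.continuous.inner ((cylP F.toPre).sm_D hu none).continuous)
    (hcs_inner _ ((cylP F.toPre).hcs_D hc none)) (fun χ hχ => ?_) t
  have := h.cp.boch h.rm 0 ((sm_snd hχ).smul k) hu hc
    (fun x => by rw [Pi.smul_apply', map_smul, h.kk_mem hξ]) pu
  simp only [h.zf0, zero_apply, sub_zero] at this
  refine Eq.trans (integral_congr_ae (.of_forall fun x => ?_))
    (this.trans (integral_congr_ae (.of_forall fun x => ?_)))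
  · exact (real_inner_smul_left ..).symm.trans (congrArg (⟪·, _⟫_ℝ) (h.app_kk hξ hχ x).symm)
  have e1 : ∀ b k, (cyl F).Gam none b k x = 0 := fun b k => by rw [Tmp64.gam_cyl]; rfl
  have e2 : ∀ b, cov (IC I) (cyl F).e (cyl F).Gam (adw (cA W)) (fun b y => fa (u y) b) none b x =
      fa ((cylP F.toPre).D none u x) b := fun b => by
    simp only [cov, e1, zero_smul, sum_const_zero, sub_zero, nab,
      show adw (cA W) none x = 0 from h.tmp' _, zero_apply, add_zero]
    exact dv_clm (pj _ b ∘L fa) (SA.md (hu x))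
  have e3 : ∀ t, ∑ a, Ric (IC I) (cyl F).e (cyl F).c (cyl F).Gam a t x * cν ν i a x = 0 := fun t => by
    simp only [Z.ric, mul_assoc, ← mul_sum, sub_mul, sum_sub_distrib, sum_mul]
    rw [sum_comm, sum_congr rfl fun a _ => by rw [((frm (cyl F)).pr x).symm a t], Z.P]
    simp [mul_comm (cν ν _ t x), ← mul_assoc, ← sum_mul, Z.ort]
  have e4 : ∑ a, ∑ t, Ric (IC I) (cyl F).e (cyl F).c (cyl F).Gam a t x *
      ⟪fa (χ x.2 • kk ν i ξ x) a, fa (u x) t⟫_ℝ = 0 := by
    rw [sum_comm]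
    refine sum_eq_zero fun t _ => ?_
    simp only [map_smul, PiLp.smul_apply, fa_kk, smul_comm (χ x.2), real_inner_smul_left (χ x.2 • _),
      ← mul_assoc, ← sum_mul, e3, zero_mul]
  simp only [Pi.smul_apply', h.cov_kk hξ hχ, h.flat x _ _ (pu x), e4]
  rw [Fintype.sum_option]
  simp only [Option.elim, e2, map_smul, fp_kk, nab, smul_zero, inner_zero_left, sum_const_zero,
    add_zero, mul_zero, dv_const, Pi.zero_apply, map_zero, real_inner_smul_left, ← mul_sum,
    inner2 (kk ν i ξ x), inner_fm (X := HS κ)]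

/-- the Bochner identity -/
theorem energy : ∫ x, ‖(LZ F d W).app (cyl F) u x‖ ^ 2 ∂(cyl F).μ =
    ∫ x, (en (cyl F) (cA (adw W)) (fun b y => fa (u y) b) x +
      (∑ a, ‖nab (IC I) (cyl F).e (cA W) a (fun y => fp (u y)) x‖ ^ 2 +
        scal (IC I) (cyl F).e (cyl F).c (cyl F).Gam x / 4 * ‖fp (u x)‖ ^ 2)) ∂(cyl F).μ := by
  rw [h.cp.boch0 h.rm hu hc pu]
  refine integral_congr_ae (.of_forall fun x => ?_)
  simp only [h.flat x _ _ (pu x), en, real_inner_self_eq_norm_sq]
  ring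

end PZ

/-- an orthonormal basis of the parallel sections -/
structure Onb (F : Fr I Y ι) (A : ι → Y → En (κ × κ)) (q : Y → CL (HS κ) (HS κ))
    (ξ : J → Y → HS κ) : Prop where
  pl : ∀ j, Pl F A q (ξ j)
  ort : ∀ j j', ∫ y, ⟪ξ j y, ξ j' y⟫_ℝ ∂F.μ = if j = j' then 1 else 0
  sp : ∀ ζ, Pl F A q ζ → ∃ c : J → ℝ, ∀ y, ζ y = ∑ j, c j • ξ j y

theorem Onb.pl_sum {A : ι → Y → En (κ × κ)} {ξ : J → Y → HS κ} (h : Onb F A q ξ) (c : J → ℝ) :
    Pl F A q fun y => ∑ j, c j • ξ j y where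
  sm := contMDiff_finsetSum fun j _ x => SA.smul (f := fun _ => c j) contMDiffAt_const ((h.pl j).sm x)
  mem x := by simp only [map_sum, map_smul, (h.pl _).mem]
  par a x := by
    rw [nab_sum a _ (u := fun j y => c j • ξ j y) fun j =>
      SA.smul (f := fun _ => c j) contMDiffAt_const ((h.pl j).sm x)]
    refine sum_eq_zero fun j _ => ?_
    rw [nab_smul a (contMDiffAt_const (c := c j)) ((h.pl j).sm x), (h.pl _).par]; simp

theorem Onb.ip {A : ι → Y → En (κ × κ)} {ξ : J → Y → HS κ} (h : Onb F A q ξ) (c : J → ℝ) (j : J) :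
    ∫ y, ⟪∑ j, c j • ξ j y, ξ j y⟫_ℝ ∂F.μ = c j := by
  simp only [sum_inner, real_inner_smul_left]
  rw [integral_finsetSum _ fun j' _ => ((((h.pl j').sm.continuous.inner (h.pl j).sm.continuous)
    ).integrable_of_hasCompactSupport (.of_compactSpace _)).const_mul _]
  simp [integral_const_mul, h.ort]

theorem ig2 {X V : Type} [TopologicalSpace X] [MeasurableSpace X] [OpensMeasurableSpace X]
    [NormedAddCommGroup V] {μ : Measure X} [IsFiniteMeasureOnCompacts μ] {f : X → V}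
    (hf : Continuous f) (hk : HasCompactSupport f) : Integrable (fun x => ‖f x‖ ^ 2) μ :=
  (hf.norm.pow 2).integrable_of_hasCompactSupport (hk.mono fun x hx h0 => hx (by simpa using h0))

/-- the components of the slice-wise projection onto the kernel -/
def zz (F : Fr I Y ι) (ν : η → ι → Y → ℝ) (ξ : J → Y → HS κ) (u : Y × ℝ → Cf (Option ι) κ)
    (i : Option η) (x : Y × ℝ) : HS κ := ∑ j, cf F (kk ν i (ξ j)) u x.2 • ξ j x.1

/-- the conjugated operator with the drift `γ` in the gauge row -/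
def fz (F : Fr I Y ι) (d : Bd (Y × ℝ) (Option ι) κ) (W : Option ι → Y → En κ) (μ : ℝ → ℝ) (γ : ℝ)
    (u : Y × ℝ → Cf (Option ι) κ) (x : Y × ℝ) : P2 (HS κ) (Ef (Option ι) κ) :=
  (LZ F d W).app (cyl F) u x + (μ x.2 • (LZ F d W).σ none x (u x) + γ • i1 _ _ (fa (u x) none))

theorem hcs_cf (hk : HasCompactSupport u) (k : Y × ℝ → Cf (Option ι) κ) :
    HasCompactSupport (cf F k u) := hcs_int F (hcs_inner _ hk)

theorem hcs_zz (hk : HasCompactSupport u) (ξ : J → Y → HS κ) : HasCompactSupport (zz F ν ξ u i) :=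
  HasCompactSupport.intro (isCompact_univ.prod (isCompact_iUnion fun j =>
    (hcs_cf (F := F) hk (kk ν i (ξ j))).isCompact)) fun x hx => sum_eq_zero fun j _ => by
      rw [image_eq_zero_of_notMem_tsupport fun h => hx ⟨trivial, Set.mem_iUnion.2 ⟨j, h⟩⟩, zero_smul]

theorem hcs_u (hk : HasCompactSupport u) {V : Type} [Zero V] {f : Y × ℝ → V}
    (hf : ∀ x, u x = 0 → f x = 0) : HasCompactSupport f := hk.mono fun x hx h0 => hx (hf x h0)

theorem sm_fa (hu : Sm (IC I) u) (b : Option ι) : Sm (IC I) fun y => fa (u y) b := fun x =>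
  SA.clm (pj _ b ∘L fa) (hu x)

theorem sq_add_le {V : Type} [NormedAddCommGroup V] (a b : V) :
    ‖a‖ ^ 2 ≤ 2 * ‖a - b‖ ^ 2 + 2 * ‖b‖ ^ 2 := by
  have := norm_add_le (a - b) b
  rw [sub_add_cancel] at this
  nlinarith [pow_le_pow_left₀ (norm_nonneg _) this 2, sq_nonneg (‖a - b‖ - ‖b‖)]

namespace PZ
variable (h : PZ F d W q ν r)
include h

theorem cont_cf (hξ : Sm I ξ) (hu : Continuous u) : Continuous (cf F (kk ν i ξ) u) :=
  cont_int F ((h.sm_kk hξ).continuous.inner hu)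

theorem en_le (hu : Sm (IC I) u) (hk : HasCompactSupport u) (pu : ∀ x, d.pC x (u x) = u x) :
    0 ≤ ∫ x, en (cyl F) (cA (adw W)) (fun b y => fa (u y) b) x ∂(cyl F).μ ∧
    ∫ x, en (cyl F) (cA (adw W)) (fun b y => fa (u y) b) x ∂(cyl F).μ +
      r / 4 * ∫ x, ‖fp (u x)‖ ^ 2 ∂(cyl F).μ ≤ ∫ x, ‖(LZ F d W).app (cyl F) u x‖ ^ 2 ∂(cyl F).μ := by
  have Z := h.psc.cyl
  have s1 := sm_fa hu
  have p1 := fun a x => h.cp.P_fa (pu x) a
  have s2 : Sm (IC I) fun y => fp (u y) := fun x => SA.clm fp (hu x)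
  have k2 : HasCompactSupport fun y => fp (u y) := hcs_u hk fun x hx => by simp [hx]
  have i4 : Integrable (en (cyl F) (cA (adw W)) fun b y => fa (u y) b) (cyl F).μ := by
    refine (integrable_finsetSum _ fun a _ => integrable_finsetSum _ fun b _ => ig2 ?_ ?_).add ?_
    · exact ContMDiff.continuous fun x => ((frm _).sN (fun a => sm_cA h.smA a x) a (s1 b x)).sub
        (SA.sum _ fun k _ => (sm_gam _ a b k x).smul (s1 k x))
    · exact (hcs_nab _ _ (hcs_u hk fun x hx => by simp [hx]) a).sub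
        (hcs_u hk fun x hx => by simp [hx])
    · simp only [Z.ric_form (θ := fun b y => fa (u y) b) (p1 · _)]
      exact (integrable_finsetSum _ fun b _ => ig2 (Z.sm_prp s1 b).continuous
        (hcs_u hk fun x hx => by simp [prp, ctr, hx])).const_mul r
  have i5 : Integrable (fun x => ∑ a, ‖nab (IC I) (cyl F).e (cA W) a (fun y => fp (u y)) x‖ ^ 2 +
      scal (IC I) (cyl F).e (cyl F).c (cyl F).Gam x / 4 * ‖fp (u x)‖ ^ 2) (cyl F).μ :=
    (integrable_finsetSum univ fun a _ => ig2 (ContMDiff.continuous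
      fun x => (frm (cyl F)).sN (h.cp.con.sm · x) a (s2 x)) (hcs_nab _ (cA W) k2 a)).add
      ((((ContMDiff.continuous fun x => h.cp.lc.sScal (frm _) x).div_const 4).mul
        (s2.continuous.norm.pow 2)).integrable_of_hasCompactSupport
        (hcs_u hk fun x hx => by simp [hx]))
  rw [h.energy hu hk pu, integral_add i4 i5, ← integral_const_mul]
  exact ⟨integral_nonneg fun x => Z.en_nonneg (fun b => s1 b x) (p1 · x), add_le_add_right
    (integral_mono ((ig2 s2.continuous k2).const_mul _) i5 fun x => le_add_of_nonneg_of_le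
      (by positivity) (mul_le_mul_of_nonneg_right (by linarith [Z.sc x]) (sq_nonneg _))) _⟩

section coef
variable {μ : ℝ → ℝ} {γ : ℝ} (hμ : Continuous μ) (hu : Sm (IC I) u) (hk : HasCompactSupport u)
  (pu : ∀ x, d.pC x (u x) = u x)
include hμ hu pu

theorem cont_fz : Continuous (fz F d W μ γ u) :=
  (h.sm_app hu pu).continuous.add (((hμ.comp continuous_snd).smul
    ((h.sm_σ none).clm_apply hu).continuous).add
      (((i1 _ _).continuous.comp (sm_fa hu none).continuous).const_smul γ))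

include hk

omit h hμ hu pu in
theorem hcs_fz : HasCompactSupport (fz F d W μ γ u) :=
  (hcs_app hk).add (hcs_u hk fun x hx => by simp [hx])

theorem coef_le (hξ : Pl F (sA (adw W)) q ξ) (h1 : ∫ y, ⟪ξ y, ξ y⟫_ℝ ∂F.μ = 1) :
    ∫ t, (cf F (kk ν i ξ) ((cylP F.toPre).D none u) t + (μ t + i.elim γ 0) * cf F (kk ν i ξ) u t) ^ 2
      ≤ ∫ x, ‖fz F d W μ γ u x‖ ^ 2 ∂(cyl F).μ := by
  have k := h.sm_kk (i := i) hξ.sm
  have c0 := ((h.sm_σ none).clm_apply k).continuous
  have c1 := h.cont_fz (γ := γ) hμ hu pu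
  have c2 : Continuous fun x => ‖fz F d W μ γ u x‖ ^ 2 := c1.norm.pow 2
  have k2 : HasCompactSupport fun x => ‖fz F d W μ γ u x‖ ^ 2 :=
    (hcs_fz hk).mono fun x hx h0 => hx (by simpa using h0)
  rw [show (cyl F).μ = (cylP F.toPre).μ from rfl, integral_cyl F.toPre c2 k2]
  refine integral_mono_of_nonneg (.of_forall fun t => sq_nonneg _)
    ((cont_int F c2).integrable_of_hasCompactSupport (hcs_int F k2)) (.of_forall fun t => ?_)
  have i1 := int_slice F (c0.inner (𝕜 := ℝ) c1) t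
  have i2 := int_slice F (c0.inner (𝕜 := ℝ) c0) t
  have e1 : ∫ y, ⟪(LZ F d W).σ none (y, t) (kk ν i ξ (y, t)), fz F d W μ γ u (y, t)⟫_ℝ ∂F.μ =
      cf F (kk ν i ξ) ((cylP F.toPre).D none u) t + (μ t + i.elim γ 0) * cf F (kk ν i ξ) u t := by
    rw [← h.slice_eq hu hk pu hξ, cf, ← integral_const_mul, ← integral_add
      (int_slice F (c0.inner (h.sm_app hu pu).continuous) t)
      ((int_slice F (k.continuous.inner hu.continuous) t).const_mul _)]
    refine integral_congr_ae (.of_forall fun y => ?_)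
    simp only [fz, inner_add_right, real_inner_smul_right, h.inner_σ (h.kk_mem hξ _), add_mul,
      inner2 _ (Map77.i1 _ _ _), f2_i1, s2_i1, inner_zero_right, add_zero, h.cp.ok.full_σ1,
      p1_of (h.kk_mem hξ _), fa_kk, inner_kk]
    cases i <;> simp [cν, ctr]
  have e2 : ∫ y, ⟪(LZ F d W).σ none (y, t) (kk ν i ξ (y, t)),
      (LZ F d W).σ none (y, t) (kk ν i ξ (y, t))⟫_ℝ ∂F.μ = 1 := by
    simp only [h.inner_σ (h.kk_mem hξ _), inner_kk, ctr, fa_kk, smul_smul, ← sum_smul,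
      h.psc.cyl.ort, if_true, one_smul, h1]
  beta_reduce
  rw [← e1]
  set G := ∫ y, ⟪(LZ F d W).σ none (y, t) (kk ν i ξ (y, t)), fz F d W μ γ u (y, t)⟫_ℝ ∂F.μ
  have e3 := integral_mono ((i1.const_mul (2 * G)).sub' (i2.const_mul (G ^ 2))) (int_slice F c2 t)
    fun y => by
      have := norm_sub_sq_real (G • (LZ F d W).σ none (y, t) (kk ν i ξ (y, t)))
        (fz F d W μ γ u (y, t))
      rw [norm_smul, mul_pow, Real.norm_eq_abs, sq_abs, real_inner_smul_left] at this
      simp only [real_inner_self_eq_norm_sq]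
      nlinarith [sq_nonneg ‖G • (LZ F d W).σ none (y, t) (kk ν i ξ (y, t)) - fz F d W μ γ u (y, t)‖]
  rw [integral_sub (i1.const_mul _) (i2.const_mul _), integral_const_mul, integral_const_mul, e2]
    at e3
  linarith

end coef

variable {ξ : J → Y → HS κ} (hξ : Onb F (sA (adw W)) q ξ)
include hξ

theorem cont_zz (hu : Continuous u) : Continuous (zz F ν ξ u i) := continuous_finsetSum _ fun j _ =>
  ((h.cont_cf (hξ.pl j).sm hu).comp continuous_snd).smul
    ((hξ.pl j).sm.continuous.comp continuous_fst)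

theorem int_zz (hu : Continuous u) (hk : HasCompactSupport u) :
    ∫ x, ‖zz F ν ξ u i x‖ ^ 2 ∂(cyl F).μ = ∑ j, ∫ t, cf F (kk ν i (ξ j)) u t ^ 2 := by
  rw [show (cyl F).μ = (cylP F.toPre).μ from rfl, integral_cyl F.toPre
    (u := fun x => ‖zz F ν ξ u i x‖ ^ 2) ((h.cont_zz hξ hu).norm.pow 2)
    ((hcs_zz hk ξ).mono fun x hx h0 => hx (by simpa using h0)), ← integral_finsetSum _ fun j _ => by
      simpa using ig2 (μ := volume) (h.cont_cf (i := i) (hξ.pl j).sm hu) (hcs_cf hk _)]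
  refine integral_congr_ae (.of_forall fun t => ?_)
  simp only [← real_inner_self_eq_norm_sq]
  conv_lhs => enter [2, y]; rw [zz, inner_sum]
  simp only [real_inner_smul_right]
  rw [integral_finsetSum _ fun j _ => (((hξ.pl_sum _).sm.continuous.inner
    (hξ.pl j).sm.continuous).integrable_of_hasCompactSupport (.of_compactSpace _)).const_mul _]
  simp only [integral_const_mul, hξ.ip, sq]

theorem low1 : ∃ c > 0, ∀ u, Sm (IC I) u → HasCompactSupport u → (∀ x, d.pC x (u x) = u x) →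
    ∫ x, ∑ b, ‖fa (u x) b - ∑ i, cν ν i b x • zz F ν ξ u i x‖ ^ 2 ∂(cyl F).μ ≤
      c * ∫ x, en (cyl F) (cA (adw W)) (fun b y => fa (u y) b) x ∂(cyl F).μ := by
  obtain ⟨c, hc, hb⟩ := h.psc.low_cyl h.pq (h.smA none) h.dim
  refine ⟨c, hc, fun u hu hk pu => hb _ (zz F ν ξ u) (sm_fa hu)
    (fun b => hcs_u hk fun x hx => by simp [hx]) (fun a x => h.cp.P_fa (pu x) a) (fun b x => by
      rw [← h.g]; simpa only [p1_of (pu x)] using h.cp.ok.g_p1 x (fa (u x)) b)
    (fun i => h.cont_zz hξ hu.continuous) (fun i => hcs_zz hk ξ) (fun i t => hξ.pl_sum fun j => cf F (kk ν i (ξ j)) u t)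
    fun i t ζ' h' => ?_⟩
  obtain ⟨a, ha⟩ := hξ.sp ζ' h'
  have b0 := fun j => (hξ.pl j).sm.continuous.comp (continuous_fst (Y := ℝ))
  have b1 := fun j => int_slice F ((h.psc.cyl.sm_ctr (sm_fa hu) i).continuous.inner (b0 j)) t
  have b2 := fun j => int_slice F ((h.cont_zz (i := i) hξ hu.continuous).inner (b0 j)) t
  simp only [comp_apply] at b1 b2
  simp only [ha, inner_sum, real_inner_smul_right, inner_sub_left]
  rw [integral_finsetSum _ fun j _ => ((b1 j).const_mul _).sub' ((b2 j).const_mul _)]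
  refine sum_eq_zero fun j _ => ?_
  rw [integral_sub ((b1 j).const_mul _) ((b2 j).const_mul _), integral_const_mul,
    integral_const_mul]
  simp only [zz, hξ.ip]
  simp only [cf, inner_kk, real_inner_comm (ξ j _), sub_self]

/-- the lower bound off the kernel -/
theorem low : ∃ C > 0, ∀ u, Sm (IC I) u → HasCompactSupport u → (∀ x, d.pC x (u x) = u x) →
    ∫ x, ‖u x‖ ^ 2 ∂(cyl F).μ ≤ C * ∫ x, ‖(LZ F d W).app (cyl F) u x‖ ^ 2 ∂(cyl F).μ +
      2 * ∑ i, ∑ j, ∫ t, cf F (kk ν i (ξ j)) u t ^ 2 := by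
  obtain ⟨c, hc, hb⟩ := h.low1 hξ
  have hr := h.psc.pos
  have Z := h.psc.cyl
  refine ⟨2 * c + 4 / r, by positivity, fun u hu hk pu => ?_⟩
  have e1 := hb u hu hk pu
  obtain ⟨e4, e3⟩ := h.en_le hu hk pu
  have c1 := fun i => h.cont_zz (i := i) hξ hu.continuous
  have c2 := fun i => hcs_zz (F := F) (ν := ν) (i := i) hk ξ
  have i1 : Integrable (fun x => 2 * ∑ b, ‖fa (u x) b - ∑ i, cν ν i b x • zz F ν ξ u i x‖ ^ 2)
      (cyl F).μ := (integrable_finsetSum univ fun b _ => ig2 ((sm_fa hu b).continuous.sub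
    (continuous_finsetSum _ fun i _ => (Z.sm i b).continuous.smul (c1 i)))
      ((hcs_u hk fun x hx => by simp [hx]).sub (HasCompactSupport.intro (isCompact_iUnion fun i =>
        (c2 i).isCompact) fun x hx => sum_eq_zero fun i _ => by
          simp [image_eq_zero_of_notMem_tsupport fun h => hx (Set.mem_iUnion.2 ⟨i, h⟩)]))).const_mul 2
  have i2 := fun i => ig2 (μ := (cyl F).μ) (c1 i) (c2 i)
  have i2' : Integrable (fun x => 2 * ∑ i, ‖zz F ν ξ u i x‖ ^ 2) (cyl F).μ :=
    (integrable_finsetSum univ fun i _ => i2 i).const_mul 2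
  have i3 : Integrable (fun x => ‖fp (u x)‖ ^ 2) (cyl F).μ :=
    ig2 (fp.continuous.comp hu.continuous) (hcs_u hk fun x hx => by simp [hx])
  have e5 := integral_mono (ig2 (μ := (cyl F).μ) hu.continuous hk) ((i1.add i2').add i3) fun x => by
    have a1 := Z.nrm_sub (θ := 0) (x := x) (zz F ν ξ u · x)
    simp only [prp, ctr, Pi.zero_apply, smul_zero, sum_const_zero, sub_zero, zero_sub, norm_neg,
      norm_zero, ne_eq, OfNat.ofNat_ne_zero, not_false_eq_true, zero_pow, zero_add] at a1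
    simp only [Pi.add_apply]
    rw [← a1, mul_sum, mul_sum, ← sum_add_distrib, ← real_inner_self_eq_norm_sq, inner2,
      inner_fm (X := HS κ)]
    simp only [real_inner_self_eq_norm_sq]
    exact add_le_add_left (sum_le_sum fun b _ => sq_add_le _ _) _
  rw [integral_add' (i1.add i2') i3, integral_add' i1 i2', integral_const_mul, integral_const_mul,
    integral_finsetSum _ fun i _ => i2 i] at e5
  simp only [h.int_zz hξ hu.continuous hk] at e5
  have e6 : 0 ≤ ∫ x, ‖fp (u x)‖ ^ 2 ∂(cyl F).μ := by positivity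
  have e7 := mul_le_mul_of_nonneg_left e3 (show 0 ≤ 4 / r by positivity)
  rw [mul_add, ← mul_assoc, show 4 / r * (r / 4) = 1 by field_simp, one_mul] at e7
  nlinarith [mul_nonneg (show 0 ≤ 4 / r by positivity) e4, mul_le_mul_of_nonneg_left e3 hc.le,
    mul_nonneg hc.le (mul_nonneg (show 0 ≤ r / 4 by positivity) e6)]

end PZ

end Crest.Agent.X212.Rf65
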