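import Crest.Agent.X212.Sym93.Defs
import Crest.Agent.X212.An.Str

/-!
# Row 212, RFACE: models of parts, moving ends of an object, the leaves of the strata
-/

set_option autoImplicit false
set_option linter.unusedSectionVars false
noncomputable section
open scoped Manifold ContDiff Topology InnerProductSpace
open MeasureTheory Set Function Filter

namespace Crest.Agent.X212.Rf65
open An M Nd18 Mod61 Nk89 Cht98 Rdc90
open An.Job (Sol SolOn StrOn Str)

variable {Wi : Type} {X : Mf 4} {A κ lam : Type} [Fintype A] [Fintype κ] [Fintype lam]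
  [DecidableEq lam] {M : Mark X A κ} {W : World M} {N : ML M lam} {Λ : Lns W N}
  {A' h : Type} [Fintype A'] [DecidableEq A'] [Fintype h] {r n : ℕ}
  {J : Job Wi Λ A' h r n} {c : M.Cl}

/-! ### models -/

/-- good charts at `y` -/
structure EC.Gd {b : Bp J c} {p : Prt A A' h} {U : Type} [Fintype U] {δ : ℝ} (E : EC b p U δ)
    (σ : Cel A') (μ : Ed c → Option U) (q : Wi →₀ ℝ) (y : J.Obc c) (x : Pnt E.o r) (ψ : E.K) :
    Prop where
  ch : E.Ch δ σ μ y x ψ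
  sm : Pte3.SmC E
  nr : Sym93.Nr E σ μ q y x ψ

section mo
variable (δ : ℝ) (σ : Cel A') (p : Prt A A' h) {U : Type} [Fintype U] (μ : Ed c → Option U)

/-- `y` is regular in some good chart -/
def RegP (q : Wi →₀ ℝ) (y : J.Obc c) : Prop :=
  ∃ (b : Bp J c) (E : EC b p U δ) (x : Pnt E.o r) (ψ : E.K), E.Gd σ μ q y x ψ ∧ E.Reg q x ψ

/-- the curvature equation over the piece `π` is regular at `y` in all good charts -/
def Cok (q : Wi →₀ ℝ) (y : J.Obc c) (π : Reg A) : Prop :=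
  ∀ (b : Bp J c) (E : EC b p U δ) x ψ, E.Gd σ μ q y x ψ →
    ∀ f : E.o.C r 8 → E.o.Y n (min r 1) 8, RepF (EC.tot b p U δ q) f →
    ∀ e : E.o.Y n (min r 1) 8, e.1 = 0 → e.2.2 = 0 →
      (∀ z ∉ W.pc c π, (b.F p U δ).F0.val 8 E.o.P2 e.2.1 z = 0) → e ∈ range (fderiv ℝ f (x.pt 8))

variable (J c) in
/-- all field terms on the piece -/
def RT (π : Reg A) : Prop := ∀ s ∈ Job.cl σ, Sys.inf (J.Θ s).2 = c.1 → J.RichT s π

/-- the model of a part -/
structure PM (D : Mo Wi (J.Obc c)) : Prop where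
  ax : ∀ i Adm, (D.Pb i).Ax Adm
  sol : ∀ i y x, D.rep i y x → ∃ (b : Bp J c) (E : EC b p U δ) (x' : Pnt E.o r) (ψ : E.K),
    ∀ q, SolE p μ σ q y → (D.Pb i).Sol q x ∧ E.Gd σ μ q y x' ψ ∧
      ((D.Pb i).Reg q x ↔ E.Reg q x' ψ)
  dens : ∀ q y, SolE p μ σ q y → ∃ i x, D.rep i y x ∧ (CRich J c σ p → Job.In p y →
    (∀ π ∈ p.P, RT J c σ π ∨ π ∉ p.P' ∧ Cok δ σ p μ q y π) → ∃ S, (D.Pb i).Onto q x S)
  near : ∀ q₀ (α : Type) (𝒰 : Ultrafilter α) (q : α → Wi →₀ ℝ) (y : α → J.Obc c) y₀,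
    St.Cv (𝒰 : Filter α) q q₀ → (∀ᶠ k in (𝒰 : Filter α), SolE p μ σ (q k) (y k)) →
    SolE p μ σ q₀ y₀ → StrOn p 𝒰 y y₀ → ∀ i x₀, D.rep i y₀ x₀ → RNear (D.rep i) 𝒰 y x₀

end mo

variable (J c) in
/-- the models of the parts at the decay `δ` -/
def PtAt (δ : ℝ) : Prop := ∀ σ p (U : Type) [Fintype U] (μ : Ed c → Option U),
  PH J σ c p μ → ∃ D : Mo Wi (J.Obc c), PM δ σ p μ D

variable (J c) in
/-- **LEAF PART** (final text) -/
def Prt0 : Prop := J.OK → PJ J c → (∀ i, IsPreconnected (J.nb i)) →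
  ∃ δ₀ > 0, ∀ δ ∈ Ioc 0 δ₀, PtAt J c δ

/-! ### the moving ends of an object -/

section wall
variable {Y : Mf 3} [CompactSpace Y.M] (D : YD Y.I Y.M κ lam)

/-- limits that do not move -/
def Cn (β : YC Y.M κ lam) : Prop := dh D β = 0 ∨ dz D β = 3

/-- **LEAF WL**: critical points and chains on a wall of positive scalar curvature -/
def WlStmt : Prop := ∀ (N : ND Y.M lam) b, D.OK → Ink3.Nil N → PY D b →
  (∀ β, N.Crit D β → Bs D β) ∧
  (∀ β, Bs D β → dh D β = b * dz D β ∧ (dz D β = 0 ∨ dz D β = 1 ∨ dz D β = 3)) ∧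
  (∀ β β', Bs D β → Bs D β' → D.Eqv β β' → dz D β = dz D β') ∧
  ∀ β ζ β' ζ' k j, N.Crit D β → N.Brk D 0 β ζ β' ζ' k j → 0 ≤ k ∧ (j ≠ 0 → 0 < k)

end wall

open Classical in
/-- the two ends of a wall without chain have one name -/
def ky (j0 : Set A) (i : Ed c) : Ed c := if i.1.1 ∈ j0 then (i.1, false) else i

/-- the names of the moving ends of `P` -/
def UU (P : Set (Reg A)) (Z : Set (Ed c)) (j0 : Set A) : Type :=
  {u : Ed c // ∃ i ∈ EdP c P, i ∉ Z ∧ ky j0 i = u}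

instance (P : Set (Reg A)) (Z : Set (Ed c)) (j0 : Set A) : Fintype (UU P Z j0) :=
  have : Finite (UU P Z j0) := Subtype.finite
  Fintype.ofFinite _

open Classical in
/-- the type of the limits -/
def mu (P : Set (Reg A)) (Z : Set (Ed c)) (j0 : Set A) (i : Ed c) : Option (UU P Z j0) :=
  if k : i ∈ EdP c P ∧ i ∉ Z then some ⟨ky j0 i, i, k.1, k.2, rfl⟩ else none

/-- the fixed ends -/
def cz (y : J.Obc c) : Set (Ed c) := {i | Cn (J.xs i.1).D (y.β i.1 i.2)}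

/-- the walls without chain -/
def jz (y : J.Obc c) : Set A := {a ∈ cylW c | y.j a = 0}

/-- the type of the limits of `y` on `P` -/
abbrev muy (y : J.Obc c) (P : Set (Reg A)) := mu P (cz y) (jz y)

/-- the expected dimension of the part `p` at `y` -/
def dmy (δ : ℝ) (y : J.Obc c) (p : Prt A A' h) : ℤ :=
  dm δ y p (Fintype.card (UU p.P (cz y) (jz y)))

/-- what regularity gives on irreducible pieces -/
def Ok (δ : ℝ) (y : J.Obc c) (p : Prt A A' h) : Prop :=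
  ((min r 1 + stb y p.P : ℕ) : ℤ) ≤ dmy δ y p

variable (c) in
/-- the pieces -/
def Pc : Set (Reg A) := {π | M.sys.Piece c.1 π}

open Classical in
/-- the side `b` of the wall `x` -/
def hp (x : A) (b : Bool) : Reg A := fun a => if a = x then some b else none

/-! ### leaves at a face `c` of a cell `σ` -/

variable (J c) (δ : ℝ) (sh : Set A') (σ : Cel A') (Adm : (Wi →₀ ℝ) → Prop)

/-- **LEAF CCL**: fixed limits stay fixed -/
def Ccl : Prop := ∀ (α : Type) (𝒰 : Ultrafilter α) (q : α → Wi →₀ ℝ) (y : α → J.Obc c) q₀ y₀,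
  (∀ᶠ k in (𝒰 : Filter α), Sol σ (q k) (y k)) → Sol σ q₀ y₀ → Str 𝒰 y y₀ →
  ∀ i, (∀ᶠ k in (𝒰 : Filter α), i ∈ cz (y k)) → i ∈ cz y₀

/-- richness: all terms, or no spinor -/
structure Rch : Prop where
  S : ∀ s ∈ Job.cl σ, Sys.inf (J.Θ s).2 = c.1 → J.RichS s
  C : ∀ s ∈ Job.cl σ, Sys.inf (J.Θ s).2 = c.1 → ∀ π ∈ Pc c, ∀ i, J.nb i ⊆ M.sys.U π → J.RichC s π i
  T : ∀ π ∈ Pc c, RT J c σ π ∨ ∀ q (y : J.Obc c), Adm q → Sol σ q y → ¬y.TF π

/-- the part with spinor -/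
abbrev pF (y : J.Obc c) : Prt A A' h := J.prt sh σ c (y.F (Pc c)) (y.F (Pc c)) y.H

/-- the part of an irreducible piece -/
abbrev pI (y : J.Obc c) (π : Reg A) : Prt A A' h := J.prt sh σ c {π} ∅ y.H

/-- objects of a face: tight, with a spinor outside the wall -/
def Fc (n₀ : ℤ) (y : J.Obc c) (x : A) : Prop :=
  n₀ + Job.dim σ ≤ 1 ∧ c.1 = {x} ∧ ¬M.pin x ∧ y.Tight ∧ y.TF (hp x true)

/-- **LEAF KILL**: regular ideal objects are objects of a face -/
def Kill (n₀ : ℤ) : Prop := ∀ q (y : J.Obc c), Adm q → Sol σ q y → ¬y.Top →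
  ((y.F (Pc c)).Nonempty → Ok δ y (pF J c sh σ y)) →
  (∀ π ∈ y.I (Pc c), RT J c σ π → Ok δ y.noz (pI J c sh σ y π)) → ∃ x, Fc J c σ n₀ y x

/-- the outer part of a face -/
abbrev pO (x : A) : Prt A A' h := J.prt sh σ c {hp x true} {hp x true} univ

/-- the whole face -/
abbrev pW (x : A) : Prt A A' h := J.prt sh σ c {hp x true, hp x false} {hp x true, hp x false} univ

/-- the whole face without spinor inside -/
abbrev pV (x : A) : Prt A A' h := J.prt sh σ c {hp x true, hp x false} {hp x true} univ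

/-- **LEAF FNUM**: the numbers of the objects of a face -/
def FNum (n₀ : ℤ) : Prop := ∀ q (y : J.Obc c) x, Adm q → Sol σ q y → Fc J c σ n₀ y x →
  J.unc c = univ ∧ ¬Ok δ y (pW J c sh σ x) ∧ (¬y.TF (hp x false) → Ok δ y (pO J c sh σ x) →
    dz (J.xs x).D (y.β x true) = 1 ∧ dmy δ y (pO J c sh σ x) = 2 ∧
      dmy δ y (pW J c sh σ x) = n₀ + Job.dim σ + 1 ∧ dmy δ y (pV J c sh σ x) ≤ 2)

end Crest.Agent.X212.Rf65
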