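import Crest.Agent.X212.Rf65.Pr
import Crest.Agent.X212.G75.Dat

/-!
# Row 212, RFACE: the second stage and the counts at faces with a broken `S¹ × S²` wall; twins
-/

set_option autoImplicit false
set_option linter.unusedSectionVars false
noncomputable section
open scoped Manifold ContDiff Topology InnerProductSpace
open MeasureTheory Set Function Filter

namespace Crest.Agent.X212.Rf65
open An M Nd18 Mod61 Nk89 Cht98 Rdc90 G75 Ins26 Jb7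
open An.Job (Sol SolOn StrOn Str)
open Br55 (NC CN)

section job
variable {Wi : Type} {X : Mf 4} {A κ lam : Type} [Fintype A] [Fintype κ] [Fintype lam]
  [DecidableEq lam] {M : Mark X A κ} {W : World M} {N : ML M lam} {Λ : Lns W N}
  {A' h : Type} [Fintype A'] [DecidableEq A'] [Fintype h] {r n : ℕ}
  (J : Job Wi Λ A' h r n) (c : M.Cl) (sh : Set A') (σ : Cel A') (q : Wi →₀ ℝ) (x : A) (k : ℝ)

/-- solutions outside the wall `x` of level `k` with a non-central limit -/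
structure OS (y : J.Obc c) : Prop where
  sol : SolOn (pO J c sh σ x) σ q y
  dz : dz (J.xs x).D (y.β x true) = 1
  lev : y.kap (W.pc c (hp x true)) = k

/-- their number -/
def oc : ℕ := Nat.card (Quot fun y y' : {y // OS J c sh σ q x k y} => EqP (pO J c sh σ x) y.1 y'.1)

/-- all tight solutions are abelian inside, of level `k` -/
def Ta (n₀ : ℤ) (Tr : J.Obc c → Prop) : Prop := ∀ y : J.Obc c, Sol σ q y → y.Tight →
  FA J c σ n₀ y x ∧ dz (J.xs x).D (y.β x true) = 1 ∧ y.kap (W.pc c (hp x false)) = k ∧ Tr y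

end job

section scene
variable {κ lam : Type} [Fintype κ] [Fintype lam] [DecidableEq lam] {Lm : LM κ lam}

variable (Lm) in
/-- predicates on face objects (`TA` : the abelian part inside is onto; text of helper66) -/
abbrev TP : Type 1 := ∀ {S : Scene Lm} {D : S.Dat} {i Wi r n}
  (J : Job Wi (D.Λ i) (S.A ⊕ Unit) S.ls r n) (c : S.M.Cl) (_ : ℝ) (_ : Set (S.A ⊕ Unit))
  (_ : Cel (S.A ⊕ Unit)) (_ : Wi →₀ ℝ), J.Obc c → S.A → Prop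

variable (TA : TP Lm) {S : Scene Lm} {D : S.Dat} {i : S.L} {Wi : Type} {r n : ℕ}
  (J : Job Wi (D.Λ i) (S.A ⊕ Unit) S.ls r n) (c : S.M.Cl) (δ : ℝ) (σ : Cel (S.A ⊕ Unit))
  (Adm : (Wi →₀ ℝ) → Prop) (R : S.A) (E : Finset S.A) (b z : ℕ) (j : ℕ) (n₀ : ℤ) (T : ℝ)

/-- jobs with the hard wall `R` -/
structure JR : Prop where
  gx : GX J {R} none j n₀ T
  ri : RWI S i R E b z
  one : One1 J R E
  sep : Sep J
  o : ∀ σ ∈ J.𝒦, σ (.inr ()) = some false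

/-- what the first stage knows -/
structure H1R : Prop extends H1 J c δ (shX S {R}) σ Adm n₀ where
  inn : InnAt J c δ σ Adm R E b z
  qr : QR J c δ (shX S {R}) σ Adm R E b z n₀

/-- the inside: uniqueness, genericity, the abelian part -/
def InL (Tr : (Wi →₀ ℝ) → J.Obc c → Prop) : Prop := H1R J c δ σ Adm R E b z n₀ →
  UqL J c δ (shX S {R}) σ Adm n₀ (fun q y => Ok δ y (pO J c (shX S {R}) σ R) ∧ Tr q y) ∧
    TrL J c δ (shX S {R}) σ Adm n₀ Tr ∧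
    ∀ q y x, Adm q → Sol σ q y → FA J c σ n₀ y x → RegO J c δ (shX S {R}) σ q y x →
      n₀ + Job.dim σ = 1 → Ok δ y (pO J c (shX S {R}) σ R) → Tr q y →
      TA J c δ (shX S {R}) σ q y x

variable (Lm) in
/-- **LEAF NT-R** -/
def NtrStmt : Prop := ∀ (S : Scene Lm) (D : S.Dat) i Wi r n
  (J : Job Wi (D.Λ i) (S.A ⊕ Unit) S.ls r n) (c : S.M.Cl) R E b z j n₀ T, JR J R E b z j n₀ T →
  c.1 = {R} → PJ J c → ∃ δ₀ > 0, ∀ δ ∈ Ioc 0 δ₀, Sml fun Adm => ∀ σ, H1R J c δ σ Adm R E b z n₀ →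
    NtL J c δ (shX S {R}) σ Adm n₀ fun q y =>
      Ok δ y (pO J c (shX S {R}) σ R) ∧ TA J c δ (shX S {R}) σ q y R

/-! ### the side `S¹ × D³` -/

/-- the count of a face -/
def ParD : Prop := ∀ σ ∈ J.𝒦, ∀ q, Adm q → σ (.inl R) = none →
  Ta J c σ q R 0 n₀ (fun _ => True) → J.zc q σ c = oc J c (shX S {R}) σ q R J.k

variable (D) in
/-- good data inside `R` -/
def GD : Prop := ∀ i Wi r n (J : Job Wi (D.Λ i) (S.A ⊕ Unit) S.ls r n) (c : S.M.Cl) j n₀ T,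
  DS S i R → JR J R ∅ 0 0 j n₀ T → R ∈ c.1 → PJ J c → ∃ δ₀ > 0, ∀ δ ∈ Ioc 0 δ₀,
    (SplAt J c δ → DfAt J c δ R) ∧ (c.1 = {R} → Sml fun Adm => ParD J c Adm R n₀ ∧
      ∀ σ, InL TA J c δ σ Adm R ∅ 0 0 n₀ fun _ _ => True)

/-- data with the property `P` can be reached by a change inside `R` -/
def Rea (P : S.Dat → Prop) : Prop := ∀ β : S.Bs, ∃ β' : S.Bs,
  (∀ u, ∀ x ∈ (S.M.sys.w R).sd true,
    Met55.Co (Met55.atx (β'.B.r u) x) (Met55.atx (β.B.r u) x) ∧ ∀ i, (β'.b i).b u x = (β.b i).b u x) ∧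
  ∀ D : S.Dat, D.B = β'.B → D.b = β'.b → P D

variable (Lm) in
/-- **LEAF DF** -/
def DfStmt : Prop := ∀ (S : Scene Lm) R i₀, S.OK → DS S i₀ R → Rea R fun D => GD TA D R

/-! ### the side `D² × S² # n (-ℂP²)` -/

/-- the count of the two faces -/
def ParQ (e : Bool → S.A) (Tr : Cel (S.A ⊕ Unit) → (Wi →₀ ℝ) → J.Obc c → Prop) : Prop :=
  ∀ (τ : Finset S.A) q, Adm q → R ∉ τ → (∀ b, e b ∉ τ) →
    (∀ y : J.Obc c, ¬Sol (cel (τ ∪ {R}) (some false)) q y) →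
    (∀ b, let σ := cel (τ ∪ {R, e b}) (some false)
      σ ∈ J.𝒦 ∧ Finite (Quot fun y y' : J.TS σ q c => Job.Iso y.1 y'.1) ∧
        Ta J c σ q R (z / 4) n₀ (Tr σ q)) →
    ∑ b, (J.zc q (cel (τ ∪ {R, e b}) (some false)) c : ZMod 2) =
      oc J c (shX S {R}) (cel (τ ∪ {R}) (some false)) q R (J.k - z / 4)

variable (Lm) in
/-- **LEAF Q** -/
def QStmt : Prop := ∀ (S : Scene Lm) (D : S.Dat) i Wi r n
  (J : Job Wi (D.Λ i) (S.A ⊕ Unit) S.ls r n) (c : S.M.Cl) R e (Q : QD S R e) j n₀ T, Q.OK i →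
  JR J R {e false, e true} 1 Q.Z.card j n₀ T → c.1 = {R} → PJ J c →
  ∃ Tr, ∃ δ₀ > 0, ∀ δ ∈ Ioc 0 δ₀, Sml fun Adm => ParQ J c Adm R Q.Z.card n₀ e Tr ∧
    ∀ σ, InL TA J c δ σ Adm R {e false, e true} 1 Q.Z.card n₀ (Tr σ)

/-! ### twins -/

section tw
variable {S' : Scene Lm} {D' : S'.Dat} {i' : S'.L} {Wi' : Type}
  (J' : Job Wi' (D'.Λ i') (S'.A ⊕ Unit) S'.ls r n) (R' : S'.A)

/-- **TW-NUM**: the numbers outside `R` are those outside `R'` -/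
def TwN : Prop := ∀ c : S.M.Cl, R ∈ c.1 → ∃ c' : S'.M.Cl, R' ∈ c'.1 ∧ cylW c' ⊆ insert R' S'.ls ∧
  ∀ δ > 0, SplAt J c δ → SplAt J' c' δ → DfAt J' c' δ R' →
    (AdO J' c' δ R' ∅ 0 0 → AdO J c δ R E 1 z) ∧ ∀ σ ∈ J.𝒦, ∃ σ' ∈ J'.𝒦,
      ∀ ε K₀, KcAt J' c' δ ε K₀ (shX S' {R'}) σ' (some R') j J'.k →
        KcAt J c δ ε K₀ (shX S {R}) σ (some R) j (J.k - z / 4)

end tw

variable (Lm) in
/-- **LEAF TW**: twin families -/
def TwStmt : Prop := ∀ (S S' : Scene Lm) (R : S.A) (e : Bool → S.A) (m : Mt S S' (hf S.M R true))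
  (R₀ : m.A₀) j N d (c : G75.Cn m.L₀ m.A₀) (P : S'.Dat → Prop), m.I.f R₀ = R →
  m.I.ψ '' hf S.M R true = hf S'.M (m.I.f' R₀) true →
  (∀ a ∈ S'.fz, ∃ a₀, m.I.f' a₀ = a ∧ m.I.f a₀ ∈ S.fz) → CN S' d (m.r c) →
  (∀ i σ, c i σ ≠ 0 → R₀ ∉ σ ∧
    (∀ b, σ.map m.I.f ∪ {R, e b} ∈ S.K (m.ι i) ∧ NC S (m.ι i) (σ.map m.I.f ∪ {R, e b})) ∧
    (σ.map m.I.f' ∪ {m.I.f' R₀} ∈ S'.K (m.ι' i) ∧ NC S' (m.ι' i) (σ.map m.I.f' ∪ {m.I.f' R₀})) ∧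
    RWI S (m.ι i) R {e false, e true} 1 (1 + (lsI S R).card) ∧ RS S (m.ι i) R (e false) (e true) ∧
    DS S' (m.ι' i) (m.I.f' R₀) ∧ RN S (m.ι i) S' (m.ι' i)) →
  CN S (d + 1) (m.l {e false} c + m.l {e true} c) → Rea (m.I.f' R₀) P → c ≠ 0 → ∀ T < (1 : ℝ),
  ∃ (F : Fam S j N) (F' : Fam S' j N) (u : F.Wi ↪ F'.Wi), F.OK T ∧ F'.OK T ∧ F.X = {R} ∧
    F'.X = {m.I.f' R₀} ∧ F.n₀ = -(d + 1 : ℕ) ∧ F'.n₀ = -d ∧ P F'.D ∧
    (∀ i, Sep (F.job i)) ∧ (∀ i, Sep (F'.job i)) ∧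
    (∀ i₁, ∀ σ₁ ∈ F.𝒦 i₁, ∃ i σ b, ∃ τ ⊆ σ.map m.I.f ∪ {R, e b}, c i σ ≠ 0 ∧ i₁ = m.ι i ∧
      σ₁ = cel τ (some false)) ∧
    (∀ i₁, ∀ σ₁ ∈ F'.𝒦 i₁, ∃ i σ, ∃ τ ⊆ σ.map m.I.f' ∪ {m.I.f' R₀}, c i σ ≠ 0 ∧ i₁ = m.ι' i ∧
      σ₁ = cel τ (some false)) ∧
    ∀ i σ, c i σ ≠ 0 → (∀ b, cel (σ.map m.I.f ∪ {R, e b}) (some false) ∈ F.𝒦 (m.ι i)) ∧
      cel (σ.map m.I.f' ∪ {m.I.f' R₀}) (some false) ∈ F'.𝒦 (m.ι' i) ∧
      TwN (F.job (m.ι i)) R {e false, e true} (1 + (lsI S R).card) j (F'.job (m.ι' i)) (m.I.f' R₀) ∧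
      ∀ q, oc (F.job (m.ι i)) ((F.job (m.ι i)).cf (.inl R)) (shX S {R})
          (cel (σ.map m.I.f ∪ {R}) (some false)) (rs u q) R
          ((F.job (m.ι i)).k - (1 + (lsI S R).card : ℕ) / 4) =
        oc (F'.job (m.ι' i)) ((F'.job (m.ι' i)).cf (.inl (m.I.f' R₀))) (shX S' {m.I.f' R₀})
          (cel (σ.map m.I.f' ∪ {m.I.f' R₀}) (some false)) q (m.I.f' R₀) (F'.job (m.ι' i)).k

end scene
end Crest.Agent.X212.Rf65
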