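import Crest.Agent.X212.Dec35.Pk
import Crest.Agent.X212.Cyf70.CD
import Crest.Agent.X212.Rf65.Poi
import Mathlib.Analysis.Normed.Lp.SmoothApprox

/-! Row 212 (helper65): abstract cylinders (`Cyf70.CylD`) as instances of `Dec35.Cy`. -/

set_option autoImplicit false
set_option linter.unusedSectionVars false
noncomputable section
open Set Function Filter MeasureTheory
open scoped RealInnerProductSpace BoundedContinuousFunction Topology

namespace Crest.Agent.X212.Rf65
open Neck67 Cyf70 Dec35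

open Classical in
/-- a function of class `Sm` as a bounded continuous function -/
def bc (b : ℝ → ℝ) : ℝ →ᵇ ℝ :=
  if h : Sm b then .ofNormedAddCommGroup b h.cd.continuous _ (h.bd 0).choose_spec else 0

theorem bc_apply {b : ℝ → ℝ} (h : Sm b) (t : ℝ) : bc b t = b t := by rw [bc, dif_pos h]; rfl

theorem bc_der {b : ℝ → ℝ} (h : Sm b) (t : ℝ) : HasDerivAt (bc b) (bc (deriv b) t) t := by
  rw [bc_apply h.deriv, show (bc b : ℝ → ℝ) = b from funext (bc_apply h)]
  exact (h.diff t).hasDerivAt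

variable {X₁ X₀ Z : Type*} [NormedAddCommGroup X₁] [NormedSpace ℝ X₁] [NormedAddCommGroup X₀]
  [InnerProductSpace ℝ X₀] [NormedAddCommGroup Z] [NormedSpace ℝ Z]

theorem dense_loc : Dense {u : Lam X₀ | ∃ n : ℕ, ∀ b, Sm b → (∀ t : ℝ, |t| ≤ n → b t = 0) →
    mt X₀ (bc b) u = 0} := by
  refine (Lp.dense_hasCompactSupport_contDiff (μ := volume) (F := X₀) (p := 2) (by simp)).mono ?_
  rintro u ⟨g, h1, h2, -⟩
  obtain ⟨r, hr⟩ := h2.isCompact.isBounded.subset_closedBall 0
  refine ⟨⌈r⌉₊, fun b hb h0 => R.ext' (R.ma _ _ h1) R.zero fun t => ?_⟩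
  by_cases ht : |t| ≤ r
  · rw [bc_apply hb, h0 t (ht.trans (Nat.le_ceil r)), zero_smul]
  · rw [image_eq_zero_of_notMem_tsupport (f := g) fun h => ht (by simpa using hr h)]; simp

variable (X₀) in
/-- the multiplications by functions of time on `L²(ℝ, X₀)` -/
def muL : Mu (Lam X₀) where
  m b := mt X₀ (bc b)
  one := ContinuousLinearMap.ext fun f => R.ext' (by rr) (R.rfl f) fun t => by
    simp [bc_apply Sm.one]
  add hb hc := ContinuousLinearMap.ext fun f => R.ext' (by rr)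
    ((R.ma _ _ (R.rfl f)).add (R.ma _ _ (R.rfl f))) fun t => by
      simp [bc_apply hb, bc_apply hc, bc_apply (hb.add hc), add_smul]
  smul a hb := ContinuousLinearMap.ext fun f => R.ext' (by rr) ((R.ma _ _ (R.rfl f)).smul a)
    fun t => by simp [bc_apply hb, bc_apply (hb.smul a), mul_smul]
  mul hb hc := ContinuousLinearMap.ext fun f => R.ext' (by rr) (R.ma _ _ (R.ma _ _ (R.rfl f)))
    fun t => by simp [bc_apply hb, bc_apply hc, bc_apply (hb.mul hc), mul_smul]
  sym _ u v := inner_ma _ (fun _ _ => rfl) u v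
  bd {b M} hb h := ContinuousLinearMap.opNorm_le_bound _ ((abs_nonneg _).trans (h 0)) fun f =>
    R.norm_le (by rr) (R.rfl f) (ae_of_all _ fun t => by
      rw [norm_smul, bc_apply hb]
      exact mul_le_mul_of_nonneg_right (h t) (norm_nonneg _))
  loc := dense_loc

theorem muL_m (b : ℝ → ℝ) : (muL X₀).m b = mt X₀ (bc b) := rfl

variable {i L : X₁ →L[ℝ] X₀} {J : Z →L[ℝ] Lam X₁} {T : Z →L[ℝ] Lam X₀}

open Classical in
/-- the multiplications on `Z` -/
def mZ (J : Z →L[ℝ] Lam X₁) (b : ℝ → ℝ) (u : Z) : Z :=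
  if h : ∃ v, J v = mt X₁ (bc b) (J u) then h.choose else 0

theorem J_mZ (h : CylD 1 i L J T) {b : ℝ → ℝ} (hb : Sm b) (u : Z) :
    J (mZ J b u) = mt X₁ (bc b) (J u) := by
  have e : ∃ v, J v = mt X₁ (bc b) (J u) :=
    let ⟨s, hs⟩ := h.exists_mul (bc_der hb); ⟨s u, (hs u).1⟩
  rw [mZ, dif_pos e]; exact e.choose_spec

theorem mZ_eq (h : CylD 1 i L J T) {b : ℝ → ℝ} (hb : Sm b) {u v : Z}
    (e : J v = mt X₁ (bc b) (J u)) : mZ J b u = v := h.injJ ((J_mZ h hb u).trans e.symm)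

theorem cp_mt {X Y : Type*} [NormedAddCommGroup X] [NormedSpace ℝ X] [NormedAddCommGroup Y]
    [NormedSpace ℝ Y] (a : X →L[ℝ] Y) (b : ℝ →ᵇ ℝ) (f : Lam X) :
    cp a (mt X b f) = mt Y b (cp a f) := R.ext' (by rr) (by rr) fun t => by simp

/-- an operator `S` on the cylinder with a slice-wise projector: only `low` and `quad` remain -/
theorem cy_of (h : CylD 1 i L J T) {S : Z →L[ℝ] Lam X₀} (op : CylOp (cp i ∘L J) T S)
    (P : X₀ →L[ℝ] X₀) {C : ℝ} (hC : 1 ≤ C)
    (low : ∀ u, ‖cp i (J u) - cp P (cp i (J u))‖ ≤ C * (‖S u‖ + ‖T u‖))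
    (quad : ∀ u w, |⟪S u, cp P (cp i (J w))⟫| ≤
      C * (‖cp i (J u) - cp P (cp i (J u))‖ + ‖T u‖) * ‖T w‖) :
    Cy (muL X₀) (mZ J) (cp i ∘L J) T S (cp P) C where
  op := op
  one := hC
  im b hb u := by
    rw [ContinuousLinearMap.comp_apply, J_mZ h hb, cp_mt]; rfl
  Tm b hb u := by
    rw [h.T_mul (bc_der hb) (J_mZ h hb u), one_smul]; rfl
  Pm b _ x := cp_mt P _ x
  low := low
  quad := quad

variable (i L) in
/-- the kernel of the slice operator -/
def kerI : Submodule ℝ X₀ := L.ker.map (i : X₁ →ₗ[ℝ] X₀)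

instance [FiniteDimensional ℝ L.ker] : FiniteDimensional ℝ (kerI i L) := by
  unfold kerI; infer_instance

variable [CompleteSpace X₁] [FiniteDimensional ℝ L.ker]

theorem slice_gap {K : ℝ} (hK : Fred93.Est L i K) (hi : IsCompactOperator i) (inj : Injective i) :
    ∃ c, 1 ≤ c ∧ ∀ v, ‖i v - (kerI i L).starProjection (i v)‖ ≤ c * ‖L v‖ := by
  obtain ⟨c, hc, hb⟩ := abs_gap hK hi inj
  refine ⟨max 1 (‖i‖ * c), le_max_left _ _, fun v => ?_⟩
  obtain ⟨k, h1, h2⟩ := (kerI i L).starProjection_apply_mem (i v)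
  have h3 : L k = 0 := h1
  have h4 : i k = (kerI i L).starProjection (i v) := h2
  have h5 := hb (v - k) fun y hy => by
    rw [map_sub, h4]
    exact (kerI i L).starProjection_inner_eq_zero _ _ ⟨y, hy, rfl⟩
  rw [map_sub, h3, sub_zero] at h5
  rw [← h4, ← map_sub]
  refine (i.le_opNorm _).trans ((mul_le_mul_of_nonneg_left h5 (norm_nonneg _)).trans ?_)
  rw [← mul_assoc]
  exact mul_le_mul_of_nonneg_right (le_max_right _ _) (norm_nonneg _)

/-- **Local cylinder operators** satisfy the hypotheses of the peaked lower bound. -/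
theorem cy_loc (h : CylD 1 i L J T) {K : ℝ} (hK : Fred93.Est L i K) (hi : IsCompactOperator i) :
    ∃ C, Cy (muL X₀) (mZ J) (cp i ∘L J) T (cp L ∘L J) (cp (kerI i L).starProjection) C := by
  obtain ⟨c, hc, hb⟩ := slice_gap hK hi h.inj
  refine ⟨c, cy_of h (h.cylOp h.sym) _ hc (fun u => ?_) fun u w => ?_⟩
  · refine le_trans ?_ (mul_le_mul_of_nonneg_left (le_add_of_nonneg_right (norm_nonneg _))
      (zero_le_one.trans hc))
    exact R.norm_le (by rr) (R.ma 1 L (R.rfl (J u))) (ae_of_all _ fun t => by simpa using hb _)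
  · rw [ContinuousLinearMap.comp_apply, R.inner (R.ma 1 L (R.rfl (J u)))
      (R.ma 1 _ (R.ma 1 i (R.rfl (J w)))), integral_eq_zero_of_ae (ae_of_all _ fun t => ?_),
      abs_zero]
    · positivity
    obtain ⟨k, h1, h2⟩ := (kerI i L).starProjection_apply_mem (i (J w t))
    have h3 : L k = 0 := h1
    have h4 : i k = (kerI i L).starProjection (i (J w t)) := h2
    simp [← h4, h.sym, h3]

end Crest.Agent.X212.Rf65
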