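import Crest.Agent.X212.Neck67.Newton
import Crest.Agent.X212.Fred93.Basic

/-!
# Row 212, GL (helper65): the format-free gluing theorem

One lower bound gives existence, regularity, a uniform slice and uniqueness modulo gauge.
-/

set_option autoImplicit false
set_option linter.unusedSectionVars false
noncomputable section
open Set Metric Function Filter Topology

namespace Crest.Agent.X212.Rf65
open Neck67

variable {E F H X E' F' : Type*} [NormedAddCommGroup E] [NormedSpace ℝ E] [NormedAddCommGroup F]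
  [NormedSpace ℝ F] [NormedAddCommGroup H] [NormedSpace ℝ H] [NormedAddCommGroup X]
  [NormedSpace ℝ X] [NormedAddCommGroup E'] [NormedSpace ℝ E'] [NormedAddCommGroup F']
  [NormedSpace ℝ F']

/-- **Patching of lower bounds.** `c, c'` cut an element into its pieces. -/
theorem patch_low {D : E → F} {D' : E' → F'} {c : E → E'} {c' : F → F'} {A B K η : ℝ}
    (hA : 0 ≤ A) (hK : 0 ≤ K) (h1 : ∀ u, ‖u‖ ≤ A * ‖c u‖) (h2 : ∀ f, ‖c' f‖ ≤ B * ‖f‖)
    (h3 : ∀ u, ‖c u‖ ≤ K * ‖D' (c u)‖) (h4 : ∀ u, ‖D' (c u) - c' (D u)‖ ≤ η * ‖u‖)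
    (hη : A * K * η ≤ 1 / 2) (u : E) : ‖u‖ ≤ 2 * (A * K * B) * ‖D u‖ := by
  have h5 : ‖D' (c u)‖ ≤ B * ‖D u‖ + η * ‖u‖ := by
    have := norm_add_le (c' (D u)) (D' (c u) - c' (D u))
    rw [add_sub_cancel] at this
    linarith [h2 (D u), h4 u]
  have h6 := mul_le_mul_of_nonneg_left ((h3 u).trans (mul_le_mul_of_nonneg_left h5 hK)) hA
  have h7 := mul_le_mul_of_nonneg_right hη (norm_nonneg u)
  nlinarith [h1 u]

/-- an operator of index zero that is bounded below is an isomorphism -/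
theorem exists_equiv_of_low [CompleteSpace E] [CompleteSpace F] {A : E →L[ℝ] F}
    (h : Fred93.Fr A 0) {K : ℝ} (hK : 0 ≤ K) (hb : ∀ u, ‖u‖ ≤ K * ‖A u‖) :
    ∃ L : E ≃L[ℝ] F, (L : E →L[ℝ] F) = A ∧ ‖(L.symm : F →L[ℝ] E)‖ ≤ K := by
  have hi : Injective A := (injective_iff_map_eq_zero _).2 fun u hu => by
    have := hb u
    rw [hu, norm_zero, mul_zero] at this
    exact norm_le_zero_iff.1 this
  refine ⟨ContinuousLinearEquiv.ofBijective A (LinearMap.ker_eq_bot.2 hi)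
    (LinearMap.range_eq_top.2 (h.surj_of_inj hi)), rfl, ?_⟩
  refine ContinuousLinearMap.opNorm_le_bound _ hK fun y => ?_
  refine (hb _).trans (le_of_eq ?_)
  congr 2
  exact (ContinuousLinearEquiv.ofBijective A (LinearMap.ker_eq_bot.2 hi)
    (LinearMap.range_eq_top.2 (h.surj_of_inj hi))).apply_symm_apply y

/-- **Landau's inequality.** -/
theorem landau {f : E → F} {f' : E → E →L[ℝ] F} {ρ C ε : ℝ} (hρ : 0 < ρ) (hC : 0 ≤ C)
    (hd : ∀ y ∈ closedBall (0 : E) ρ, HasFDerivAt f (f' y) y)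
    (hl : ∀ y ∈ closedBall (0 : E) ρ, ‖f' y - f' 0‖ ≤ C * ‖y‖)
    (hb : ∀ y ∈ closedBall (0 : E) ρ, ‖f y‖ ≤ ε) : ‖f' 0‖ ≤ 2 * ε / ρ + C * ρ := by
  have h0 : (0 : E) ∈ closedBall (0 : E) ρ := mem_closedBall_self hρ.le
  have hε : 0 ≤ ε := (norm_nonneg _).trans (hb 0 h0)
  have key : ∀ y ∈ closedBall (0 : E) ρ, ‖f' 0 y‖ ≤ 2 * ε + C * ρ * ‖y‖ := by
    intro y hy
    have h1 := (convex_closedBall (0 : E) ρ).norm_image_sub_le_of_norm_hasFDerivWithin_le'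
      (f := f) (f' := f') (φ := f' 0) (C := C * ρ) (fun z hz => (hd z hz).hasFDerivWithinAt)
      (fun z hz => (hl z hz).trans (mul_le_mul_of_nonneg_left (mem_closedBall_zero_iff.1 hz) hC))
      h0 hy
    rw [sub_zero] at h1
    have h2 : f' 0 y = f y - f 0 - (f y - f 0 - f' 0 y) := by abel
    rw [h2]
    refine (norm_sub_le _ _).trans ?_
    linarith [norm_sub_le (f y) (f 0), hb y hy, hb 0 h0]
  refine ContinuousLinearMap.opNorm_le_of_unit_norm (by positivity) fun y hy => ?_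
  have h3 := key (ρ • y) (by rw [mem_closedBall_zero_iff, norm_smul, hy]; simp [abs_of_pos hρ])
  rw [map_smul, norm_smul, norm_smul, hy, Real.norm_eq_abs, abs_of_pos hρ, mul_one] at h3
  rw [div_add' _ _ _ hρ.ne', le_div_iff₀ hρ]
  linarith

/-- The data of a gluing problem, in coordinates centred at the approximate solution.
`s` is the equation, `σ` the gauge condition, `act` the action of the gauge group in a chart. -/
structure Glu (s : E → F) (s' : E → E →L[ℝ] F) (σ : E →L[ℝ] H) (act : X → E → E)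
    (act' : X → E → X →L[ℝ] E) (C r : ℝ) : Prop where
  one : 1 ≤ C
  pos : 0 < r
  sd : ∀ y ∈ closedBall (0 : E) r, HasFDerivAt s (s' y) y
  sl : ∀ y ∈ closedBall (0 : E) r, C * ‖s' y - s' 0‖ ≤ 1 / 2
  σb : ‖σ‖ ≤ C
  low : ∀ u, ‖u‖ ≤ C * ‖(s' 0).prod σ u‖
  ind : Fred93.Fr ((s' 0).prod σ) 0
  a0 : ∀ y, act 0 y = y
  ad : ∀ ξ ∈ closedBall (0 : X) r, ∀ y ∈ closedBall (0 : E) r,
    HasFDerivAt (fun η => act η y) (act' ξ y) ξ
  al : ∀ ξ ∈ closedBall (0 : X) r, ∀ y ∈ closedBall (0 : E) r,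
    4 * C ^ 3 * ‖act' ξ y - act' 0 0‖ ≤ 1
  ab : ‖act' 0 0‖ ≤ C
  poi : ∀ ξ, ‖ξ‖ ≤ C * ‖act' 0 0 ξ‖
  sa : ∀ ξ, 2 * C ^ 2 * ‖s' 0 (act' 0 0 ξ)‖ ≤ ‖ξ‖
  ind' : Fred93.Fr (σ.comp (act' 0 0)) 0
  inv : ∀ ξ ∈ closedBall (0 : X) r, ∀ y ∈ closedBall (0 : E) r, s y = 0 → s (act ξ y) = 0
  s0 : 2 * C * ‖s 0‖ ≤ r

namespace Glu
variable {s : E → F} {s' : E → E →L[ℝ] F} {σ : E →L[ℝ] H} {act : X → E → E}
  {act' : X → E → X →L[ℝ] E} {C r : ℝ} (h : Glu s s' σ act act' C r)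
include h

theorem nn : 0 ≤ C := zero_le_one.trans h.one

/-- the gauge condition is uniformly transverse to the orbits -/
theorem low' (ξ : X) : ‖ξ‖ ≤ 2 * C ^ 2 * ‖σ.comp (act' 0 0) ξ‖ := by
  have hC := h.nn
  have h1 := h.low (act' 0 0 ξ)
  rw [ContinuousLinearMap.prod_apply, Prod.norm_mk] at h1
  have h2 := (h.poi ξ).trans (mul_le_mul_of_nonneg_left h1 hC)
  rw [ContinuousLinearMap.comp_apply]
  have h3 : max ‖s' 0 (act' 0 0 ξ)‖ ‖σ (act' 0 0 ξ)‖ ≤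
      ‖s' 0 (act' 0 0 ξ)‖ + ‖σ (act' 0 0 ξ)‖ :=
    max_le (le_add_of_nonneg_right (norm_nonneg _)) (le_add_of_nonneg_left (norm_nonneg _))
  have h4 := mul_le_mul_of_nonneg_left h3 (mul_nonneg hC hC)
  nlinarith [h.sa ξ]

variable [CompleteSpace E] [CompleteSpace F] [CompleteSpace H] [CompleteSpace X]

theorem near : ∃ L : E ≃L[ℝ] F × H, ‖(L.symm : F × H →L[ℝ] E)‖ ≤ C ∧
    Near L (fun y => (s y, σ y)) (fun y => (s' y).prod σ) 0 r := by
  obtain ⟨L, hL, hn⟩ := exists_equiv_of_low h.ind h.nn h.low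
  refine ⟨L, hn, fun y hy => (h.sd y hy).prodMk σ.hasFDerivAt, fun y hy => ?_⟩
  have h1 : (s' y).prod σ - (L : E →L[ℝ] F × H) = (s' y - s' 0).prod 0 := by
    rw [hL]; ext v <;> simp
  rw [h1, ContinuousLinearMap.opNorm_prod, Prod.norm_mk, norm_zero,
    max_eq_left (norm_nonneg _)]
  exact (mul_le_mul_of_nonneg_right hn (norm_nonneg _)).trans (h.sl y hy)

/-- **Uniform slice.** -/
theorem slice {y : E} (hy : 16 * C ^ 4 * ‖y‖ ≤ r) :
    ∃ ξ ∈ closedBall (0 : X) r, σ (act ξ y) = 0 ∧ act ξ y ∈ closedBall (0 : E) r := by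
  have hC := h.nn
  have h1 := h.one
  have hC2 : 1 ≤ C ^ 2 := one_le_pow₀ h1
  have hC3 : 1 ≤ C ^ 3 := one_le_pow₀ h1
  have hC4 : C ^ 3 ≤ C ^ 4 := pow_le_pow_right₀ h1 (by norm_num)
  have hyn := norm_nonneg y
  have hy' : y ∈ closedBall (0 : E) r := by
    rw [mem_closedBall_zero_iff]; nlinarith
  obtain ⟨M, hM, hn⟩ := exists_equiv_of_low h.ind' (by positivity) h.low'
  have hN : Near M (fun ξ => σ (act ξ y)) (fun ξ => σ.comp (act' ξ y)) 0 r := by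
    refine ⟨fun ξ hξ => σ.hasFDerivAt.comp ξ (h.ad ξ hξ y hy'), fun ξ hξ => ?_⟩
    rw [hM, ← ContinuousLinearMap.comp_sub]
    have h2 := (σ.opNorm_comp_le (act' ξ y - act' 0 0)).trans
      (mul_le_mul_of_nonneg_right h.σb (norm_nonneg _))
    have h3 := mul_le_mul hn h2 (norm_nonneg _) (by positivity)
    nlinarith [h.al ξ hξ y hy']
  have h4 : ‖σ y‖ ≤ C * ‖y‖ := (σ.le_opNorm y).trans (mul_le_mul_of_nonneg_right h.σb hyn)
  have h5 : 2 * ‖(M.symm : H →L[ℝ] X)‖ * ‖σ y‖ ≤ 4 * C ^ 3 * ‖y‖ := by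
    have := mul_le_mul hn h4 (norm_nonneg _) (by positivity)
    nlinarith
  obtain ⟨ξ, hξ, h0⟩ := hN.ex (y := 0) (by
    rw [sub_zero, h.a0]; nlinarith)
  refine ⟨ξ, hξ, h0, ?_⟩
  have h6 := hN.low hξ (mem_closedBall_self h.pos.le)
  rw [zero_sub, norm_neg, h0, sub_zero, h.a0] at h6
  have h7 := (convex_closedBall (0 : X) r).norm_image_sub_le_of_norm_hasFDerivWithin_le
    (f := fun η => act η y) (f' := fun η => act' η y) (C := 2 * C)
    (fun η hη => (h.ad η hη y hy').hasFDerivWithinAt) (fun η hη => by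
      have h8 := norm_add_le (act' 0 0) (act' η y - act' 0 0)
      rw [add_sub_cancel] at h8
      nlinarith [h.al η hη y hy', h.ab, norm_nonneg (act' η y - act' 0 0)])
    (mem_closedBall_self h.pos.le) hξ
  simp only [h.a0, sub_zero] at h7
  rw [mem_closedBall_zero_iff]
  have h9 := norm_add_le y (act ξ y - y)
  rw [add_sub_cancel] at h9
  have h10 := mul_le_mul_of_nonneg_left (h6.trans h5) (by positivity : 0 ≤ 2 * C)
  nlinarith

/-- **Gluing theorem**: one regular solution; every solution in a smaller ball is gauge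
equivalent to it. -/
theorem main : ∃ y₀ : E, ‖y₀‖ ≤ 2 * C * ‖s 0‖ ∧ s y₀ = 0 ∧ σ y₀ = 0 ∧
    Bijective ((s' y₀).prod σ) ∧ Surjective (s' y₀) ∧
    ∀ y, 16 * C ^ 4 * ‖y‖ ≤ r → s y = 0 → ∃ ξ ∈ closedBall (0 : X) r, act ξ y = y₀ := by
  obtain ⟨L, hn, hN⟩ := h.near
  have h0 : ‖((s 0, σ 0) : F × H) - 0‖ = ‖s 0‖ := by simp
  have h1 : 2 * ‖(L.symm : F × H →L[ℝ] E)‖ * ‖s 0‖ ≤ 2 * C * ‖s 0‖ := by
    have := norm_nonneg (s 0); nlinarith
  obtain ⟨y₀, hy₀, e⟩ := hN.ex (y := 0) (by rw [h0]; exact h1.trans h.s0)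
  have hb : Bijective ((s' y₀).prod σ) := by
    obtain ⟨A, hA, -⟩ := hN.inv hy₀
    rw [← hA]; exact A.bijective
  refine ⟨y₀, ?_, congrArg Prod.fst e, congrArg Prod.snd e, hb, fun f => ?_, fun y hy hs => ?_⟩
  · have h2 := hN.low hy₀ (mem_closedBall_self h.pos.le)
    rw [zero_sub, norm_neg, e, h0] at h2
    exact h2.trans h1
  · obtain ⟨u, hu⟩ := hb.2 (f, 0)
    exact ⟨u, congrArg Prod.fst hu⟩
  · obtain ⟨ξ, hξ, h2, h3⟩ := h.slice hy
    have hy' : y ∈ closedBall (0 : E) r := by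
      have hC4 : 1 ≤ C ^ 4 := one_le_pow₀ h.one
      rw [mem_closedBall_zero_iff]; nlinarith [norm_nonneg y]
    refine ⟨ξ, hξ, hN.injOn h3 hy₀ ?_⟩
    change (s (act ξ y), σ (act ξ y)) = (s y₀, σ y₀)
    rw [h.inv ξ hξ y hy' hs, h2]; exact e.symm

end Glu

end Crest.Agent.X212.Rf65
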