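import Crest.Agent.X212.Rf65.Pl
import Crest.Agent.X212.Rf65.Rs

/-!
# Row 212, RFACE: the numerical core of KILL; faces with a broken `S¹ × S²` wall
-/

set_option autoImplicit false
set_option linter.unusedSectionVars false
noncomputable section
open scoped Manifold ContDiff Topology InnerProductSpace
open MeasureTheory Set Function Filter

namespace Crest.Agent.X212.Rf65
open An M Nd18 Mod61 Nk89 Cht98 Rdc90 G75 Ins26 Jb7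
open An.Job (Sol SolOn StrOn Str)
open Br55 (NC)

section job
variable {Wi : Type} {X : Mf 4} {A κ lam : Type} [Fintype A] [Fintype κ] [Fintype lam]
  [DecidableEq lam] {M : Mark X A κ} {W : World M} {N : ML M lam} {Λ : Lns W N}
  {A' h : Type} [Fintype A'] [DecidableEq A'] [Fintype h] {r n : ℕ}
  {J : Job Wi Λ A' h r n} {c : M.Cl}

/-- the excess of a part: `Ok δ y p ↔ 0 ≤ xs δ y p + 2 r - 2 n - 2 min r 1` -/
def xs (δ : ℝ) (y : J.Obc c) (p : Prt A A' h) : ℤ :=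
  ix δ y p.P p.P' + p.V.ncard + Fintype.card (UU p.P (cz y) (jz y)) - 2 * p.H.ncard - stb y p.P

theorem ok_iff {δ : ℝ} {y : J.Obc c} {p : Prt A A' h} :
    Ok δ y p ↔ 0 ≤ xs δ y p + 2 * r - 2 * n - 2 * (min r 1 : ℕ) := by
  simp only [Ok, dmy, dm, xs, Nat.cast_add]
  omega

open Classical in
/-- the harmonic forms that do not move the outer limit -/
def du (y : J.Obc c) (a : A) : ℤ :=
  dh (J.xs a).D (y.β a true) - if Cn (J.xs a).D (y.β a true) then 0 else 1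

variable (J c)

/-- **MOV**: the limit at the wall `a` can be moved -/
def Mov (a : A) : Prop := ∀ δ (y : J.Obc c) ρ b γ, ρ ∈ Pc c → a ∈ cylW c → ρ a = some b →
  Go δ y {ρ} → Bs (J.xs a).D γ → ∃ y' : J.Obc c, y'.s = y.s ∧ Go δ y' {ρ} ∧
    (J.xs a).D.Eqv γ (y'.β a b) ∧ ∀ a' ≠ a, y'.β a' = y.β a'

/-- **RCH**: chains at the wall `a` cost at least one -/
def Gap (a : A) : Prop := ∀ β ζ β' ζ' k j, (J.xs a).N.Crit (J.xs a).D β →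
  (J.xs a).N.Brk (J.xs a).D 0 β ζ β' ζ' k j → j ≠ 0 → 1 ≤ k

/-- **LEAF FLC**: flat on a simply connected piece -/
def Flc : Prop := J.OK → ∀ δ (y : J.Obc c) π a b, 0 < δ → π ∈ Pc c → a ∈ cylW c → π a = some b →
  SC (M.sys.U π) → Go δ y {π} → Fl y π → Un y π ∧ dz (J.xs a).D (y.β a b) = 3

/-- every index is a field term or a term of the cuts -/
def Sep : Prop := ∀ w, J.co w = 0 ∨ ∀ l, J.cc l w = 0

/-- flat fillers inside the wall `a` -/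
structure DfAt (δ : ℝ) (a : A) : Prop where
  ex : ∀ σ ∈ J.𝒦, ∀ (y : J.Obc c) π γ, y.s ∈ Job.cl σ → Sys.inf (J.Θ y.s).2 = c.1 → π ∈ Pc c →
    π a = some false → Adm0 y.x.con (J.B c) (J.G c y.s) → Bs (J.xs a).D γ → ∃ z : J.Obc c, z.s = y.s ∧ Go δ z {π} ∧
      Fl z π ∧ Un z π ∧ (J.xs a).D.Eqv γ (z.β a false)
  ix : ∀ σ ∈ J.𝒦, ∀ (z : J.Obc c) π, z.s ∈ Job.cl σ → Sys.inf (J.Θ z.s).2 = c.1 → π ∈ Pc c →
    π a = some false → Go δ z {π} → Fl z π → ia δ z π = 0 ∧ idr δ z π = 0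

end job

section scene
variable {κ lam : Type} [Fintype κ] [Fintype lam] [DecidableEq lam] {Lm : LM κ lam}
  {S : Scene Lm} {D : S.Dat} {i : S.L} {Wi : Type} {r n : ℕ}

/-! ### the numerical core -/

/-- outside the wall `R` -/
def Ou (R : Option S.A) (U : Set S.X.M) : Prop := ∀ a ∈ R, U ⊆ (S.M.sys.w a).sd true

/-- the real pieces: outside `R` and not inside a broken cylindrical wall -/
def Rl (R : Option S.A) (c : S.M.Cl) : Set (Reg S.A) :=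
  {ρ ∈ Pc c | Ou R (S.M.sys.U ρ) ∧ ∀ a ∈ cylW c, ρ a ≠ some false}

variable {J : Job Wi (D.Λ i) (S.A ⊕ Unit) S.ls r n} {c : S.M.Cl}

open Classical in
/-- the cut inside the wall `a` is dropped -/
def drp (y : J.Obc c) (a : S.A) : ℕ := if ∃ k : a ∈ S.ls, ⟨a, k⟩ ∉ y.H then 1 else 0

/-- the fillers -/
structure Fls (J : Job Wi (D.Λ i) (S.A ⊕ Unit) S.ls r n) (c : S.M.Cl) where
  ι : S.A → Reg S.A
  z : S.A → J.Obc c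
  e : S.A → ℕ

open Classical in
/-- the cost of a broken cylindrical wall -/
def cost (δ : ℝ) (R : Option S.A) (y : J.Obc c) (f : Fls J c) (a : S.A) : ℤ :=
  (if a ∈ R then 0 else ia δ (f.z a) (f.ι a) + idr δ (f.z a) (f.ι a) + 6 * (f.e a + drp y a) -
    if a ∈ S.ls then 2 else 0) + du y a + 1

open Classical in
/-- pre-objects outside `R`: `F` = the pieces with spinor, `lo` bubbles, the level `g` is left -/
structure Pre (δ ε K₀ : ℝ) (sh : Set (S.A ⊕ Unit)) (σ : Cel (S.A ⊕ Unit)) (R : Option S.A) (k₁ : ℝ)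
    (y : J.Obc c) (F : Set (Reg S.A)) (f : Fls J c) (lo : ℕ) (g : ℝ) : Prop where
  cell : y.s ∈ Job.cl σ
  inf : Sys.inf (J.Θ y.s).2 = c.1
  hR : ∀ a ∈ R, a ∈ cylW c
  nn : ∀ a ∈ cylW c, ∀ a' ∈ cylW c, a ≠ a' → (S.M.sys.w a').band ⊆ (S.M.sys.w a).sd true
  sub : F ⊆ Rl R c
  go : ∀ ρ ∈ Rl R c, Go δ y {ρ}
  tri : ∀ ρ ∈ Rl R c, ρ ∉ F → y.TA ρ ∧ EA ε y ρ ∧ 0 ≤ y.kap (D.W.pc c ρ) ∨
    K₀ ≤ y.kap (D.W.pc c ρ) ∨
    -1 / 16 ≤ y.kap (D.W.pc c ρ) ∧ 0 ≤ xs δ y (J.prt sh σ c {ρ} ∅ y.H)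
  fil : ∀ a ∈ cylW c, a ∉ R → f.ι a ∈ Pc c ∧ f.ι a a = some false ∧
    (∀ l ∈ S.ls, l ∉ S.M.sys.inn (f.ι a)) ∧ Fil δ ε y (f.z a) a (f.ι a) ∧
    (if a ∈ S.ls then 1 else -1) ≤ ia δ (f.z a) (f.ι a) + du y a + 8 * (f.e a + drp y a)
  lev : ∑ᶠ ρ ∈ Rl R c, y.kap (D.W.pc c ρ) +
    ∑ᶠ a ∈ {a ∈ cylW c | a ∉ R}, ((f.z a).kap (D.W.pc c (f.ι a)) + f.e a) + lo + g = k₁
  drop : {l ∈ J.unc c | l ∉ y.H ∧ Ou R (S.nb l)}.ncard ≤ lo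

variable (J c) (δ ε K₀ : ℝ) (sh : Set (S.A ⊕ Unit)) (σ : Cel (S.A ⊕ Unit))
  (Adm : (Wi →₀ ℝ) → Prop)

/-- **the core** -/
def KcAt (R : Option S.A) (j : ℕ) (k₁ : ℝ) : Prop := ∀ (y : J.Obc c) F f lo g,
  Pre δ ε K₀ sh σ R k₁ y F f lo g →
  let B : ℝ := (2 * j + xs δ y (J.prt sh σ c F F y.H) +
    ∑ᶠ a ∈ {a ∈ cylW c | ∃ ρ ∈ F, ρ a = some true}, cost δ R y f a : ℤ) + 6 * g
  B < 0 ∨ (∀ a ∈ c.1, S.M.pin a → ¬Ou R (S.M.sys.w a).band) ∧ Rl R c ⊆ F ∧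
    B + 4 * lo ≤ 1 + 4 * ∑ᶠ a ∈ cylW c, (drp y a : ℝ)

/-- the number of the whole face -/
def FnW (n₀ : ℤ) : Prop := ∀ q (y : J.Obc c) x, Sol σ q y → Fc J c σ n₀ y x → J.unc c = univ →
  dmy δ y (pW J c sh σ x) = n₀ + Job.dim σ + dz (J.xs x).D (y.β x true) - du y x

variable (Lm) in
/-- **LEAF KC** (from SUM, ABW) -/
def KcStmt : Prop := ∀ S : Scene Lm, ∃ K₀ : ℝ, ∃ ε > 0, ∀ᶠ T in 𝓝[<] (1 : ℝ),
  ∀ j (n₀ : ℤ) (D : S.Dat) i Wi r n (J : Job Wi (D.Λ i) (S.A ⊕ Unit) S.ls r n) X a₀ (c : S.M.Cl) δ σ,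
    GX J X a₀ j n₀ T → (∀ a ∈ a₀, a ∉ c.1) → (∀ a ∈ X, ∀ l ∈ S.ls, S.M.sys.Cmp a l) →
    σ ∈ J.𝒦 → 0 < δ → AddAt J c δ →
    KcAt J c δ ε K₀ (shX S X) σ none j J.k ∧
      (AnH J c δ (shX S X) σ → FnW J c δ (shX S X) σ n₀)

/-! ### the wall `R` -/

variable (S i) in
/-- the wall `S¹ × S²`: `b = 1`, `E` = the two pinch walls, `z = |Z|`; or `b = z = 0`, `E = ∅` -/
structure RWI (R : S.A) (E : Finset S.A) (b z : ℕ) : Prop where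
  rw : ∃ θ ϖ, RW S i R θ ϖ
  bz : b = 0 ∧ z = 0 ∧ E = ∅ ∨ b = 1 ∧ (z = 1 ∨ z = 2)
  pin : ∀ e ∈ E, S.M.pin e ∧ S.M.sys.Cmp R e ∧ hf S.M e false ⊆ (S.M.sys.w R).sd false
  out : ∀ σ ∈ S.K i, R ∈ σ → ∀ a ∈ σ, a = R ∨ a ∈ E ∨ (S.M.sys.w a).band ⊆ (S.M.sys.w R).sd true
  card : (lsI S R).card + b = z
  crs : ∀ l ∈ lsI S R, ∀ e ∈ E, ¬hf S.M l false ⊆ (S.M.sys.w e).sd true
  cap : ∀ e ∈ E, ∃ sg l2, S.Nb i ((S.M.sys.w e).sd false) 1 sg l2 ∧ l2 - sg = z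
  sc : ∀ e ∈ E, SC ((S.M.sys.w R).sd false ∩ (S.M.sys.w e).sd true)

variable (R : S.A) (E : Finset S.A) (b z : ℕ)

/-- at most one of the pinch walls moves -/
def One1 : Prop := ∀ τ o, cel τ o ∈ J.𝒦 → R ∈ τ → (τ ∩ E).card ≤ 1

open Classical in
/-- the square of the line between `R` and the broken pinch walls -/
def zc : ℝ := if ∃ e ∈ E, e ∈ c.1 then 0 else z

/-- **additivity outside `R`** -/
def AdO : Prop := ∀ σ ∈ J.𝒦, ∀ s ∈ Job.cl σ, Sys.inf (J.Θ s).2 = c.1 → ∀ (c₀ : S.M.Cl) π₀,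
  c₀.1 = {a ∈ c.1 | S.M.pin a} → S.M.sys.Piece c₀.1 π₀ → R ∈ S.M.sys.inn π₀ →
  ∀ β sg l2, S.Nb i (S.M.sys.U π₀) β sg l2 →
  ∀ (y : Reg S.A → J.Obc c) (γ : ∀ a, YC (J.xs a).Y.M κ (lam ⊕ lam)),
    let P := {ρ | S.In c π₀ ρ ∧ Ou (some R) (S.M.sys.U ρ)}
    (∀ ρ ∈ P, (y ρ).s = s ∧ Go δ (y ρ) {ρ} ∧ ∀ a ∈ cylW c, ∀ b, ρ a = some b →
      Bs (J.xs a).D (γ a) ∧ (J.xs a).D.Eqv (γ a) ((y ρ).β a b)) →
    let k := ∑ᶠ ρ ∈ P, (y ρ).kap (D.W.pc c ρ)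
    (∑ᶠ ρ ∈ P, (ia δ (y ρ) ρ : ℝ)) = 8 * k - 3 * (β - b) +
      ∑ᶠ a ∈ cylW c ∩ S.M.sys.inn π₀, ((dz (J.xs a).D (γ a) : ℝ) - dh (J.xs a).D (γ a)) ∧
    (∑ᶠ ρ ∈ P, (idr δ (y ρ) ρ : ℝ)) = -2 * k + (l2 - sg - zc c E z) / 2 ∧
    ∃ m : ℤ, k = (l2 - sg - zc c E z) / 4 + m

open Classical in
/-- **the numbers inside `R`** -/
def InnAt : Prop := ∀ q (y : J.Obc c), Adm q → Sol σ q y → ∀ π ∈ Pc c,
  S.M.sys.U π ⊆ (S.M.sys.w R).sd false →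
  let k := y.kap (D.W.pc c π)
  let z' : ℝ := if π R = some false then zc c E z else z
  (ia δ y π : ℝ) = 8 * k - 3 * b ∧ (idr δ y π : ℝ) = -2 * k + z' / 2 ∧ ∃ m : ℤ, k = z' / 4 + m

/-- the type of the face objects -/
def QR (n₀ : ℤ) : Prop := ∀ q y x, Adm q → Sol σ q y → Fc J c σ n₀ y x → ¬y.TF (hp x false) →
  Ok δ y (pO J c sh σ x) → x = R ∧ y.kap (D.W.pc c (hp x false)) = z / 4 ∧
    n₀ + Job.dim σ + b = 1 + {e ∈ E | σ (.inl e) = none}.card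

/-- the standing hypotheses at a face with the broken wall `R` -/
structure HR (j : ℕ) (n₀ : ℤ) (T : ℝ) : Prop where
  gx : GX J {R} none j n₀ T
  ri : RWI S i R E b z
  one : One1 J R E
  mem : R ∈ c.1
  an : AnH J c δ (shX S {R}) σ
  add : AddAt J c δ
  lix : LixAt J c δ Adm

variable (Lm)

/-- **LEAF RY**: the cross-section `S¹ × S²` (PY, stabilisers, MOV, RCH) -/
def RyStmt : Prop := ∀ (S : Scene Lm) (D : S.Dat) i Wi r n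
  (J : Job Wi (D.Λ i) (S.A ⊕ Unit) S.ls r n) R θ ϖ, S.OK → J.OK → RW S i R θ ϖ → Nl J R →
  (PY (J.xs R).D 1 ∧ ∀ β, Bs (J.xs R).D β → dz (J.xs R).D β ≠ 0) ∧ (∀ c, Mov J c R) ∧ Gap J R

/-- a property of all faces with a broken wall `R` -/
def AllR (P : ∀ {S : Scene Lm} {D : S.Dat} {i Wi r n} (J : Job Wi (D.Λ i) (S.A ⊕ Unit) S.ls r n)
    (_ : S.M.Cl) (_ : ℝ) (_ : Cel (S.A ⊕ Unit)) (_ : (Wi →₀ ℝ) → Prop) (_ : S.A) (_ : Finset S.A)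
    (_ _ _ : ℕ) (_ : ℤ), Prop) : Prop :=
  ∀ (S : Scene Lm) (D : S.Dat) i Wi r n (J : Job Wi (D.Λ i) (S.A ⊕ Unit) S.ls r n) c δ σ Adm R E b z
    j n₀ T, HR J c δ σ Adm R E b z j n₀ T → P J c δ σ Adm R E b z j n₀

/-- **LEAF INN** -/
def InnStmt : Prop := AllR Lm fun J c δ σ Adm R E b z _ _ =>
  Mov J c R → AdO J c δ R E b z → InnAt J c δ σ Adm R E b z

/-- **LEAF KILL-R** -/
def KrStmt : Prop := AllR Lm fun {S} _ _ _ _ _ J c δ σ Adm R E b z j n₀ => ∀ ε K₀, EpsAt J ε Adm →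
  PY (J.xs R).D 1 → Gap J R → Flc J c → InnAt J c δ σ Adm R E b z →
  FnW J c δ (shX S {R}) σ n₀ → KcAt J c δ ε K₀ (shX S {R}) σ none j J.k →
  KcAt J c δ ε K₀ (shX S {R}) σ (some R) j (J.k - z / 4) →
  Rch J c σ Adm ∧ Kill J c δ (shX S {R}) σ Adm n₀ ∧ FNum J c δ (shX S {R}) σ Adm n₀ ∧
    QR J c δ (shX S {R}) σ Adm R E b z n₀

/-- **LEAF KD**: the core and additivity outside a wall with flat fillers -/
def KdStmt : Prop := ∀ (S : Scene Lm) (D : S.Dat) i Wi r n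
  (J : Job Wi (D.Λ i) (S.A ⊕ Unit) S.ls r n) (c : S.M.Cl) δ R j n₀ T, GX J {R} none j n₀ T →
  RWI S i R ∅ 0 0 → R ∈ c.1 → DfAt J c δ R →
  (AddAt J c δ → AdO J c δ R ∅ 0 0) ∧ ∀ ε K₀ σ, σ ∈ J.𝒦 → KcAt J c δ ε K₀ (shX S {R}) σ none j J.k →
    KcAt J c δ ε K₀ (shX S {R}) σ (some R) j J.k

end scene
end Crest.Agent.X212.Rf65
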