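import Crest.Agent.X212.Inn6.Main
import Crest.Agent.X212.Num57.Nb

/-!
# Row 212, RFACE: the wall data from the inside data
-/

set_option autoImplicit false
set_option linter.unusedSectionVars false
noncomputable section
open Set

namespace Crest.Agent.X212.Rf65
open An M G75 Dr59 Hol14

variable {κ lam : Type} [Fintype κ] [Fintype lam] [DecidableEq lam] {Lm : LM κ lam}
  {S : Scene Lm} {i : S.L} {R : S.A} {e : Bool → S.A} {Q : QD S R e}

/-- a lens wall inside `R` is not outside the pinch walls -/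
theorem QD.OK.crs (h : Q.OK i) (hc : CutOK Lm) (hS : S.OK) {l : S.A} (hl : l ∈ lsI S R) (b : Bool) :
    ¬hf S.M l false ⊆ (S.M.sys.w (e b)).sd true := fun H => by
  classical
  have := S.M.cpt
  obtain ⟨l1, l2⟩ := Finset.mem_filter.1 hl
  obtain ⟨K, k1, k2⟩ := hS.ct_mok ⟨l, l1⟩ hc i
  obtain ⟨_, F, -⟩ := Met55.exists_fr (I := S.X.I) (M := S.X.M)
  set k : An.Cut S.X.M Unit := ⟨(S.ct i ⟨l, l1⟩).γ, [], []⟩
  have d : Csm97.Dat S.X.I k := ⟨k2.sm, k2.h0, k2.h1, by simp [k], by simp [k]⟩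
  have s : k.supp ⊆ hf S.M l false := fun _ ⟨y, a⟩ => .inl (a ▸ k1 (k2.sub _ _))
  have o := (S.M.sys.w R).op_sd false
  have ce : ∀ j, Cl S.X.I 2 ((S.M.sys.w R).sd false) (Q.ε j) := fun j =>
    (((h.le j).ok.cl_F isOpen_univ).mono (subset_univ _)).smul _
  have cs : ∀ Z : Finset Q.ι, Cl S.X.I 2 ((S.M.sys.w R).sd false) (∑ j ∈ Z, (Q.a j : ℝ) • Q.ε j) :=
    fun Z => cl_sum fun j _ => (ce j).smul _
  have z : flux S.X.I k 0 = 0 := by simpa using flux_smul (I := S.X.I) (k := k) (w := 0) 0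
  have f : ∀ Z ⊆ Q.Z, flux S.X.I k (∑ j ∈ Z, (Q.a j : ℝ) • Q.ε j) = Z.card := fun Z => by
    refine Z.induction_on (fun _ => by simpa using z) fun j Z n ih u => ?_
    have a : flux S.X.I k (Q.ε j) = Q.a j := by
      rw [← h.cut l hl j (u (by simp))]
      simp only [flux, k, hS.ct_γ]
    have a' : (Q.a j : ℝ) * Q.a j = 1 := by
      rw [← abs_mul_abs_self, ← Int.cast_abs, h.a1 j (u (by simp))]; simp
    rw [Finset.sum_insert n, flux_add F d (((ce j).smul _).sm.mono (s.trans l2))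
      ((cs Z).sm.mono (s.trans l2)), flux_smul, a, a', ih fun _ v => u (by simp [v]),
      Finset.card_insert_of_notMem n]
    push_cast; ring
  have x : Ex S.X.I ((S.M.sys.w R).sd false) (Q.γ b - ∑ j ∈ Q.Z, (Q.a j : ℝ) • Q.ε j) := by
    cases b
    exacts [h.exγ, (Ex.symm ⟨Q.α, h.smα.1, h.dα⟩).trans h.exγ]
  have := flux_eq F d o (s.trans l2) ((h.csγ b).on _) (cs _) x
  rw [f _ subset_rfl, flux_congr (w' := 0) fun p hp =>
    (h.csγ b).eq_zero fun t => (S.M.sys.w (e b)).not_mem_sd t (H (s hp)), z, h.card.1] at this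
  exact absurd this (by positivity : (0 : ℝ) < _).ne

theorem qi (hc : CutOK Lm) (hS : S.OK) (h : Q.OK i) : RWI S i R {e false, e true} 1 Q.Z.card := by
  have := S.M.con
  have m : ∀ {a}, a ∈ ({e false, e true} : Finset S.A) ↔ ∃ b, a = e b := by simp
  refine ⟨⟨_, _, h.toRW⟩, .inr ⟨rfl, by have := h.card; omega⟩, fun a k => ?_,
    fun σ u v a k => (h.out σ u v a k).imp_right (Or.imp_left m.2), by rw [h.card.1, add_comm],
    fun l u a k => ?_, fun a k => ?_, fun a k => ?_⟩ <;> obtain ⟨b, rfl⟩ := m.1 k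
  · exact h.pin b
  · exact h.crs hc hS u b
  · obtain ⟨β, sg, l2, t⟩ := Num57.exists_nb (c := ⟨{e b}, pairwise_singleton _ _⟩)
      (Inn6.piece_hp (l := e b) rfl fun _ u v => (v u).elim) (fun a u => by
        obtain rfl : a = e b := by_contra fun v => u (Kl48.hp_none.2 v)
        exact (h.pin b).1) i
    rw [Kl48.U_hp] at t
    obtain ⟨rfl, t'⟩ := h.num b _ _ _ t
    exact ⟨sg, l2, t, t'⟩
  · exact h.sc' b

end Crest.Agent.X212.Rf65
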