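import Crest.Agent.X212.Rf65.Rf
import Crest.Agent.X212.Rf65.Qi
import Crest.Agent.X212.Kof81.Gx
import Crest.Agent.X212.Lns95.Fin
import Crest.Agent.X212.Rr71.Main
import Crest.Agent.X212.Dw82.Flc
import Crest.Agent.X212.Sw21.Kr
import Crest.Agent.X212.Kl48.Kc
import Crest.Agent.X212.Tm38.Abw
import Crest.Agent.X212.Dfl49.Df
import Crest.Agent.X212.Wl34.Wl
import Crest.Agent.X212.Tw55.Fin
import Crest.Agent.X212.Kd42.Main

/-!
# Row 212, RFACE: the landed leaves plugged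
-/

set_option autoImplicit false
noncomputable section

namespace Crest.Agent.X212.Rf65
open An An.Job M G75 Ins26 Kof81

variable {κ lam : Type} [Fintype κ] [Fintype lam] [DecidableEq lam] (Lm : LM κ lam)

/-- the open leaves -/
structure RO (TA : TP Lm) : Prop where
  ntr : NtrStmt Lm TA
  dta : Dfl49.DtaStmt Lm TA
  q : QStmt Lm TA

variable {Lm} {TA : TP Lm}

theorem jfx (L : KLx Lm) : AllX Lm fun J n₀ => JF J n₀ := fun S D i Wi r n J _ _ _ _ _ _ _ G hn =>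
  L.jf G.gx hn (fun a ha _ => let ⟨θ, ϖ, w⟩ := G.ri.rw
    ⟨1, Finset.mem_singleton.1 ha ▸ (Rr71.ry Lm S D i Wi r n J _ θ ϖ G.gx.sc G.gx.ok w
      (G.gx.nil _ nofun)).1.1⟩) nofun

theorem RO.rl (O : RO Lm TA) (h : Lns95.LH Lm) (L : KLx Lm) (H : Core Lm) : RL Lm TA where
  toFL := L.toFL
  fin S D i Wi r n J R E b z j n₀ T G hn := (jfx L S D i Wi r n J R E b z j n₀ T G hn).fin
  jl S D i Wi r n J R E b z j n₀ T G hn := (jfx L S D i Wi r n J R E b z j n₀ T G hn).toJL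
  ry := Rr71.ry Lm
  flc _ _ _ _ _ _ J _ _ c := Dw82.flc J c
  inn := Inn6.inn
  kr := Sw21.kr
  ntr := O.ntr
  kc := Kl48.kc Tm38.sum Tm38.abw
  kd := Kd42.kd Lm
  df := Dfl49.df (Rr71.ry Lm) (fun D => Wl34.wl D) O.dta
  q := O.q
  tw := Tw55.twStmt h.cut H.dat
  lx _ _ _ _ _ hS hF ht := Lns95.lensAt (Lns95.lv0 h) Ins26.On.onat hS hF ht
  qi _ _ _ _ _ hS k := qi h.cut hS k

/-- **RF** from the open leaves -/
theorem RO.rf (O : RO Lm TA) (h : Lns95.LH Lm) (L : KLx Lm) (H : Core Lm) (T₀ : Th Lm)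
    (hRS : ∀ S i R e e', T₀.RS S i R e e' → RS S i R e e') (hDS : ∀ S i R, T₀.DS S i R → DS S i R) :
    RfStmt T₀ := (O.rl h L H).rf H T₀ hRS hDS

end Crest.Agent.X212.Rf65
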