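import Crest.Agent.X212.Ins26.Main

/-!
# Row 212, RFACE: cones of chains and Stokes at a further hard wall
-/

set_option autoImplicit false
set_option linter.unusedSectionVars false
noncomputable section
open Set Function Filter

namespace Crest.Agent.X212.Rf65
open An M G75 Ins26

section ch
variable {L A L' A' : Type} [Fintype L] [DecidableEq L] [Fintype A] [DecidableEq A]
  [Fintype L'] [DecidableEq L'] [Fintype A'] [DecidableEq A'] {R : A} {c : Cn L A}

/-- the cone over a chain -/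
def jn (R : A) (c : Cn L A) : Cn L A := fun i σ => if R ∈ σ then c i (σ.erase R) else 0

/-- the pairing -/
def prg (Z : L → Finset A → ZMod 2) (c : Cn L A) : ZMod 2 := ∑ i, ∑ σ, c i σ * Z i σ

theorem bd_jn (h : c.bd = 0) : (jn R c).bd = c := by
  funext i τ
  simp only [Cn.bd, Ch.bdry, jn]
  by_cases k : R ∈ τ
  · have := congrFun (congrFun h i) (τ.erase R)
    simp only [Cn.bd, Ch.bdry, Pi.zero_apply, Finset.compl_erase] at this
    rw [Finset.sum_insert (by simpa using k), Finset.insert_erase k, CharTwo.add_eq_zero] at this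
    rw [this]
    refine Finset.sum_congr rfl fun a ha => ?_
    rw [if_pos (Finset.mem_insert_of_mem k), Finset.erase_insert_of_ne]
    exact fun e => Finset.mem_compl.1 ha (e ▸ k)
  · rw [Finset.sum_eq_single R (fun a _ e => if_neg (by simp [k, e.symm])) (by simp [k])]
    simp [k]

theorem prg_jn (h : ∀ i τ, c i τ ≠ 0 → R ∉ τ) (Z : L → Finset A → ZMod 2) :
    prg Z (jn R c) = prg (fun i τ => Z i (insert R τ)) c := by
  refine Finset.sum_congr rfl fun i _ => ?_
  refine Finset.sum_bij_ne_zero (fun σ _ _ => σ.erase R) (by simp) (fun σ _ k σ' _ k' e => ?_)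
    (fun τ _ k => ?_) fun σ _ k => ?_
  · have a : ∀ σ, jn R c i σ * Z i σ ≠ 0 → R ∈ σ := fun σ k => by_contra fun t => k (by simp [jn, t])
    rw [← Finset.insert_erase (a σ k), e, Finset.insert_erase (a σ' k')]
  · have t := h i τ (left_ne_zero_of_mul k)
    exact ⟨insert R τ, Finset.mem_univ _, by simpa [jn, t] using k, Finset.erase_insert t⟩
  · have a : R ∈ σ := by_contra fun t => k (by simp [jn, t])
    simp [jn, a]

theorem prg_add (Z : L → Finset A → ZMod 2) (c c' : Cn L A) : prg Z (c + c') = prg Z c + prg Z c' := by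
  simp [prg, add_mul, Finset.sum_add_distrib]

theorem prg_pj (Z : L' → Finset A' → ZMod 2) (ι : L → L') (f : A ↪ A') (τ : Finset A') (c : Cn L A) :
    prg Z (Cn.pj ι f τ c) = ∑ i, ∑ σ, c i σ * Z (ι i) (σ.map f ∪ τ) := by
  have g : ∀ i σ, prg Z (Cn.gen i σ) = Z i σ := fun i σ => by
    rw [prg, Finset.sum_eq_single i (fun i' _ k => by simp [Cn.gen, k]) (by simp),
      Finset.sum_eq_single σ (fun σ' _ k => by simp [Cn.gen, k]) (by simp)]
    simp [Cn.gen]
  simp only [← g]
  simp only [prg, Cn.pj, Cn.lx, Finset.sum_apply, Pi.smul_apply, smul_eq_mul, Finset.sum_mul,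
    Finset.mul_sum, mul_assoc]
  rw [Finset.sum_congr rfl fun _ _ => Finset.sum_comm, Finset.sum_comm]
  refine Finset.sum_congr rfl fun i _ => ?_
  rw [Finset.sum_congr rfl fun _ _ => Finset.sum_comm, Finset.sum_comm]

theorem pj_ne {ι : L → L'} {f : A ↪ A'} {τ : Finset A'} {i' : L'} {σ' : Finset A'}
    (h : Cn.pj ι f τ c i' σ' ≠ 0) : ∃ i σ, c i σ ≠ 0 ∧ ι i = i' ∧ σ.map f ∪ τ = σ' := by
  simp only [Cn.pj, Cn.lx, Finset.sum_apply, Pi.smul_apply, smul_eq_mul] at h
  obtain ⟨i, -, h⟩ := Finset.exists_ne_zero_of_sum_ne_zero h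
  obtain ⟨σ, -, h⟩ := Finset.exists_ne_zero_of_sum_ne_zero h
  have k := right_ne_zero_of_mul h
  have e : ι i = i' := by_contra fun e => k (by simp [Cn.gen, Ne.symm e])
  subst e
  exact ⟨i, σ, left_ne_zero_of_mul h, rfl, by_contra fun e => k (by simp [Cn.gen, Ne.symm e])⟩

end ch

variable {κ lam : Type} [Fintype κ] [Fintype lam] [DecidableEq lam] {Lm : LM κ lam} {S : Scene Lm}
  {j N d : ℕ} {c : Cn S.L S.A} {T : ℝ} {F : Fam S j N} {R : S.A}

/-- **Stokes on the cone** -/
theorem cone (hS : S.OK) (h : F.OK T) (hK : F.KitAt) (hL : F.LensAt) (hX : F.X = {R}) (hR : R ∉ S.ls)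
    (cl : S.Cl d c) (hn : F.n₀ = -d)
    (k : ∀ i τ, c i τ ≠ 0 → R ∉ τ ∧ cel (insert R τ) (some false) ∈ F.𝒦 i) :
    GV fun q => F.val q c (some false) = prg (fun i τ =>
      ((F.job i).zf q (cel (insert R τ) (some false)) (.inl R) : ZMod 2)) c := by
  have a : ∀ i σ, jn R c i σ ≠ 0 → R ∈ σ ∧ c i (σ.erase R) ≠ 0 := fun i σ t => by
    by_cases e : R ∈ σ
    · exact ⟨e, by simpa [jn, e] using t⟩
    · simp [jn, e] at t
  refine (Fam.stokes (e := jn R c) (o := some false) hS h hK hL (fun i σ t => ?_) (fun i σ t => ?_)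
    fun l hl i σ t => ?_).mono fun q hq => ?_
  · simpa only [Finset.insert_erase (a i σ t).1] using (k i _ (a i σ t).2).2
  · have := (cl.mem i _ (a i σ t).2).2.1
    rw [hn, ← Finset.card_erase_add_one (a i σ t).1, this]
    simp [sf]
  · by_cases e : R ∈ σ
    · simp only [jn, if_pos e]
      exact cl.sym l hl i _ (Finset.mem_erase.2 ⟨fun u => hR (u ▸ hl), t⟩)
    · simp only [jn, if_neg e]
  rw [bd_jn cl.bd, if_neg nofun, add_zero, CharTwo.add_eq_zero] at hq
  rw [hq, ← prg_jn (fun i τ t => (k i τ t).1) fun i σ =>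
    ((F.job i).zf q (cel σ (some false)) (.inl R) : ZMod 2)]
  refine sum_congr_ne _ fun i σ t => ?_
  rw [hX, show σ ∩ ({R} \ S.ls) = {R} by ext x; by_cases e : x = R <;> simp [e, hR, (a i σ t).1],
    Finset.sum_singleton]

end Crest.Agent.X212.Rf65
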