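import Crest.Agent.X212.Rf65.Rk
import Crest.Agent.X212.Rf65.Rc

/-!
# Row 212, RFACE: `Ins26.RfStmt` from the leaves
-/

set_option autoImplicit false
set_option linter.unusedSectionVars false
noncomputable section
open scoped Manifold ContDiff Topology
open Set Function Filter

namespace Crest.Agent.X212.Rf65
open An An.Job M G75 Ins26 Jb7 Nd18
open Kof81 (TyAt ev_of gx)
open Br55 (NC CN)

variable {κ lam : Type} [Fintype κ] [Fintype lam] [DecidableEq lam] {Lm : LM κ lam}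

/-- the types at the lens faces of a family (body of `Lns95.TypeStmt`) -/
def TyL {S : Scene Lm} {j N : ℕ} (F : Fam S j N) : Prop :=
  ∀ i (l : S.ls) τ o, cel τ o ∈ F.𝒦 i → l.1 ∈ τ → F.n₀ + τ.card + sf o = 1 →
  GV fun q => ∀ y : (F.job i).Obc ((F.job i).cf (.inl l)), Job.Sol (cel τ o) q y → y.Tight →
    ∀ ρ, S.M.sys.Piece ((F.job i).cf (.inl l)).1 ρ → ρ l = some false →
      y.TA ρ ∧ y.kap (F.D.W.pc _ ρ) = 1 / 4

variable (Lm) in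
/-- **LEAF LENS** for families with further hard walls -/
def LxStmt : Prop := ∀ (S : Scene Lm) j N T (F : Fam S j N), S.OK → F.OK T → TyL F → F.LensAt

variable (Lm) in
/-- **all leaves** -/
structure RL (TA : TP Lm) : Prop extends RK Lm TA where
  kc : KcStmt Lm
  kd : KdStmt Lm
  df : DfStmt Lm TA
  q : QStmt Lm TA
  tw : TwStmt Lm
  lx : LxStmt Lm
  qi : ∀ (S : Scene Lm) i R e (Q : QD S R e), S.OK → Q.OK i →
    RWI S i R {e false, e true} 1 Q.Z.card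

section job
variable {TA : TP Lm} {S : Scene Lm} {D : S.Dat} {i : S.L} {Wi : Type} {r n : ℕ}
  {J : Job Wi (D.Λ i) (S.A ⊕ Unit) S.ls r n} {R : S.A} {E : Finset S.A} {b z j : ℕ} {n₀ : ℤ}
  {T δ ε ε' K₀ K₀' : ℝ} {σ : Cel (S.A ⊕ Unit)} {q : Wi →₀ ℝ}
  {Tr : ∀ c, Cel (S.A ⊕ Unit) → (Wi →₀ ℝ) → J.Obc c → Prop}

theorem DS.rwi (hS : S.OK) (h : DS S i R) : RWI S i R ∅ 0 0 := by
  obtain ⟨θ, ϖ, _, _, _, d⟩ := h
  have e : lsI S R = ∅ := Finset.eq_empty_of_forall_notMem fun l hl => by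
    classical
    obtain ⟨h1, h2⟩ := Finset.mem_filter.1 hl
    obtain ⟨x, hx, -⟩ := (S.M.sys.w l).ne true
    exact (S.M.sys.w R).not_mem_sd (d.ls l h1 (.inr hx)) (h2 (.inr hx))
  exact ⟨⟨θ, ϖ, d.toRW⟩, .inl ⟨rfl, rfl, rfl⟩, by simp, fun σ a b x hx => (d.out σ a b x hx).imp_right .inr,
    by simp [e], by simp, by simp, by simp⟩

theorem RWI.cm (h : RWI S i R E b z) : ∀ a ∈ ({R} : Finset S.A), ∀ l ∈ S.ls, S.M.sys.Cmp a l :=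
  fun _ ha => let ⟨_, _, w⟩ := h.rw; Finset.mem_singleton.1 ha ▸ w.cmp

theorem KcJ.mono {X : Finset S.A} (h : KcJ J X j n₀ ε' K₀) (h0 : 0 ≤ ε) (k : ε ≤ ε') (k' : K₀ ≤ K₀') :
    KcJ J X j n₀ ε K₀' := fun c δ σ a b e => (h c δ σ a b e).imp_left fun t => t.mono h0 k k'

theorem JR.hd (G : JR J R E b z j n₀ T) : J.hd (.inl R) = some R := by
  rw [G.gx.hd]
  exact if_pos (.inr (.inr (Finset.mem_singleton_self R)))

theorem JR.cf (G : JR J R E b z j n₀ T) : (J.cf (.inl R)).1 = {R} :=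
  Set.ext fun _ => ⟨fun e => Option.some.inj (Eq.trans (Eq.symm e) G.hd), fun e => e ▸ G.hd⟩

variable (J R z n₀ δ Tr q) in
/-- good perturbations -/
def Gq : Prop := ∃ K : J.Kit, K.Ax ∧ K.GG q ∧ K.n₀ = n₀ ∧ TyAt J n₀ (TR J R z n₀ δ Tr) q

theorem Gq.ta (h : Gq J R z n₀ δ q Tr) (G : JR J R E b z j n₀ T) (hσ : σ ∈ J.𝒦) {y : J.Obc (J.cf (.inl R))}
    (hy : Sol σ q y) : n₀ + dim σ = 1 ∧ FA J _ σ n₀ y R ∧ dz (J.xs R).D (y.β R true) = 1 ∧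
      y.kap (D.W.pc _ (hp R false)) = z / 4 ∧ Tr _ σ q y := by
  obtain ⟨_, _, _, _, t⟩ := h
  have m : R ∈ (J.cf (.inl R)).1 := G.cf.ge rfl
  have k := (if_pos m).mp (t σ hσ _ y hy fun e => (congrArg Subtype.val e.1).le m).2.2.2.2
  exact ⟨k.1.n, k.1.fa, k.1.dz, k.2⟩

theorem Gq.fin (h : Gq J R z n₀ δ q Tr) (G : JR J R E b z j n₀ T) (hσ : σ ∈ J.𝒦)
    (e : σ (.inl R) = none) :
    Finite (Quot fun y y' : J.TS σ q (J.cf (.inl R)) => Job.Iso y.1 y'.1) := by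
  obtain ⟨K, H, g, -⟩ := h
  have := H.ffin g.1 hσ (mem_wa.2 ⟨e, by simp [G.hd]⟩)
  obtain ⟨e⟩ := card_quot ((K.gsm.feq σ (.inl R)).comap Subtype.val) (equiv_TS H.ok hσ)
    (fun y : J.TS σ q (J.cf (.inl R)) => y)
    (fun y y' => feq_iff (y.2.1.ok H.ok hσ) (y'.2.1.ok H.ok hσ)) fun y => ⟨y, (y.2.1.ok H.ok hσ).refl⟩
  exact .of_equiv _ e

theorem gv_sml {P : ((Wi →₀ ℝ) → Prop) → Prop} (h : Sml P) : GV fun q => ∃ A, A q ∧ P A :=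
  h.mono fun A k ho => (Gen.adm ho).mono fun _ a _ => ⟨A, a, k⟩

theorem gv_dep {ι : Type} [Finite ι] {p : ι → Prop} {P : ∀ w, p w → (Wi →₀ ℝ) → Prop}
    (h : ∀ w k, GV (P w k)) : GV fun q => ∀ w k, P w k q :=
  GV.all fun w => (em (p w)).elim (fun k => (h w k).mono fun _ t _ => t)
    fun k => Ins26.gv_of fun _ t => (k t).elim

end job

section fam
variable {S : Scene Lm} {j N : ℕ} {F : Fam S j N} {R : S.A}

/-- kits and types of a family -/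
theorem kit_of (hR : R ∉ S.ls) (h : ∀ i, (F.𝒦 i).Nonempty → ∃ z δ Tr,
    GV fun q => Gq (F.job i) R z F.n₀ δ q Tr) : F.KitAt ∧ TyL F := by
  refine ⟨fun i hn => ?_, fun i l τ o hσ _ _ => ?_⟩
  · obtain ⟨_, _, _, k⟩ := h i hn
    exact k.mono fun _ ⟨K, a, b, d, _⟩ => ⟨K, a, b, d⟩
  obtain ⟨_, _, _, k⟩ := h i ⟨_, hσ⟩
  refine k.mono fun q ⟨_, _, _, _, t⟩ y hy _ ρ h1 h2 => ?_
  have hd : (F.job i).hd (.inl l) = some l.1 := Fam.hd_inl (.inr (.inl l.2))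
  have hm : l.1 ∈ ((F.job i).cf (.inl l)).1 := hd
  have hr : R ∉ ((F.job i).cf (.inl l)).1 := fun e =>
    hR (Option.some.inj (Eq.trans (Eq.symm hd) e) ▸ l.2)
  obtain ⟨x, k1, k2⟩ := (if_neg hr).mp
    (t _ hσ _ y hy fun e => (congrArg Subtype.val e.1).le hm).2.2.2.2
  have hc := k1.fa.1.2.1
  obtain rfl : l.1 = x := hc.le hm
  obtain rfl : ρ = hp l.1 false := funext fun a => by
    by_cases e : a = l
    · simp [hp, e, h2]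
    · simpa [hp, e] using by_contra fun t => e (hc.le (h1.bd_subset t))
  exact ⟨k1.fa.2.2, k2⟩

end fam

/-- the pinch walls inside are not matched -/
theorem not_mem_map {S S' : Scene Lm} {R e : S.A} (m : Mt S S' (hf S.M R true)) {R₀ : m.A₀}
    (h : m.I.f R₀ = R) {σ : Finset m.A₀} (h0 : R₀ ∉ σ) {i : S'.L}
    (h1 : σ.map m.I.f' ∪ {m.I.f' R₀} ∈ S'.K i) (h2 : DS S' i (m.I.f' R₀))
    (h3 : hf S.M e false ⊆ (S.M.sys.w R).sd false) : e ∉ σ.map m.I.f := fun k => by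
  obtain ⟨a, ha, rfl⟩ := Finset.mem_map.1 k
  obtain ⟨_, _, _, _, _, d⟩ := h2
  obtain ⟨_, ⟨p, rfl⟩, -⟩ := (S.M.sys.w (m.I.f a)).ne true
  rcases d.out _ h1 (by simp) (m.I.f' a) (by simp [ha]) with t | t
  · exact h0 (m.I.f'.injective t ▸ ha)
  have := (m.I.sd R₀ true _ (m.I.sub a ⟨p, rfl⟩)).1 (t ⟨_, (m.I.jj a p).symm⟩)
  exact (S.M.sys.w R).not_mem_sd (h ▸ this) (h3 (.inr ⟨p, rfl⟩))

/-- **RF** -/
theorem RL.rf {TA : TP Lm} (L : RL Lm TA) (H : Core Lm) (T₀ : Th Lm)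
    (hRS : ∀ S i R e e', T₀.RS S i R e e' → RS S i R e e') (hDS : ∀ S i R, T₀.DS S i R → DS S i R) :
    RfStmt T₀ := by
  intro S S' R e₀ e₁ m R₀ j N d c h1 h2 h3 h4 h5 h6
  by_cases h0 : c = 0
  · have : ∀ {S : Scene Lm} (ι : m.L₀ → S.L) (f : m.A₀ ↪ S.A) τ, Cn.pj ι f τ c = 0 := fun ι f τ => by
      simp [h0, Cn.pj, Cn.lx]
    simp [Mt.l, Mt.r, this, ZN]
  set e : Bool → S.A := fun b => cond b e₁ e₀
  set R' := m.I.f' R₀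
  set z := 1 + (lsI S R).card
  have hS := h6.ok
  have hS' := h4.ok
  have ds : ∀ i σ, c i σ ≠ 0 → DS S' (m.ι' i) R' := fun i σ k => hDS _ _ _ (h5 i σ k).2.2.2.2.2.1
  have rq : ∀ i σ, c i σ ≠ 0 → ∃ Q : QD S R e, Q.OK (m.ι i) ∧ Q.Z.card = z := fun i σ k =>
    let ⟨Q, hQ⟩ := hRS _ _ _ _ _ (h5 i σ k).2.2.2.2.1; ⟨Q, hQ, hQ.card.1⟩
  have ri : ∀ i σ, c i σ ≠ 0 → RWI S (m.ι i) R {e false, e true} 1 z := fun i σ k =>
    let ⟨Q, a, b⟩ := rq i σ k; b ▸ L.qi S _ R e Q hS a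
  have eE : ∀ b, e b ∈ ({e false, e true} : Finset S.A) := fun b => by cases b <;> simp
  have ne : ∀ i σ, c i σ ≠ 0 → R ∉ σ.map m.I.f ∧ ∀ b, e b ∉ σ.map m.I.f ∧ e b ≠ R := fun i σ k =>
    ⟨fun t => let ⟨_, ha, u⟩ := Finset.mem_map.1 t; (h5 i σ k).1 (m.I.f.injective (u.trans h1.symm) ▸ ha), fun b =>
      ⟨not_mem_map m h1 (h5 i σ k).1 (h5 i σ k).2.2.2.1.1 (ds i σ k) ((ri i σ k).pin _ (eE b)).2.2,
        fun t => let ⟨_, _, w⟩ := (ri i σ k).rw; w.np (t ▸ ((ri i σ k).pin _ (eE b)).1)⟩⟩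
  obtain ⟨i₀, σ₀, k₀⟩ : ∃ i σ, c i σ ≠ 0 := by
    simpa [funext_iff] using h0
  obtain ⟨K₁, ε₁, p₁, c₁⟩ := L.kc S
  obtain ⟨K₂, ε₂, p₂, c₂⟩ := L.kc S'
  obtain ⟨T, ⟨c₁, c₂⟩, ⟨g₁, g₂⟩, ⟨v₁, v₂⟩, hT⟩ := ((c₁.and c₂).and (((L.gv S).and (L.gv S')).and
    (((H.eval S j N _ _ h6).and (H.eval S' j N _ _ h4)).and ev_lt))).exists
  obtain ⟨F, F', u, a, a', x, x', n, n', gd, sp, sp', cl, cl', tw⟩ := L.tw S S' R e m R₀ j N d c _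
    h1 h2 h3 h4 (fun i σ k => ⟨(h5 i σ k).1, fun b => by
      cases b; exacts [(h5 i σ k).2.1, (h5 i σ k).2.2.1], (h5 i σ k).2.2.2.1, ri i σ k,
      hRS _ _ _ _ _ (h5 i σ k).2.2.2.2.1, ds i σ k, (h5 i σ k).2.2.2.2.2.2⟩) h6
    (L.df S' R' _ hS' (ds _ _ k₀)) h0 T hT
  have p : 0 < min ε₁ ε₂ := lt_min p₁ p₂
  -- the jobs
  have G : ∀ i σ, c i σ ≠ 0 → JR (F.job (m.ι i)) R {e false, e true} 1 z j F.n₀ T := fun i σ k =>
    ⟨x ▸ gx hS a ⟨_, (tw i σ k).1 false⟩, ri i σ k, fun τ o t _ => by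
      obtain ⟨i', σ', b, τ', s, k', -, t'⟩ := cl _ _ t
      obtain ⟨rfl, -⟩ := cel_inj t'
      refine Finset.card_le_one.2 fun y hy y' hy' => ?_
      have w : ∀ y ∈ τ ∩ {e false, e true}, y = e b := fun y hy => by
        obtain ⟨b', rfl⟩ : ∃ b', y = e b' := by
          rcases Finset.mem_insert.1 (Finset.mem_inter.1 hy).2 with t | t
          exacts [⟨_, t⟩, ⟨_, Finset.mem_singleton.1 t⟩]
        simpa [((ne i' σ' k').2 b').1, ((ne i' σ' k').2 b').2] using s (Finset.mem_inter.1 hy).1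
      rw [w y hy, w y' hy'], sp _,
      fun _ t => by obtain ⟨_, _, _, _, _, _, _, rfl⟩ := cl _ _ t; rfl⟩
  have G' : ∀ i σ, c i σ ≠ 0 → JR (F'.job (m.ι' i)) R' ∅ 0 0 j F'.n₀ T := fun i σ k =>
    ⟨x' ▸ gx hS' a' ⟨_, (tw i σ k).2.1⟩, (ds i σ k).rwi hS', fun τ o _ _ => by simp, sp' _,
      fun _ t => by obtain ⟨_, _, _, _, _, _, rfl⟩ := cl' _ _ t; rfl⟩
  have k1 : ∀ i σ, c i σ ≠ 0 → KcJ (F.job (m.ι i)) {R} j F.n₀ (min ε₁ ε₂) (max K₁ K₂) := fun i σ k =>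
    KcJ.mono (fun c δ σ' t d0 ad => c₁ j _ _ _ _ _ _ _ _ _ c δ σ' (G i σ k).gx nofun (G i σ k).ri.cm t d0 ad) p.le
      (min_le_left _ _) (le_max_left _ _)
  have k1' : ∀ i σ, c i σ ≠ 0 → KcJ (F'.job (m.ι' i)) {R'} j F'.n₀ (min ε₁ ε₂) (max K₁ K₂) :=
    fun i σ k => KcJ.mono (fun c δ σ' t d0 ad => c₂ j _ _ _ _ _ _ _ _ _ c δ σ' (G' i σ k).gx nofun (G' i σ k).ri.cm t d0 ad)
      p.le (min_le_right _ _) (le_max_right _ _)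
  have gd' := fun i σ (k : c i σ ≠ 0) c' (t : Lr R' c') => ev_of
    (gd _ _ _ _ (F'.job (m.ι' i)) c' j _ T (ds i σ k) (G' i σ k) t.1 (L.pj (G' i σ k) t.2))
  have k2' : ∀ i σ, c i σ ≠ 0 → OutL (F'.job (m.ι' i)) R' ∅ 0 0 j (min ε₁ ε₂) (max K₁ K₂) :=
    fun i σ k c' t => by
      filter_upwards [L.anH' (G' i σ k) t.2, gd' i σ k c' t, self_mem_nhdsWithin] with δ b1 b2 b3
      have := L.kd _ _ _ _ _ _ _ c' δ R' j _ T (G' i σ k).gx (G' i σ k).ri t.1 (b2.1 b1.2.1)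
      exact ⟨this.1 b1.1, fun σ' s => by
        simpa using this.2 _ _ σ' s (k1' i σ k c' δ σ' s b3 b1.1).1⟩
  have k2 : ∀ i σ, c i σ ≠ 0 →
      OutL (F.job (m.ι i)) R {e false, e true} 1 z j (min ε₁ ε₂) (max K₁ K₂) := fun i σ k c₁ t => by
    obtain ⟨c', t1, t2, t3⟩ := (tw i σ k).2.2.1 c₁ t.1
    filter_upwards [L.anH' (G i σ k) t.2, L.anH' (G' i σ k) t2, gd' i σ k c' ⟨t1, t2⟩,
      k2' i σ k c' ⟨t1, t2⟩, self_mem_nhdsWithin] with δ b1 b2 b3 b4 b5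
    obtain ⟨d1, d2⟩ := t3 δ b5 b1.2.1 b2.2.1 (b3.1 b2.2.1)
    refine ⟨d1 b4.1, fun σ₁ s => ?_⟩
    obtain ⟨σ', s', d2⟩ := d2 σ₁ s
    exact d2 _ _ (by simpa using b4.2 σ' s')
  have lr : ∀ {S : Scene Lm} {R : S.A} {c : S.M.Cl}, c.1 = {R} → Lr R c := fun t =>
    ⟨t.ge rfl, fun _ s => .inl (t.le s.1)⟩
  -- the good perturbations
  have A : ∀ i σ, c i σ ≠ 0 → ∃ δ Tr, GV fun q => Gq (F.job (m.ι i)) R z F.n₀ δ q Tr ∧ ∃ Adm, Adm q ∧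
      ParQ (F.job (m.ι i)) ((F.job (m.ι i)).cf (.inl R)) Adm R z F.n₀ e (Tr _) := fun i σ k => by
    obtain ⟨Q, q1, q2⟩ := rq i σ k
    have : ∀ c₁ : S.M.Cl, ∃ Tr, c₁.1 = {R} → ∀ᶠ δ in 𝓝[>] 0, Sml fun Adm =>
        ParQ (F.job (m.ι i)) c₁ Adm R z F.n₀ e Tr ∧ ∀ σ, InL TA (F.job (m.ι i)) c₁ δ σ Adm R
          {e false, e true} 1 z F.n₀ (Tr σ) := fun c₁ => by
      by_cases t : c₁.1 = {R}
      · obtain ⟨Tr, s⟩ := L.q _ _ _ _ _ _ (F.job (m.ι i)) c₁ R e Q j _ T q1 (q2 ▸ G i σ k) t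
          (L.pj (G i σ k) (lr t).2)
        exact ⟨Tr, fun _ => q2 ▸ ev_of s⟩
      · exact ⟨fun _ _ _ => True, fun s => (t s).elim⟩
    choose Tr hT using this
    obtain ⟨δ, s⟩ := g₁ j _ _ _ _ _ _ _ R _ 1 z _ _ Tr (G i σ k) ⟨_, (tw i σ k).1 false⟩ p (k1 i σ k)
      (k2 i σ k) fun c₁ t => (hT c₁ t).mono fun _ s => s.mono fun _ s => s.2
    obtain ⟨_, s'⟩ := (hT _ (G i σ k).cf).exists
    exact ⟨δ, Tr, s.and (gv_sml (s'.mono fun _ s => s.1))⟩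
  have A' : ∀ i σ, c i σ ≠ 0 → ∃ δ, GV fun q =>
      Gq (F'.job (m.ι' i)) R' 0 F'.n₀ δ q (fun _ _ _ _ => True) ∧ ∃ Adm, Adm q ∧
      ParD (F'.job (m.ι' i)) ((F'.job (m.ι' i)).cf (.inl R')) Adm R' F'.n₀ := fun i σ k => by
    obtain ⟨δ, s⟩ := g₂ j _ _ _ _ _ _ _ R' _ 0 0 _ _ (fun _ _ _ _ => True) (G' i σ k)
      ⟨_, (tw i σ k).2.1⟩ p (k1' i σ k) (k2' i σ k) fun c₁ t =>
        (gd' i σ k c₁ (lr t)).mono fun _ s => (s.2 t).mono fun _ s => s.2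
    obtain ⟨_, s'⟩ := (gd' i σ k _ (lr (G' i σ k).cf)).exists
    exact ⟨δ, s.and (gv_sml ((s'.2 (G' i σ k).cf).mono fun _ s => s.1))⟩
  have nl : R ∉ S.ls := let ⟨_, _, w⟩ := (ri _ _ k₀).rw; w.nl
  have nl' : R' ∉ S'.ls := let ⟨_, _, w⟩ := (G' _ _ k₀).ri.rw; w.nl
  obtain ⟨kt, ty⟩ := kit_of (F := F) nl fun i₁ ⟨_, t⟩ => by
    obtain ⟨i, σ, _, _, _, k, rfl, -⟩ := cl _ _ t
    obtain ⟨δ, Tr, s⟩ := A i σ k
    exact ⟨z, δ, Tr, s.mono fun _ => And.left⟩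
  obtain ⟨kt', ty'⟩ := kit_of (F := F') nl' fun i₁ ⟨_, t⟩ => by
    obtain ⟨i, σ, _, _, k, rfl, -⟩ := cl' _ _ t
    obtain ⟨δ, s⟩ := A' i σ k
    exact ⟨0, δ, _, s.mono fun _ => And.left⟩
  -- Stokes
  have ins : ∀ (σ : Finset m.A₀) b, insert R (σ.map m.I.f ∪ {e b}) = σ.map m.I.f ∪ {R, e b} :=
    fun σ b => by ext; simp
  have ins' : ∀ σ : Finset m.A₀, insert R' (σ.map m.I.f' ∪ ∅) = σ.map m.I.f' ∪ {R'} := fun σ => by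
    ext; simp
  have sp₁ : ∀ i₁ τ, (m.l {e₀} c + m.l {e₁} c) i₁ τ ≠ 0 →
      R ∉ τ ∧ cel (insert R τ) (some false) ∈ F.𝒦 i₁ := fun i₁ τ t => by
    have : ∃ b, m.l {e b} c i₁ τ ≠ 0 := (ne_add t).elim (⟨false, ·⟩) (⟨true, ·⟩)
    obtain ⟨b, t⟩ := this
    obtain ⟨i, σ, k, rfl, rfl⟩ := pj_ne t
    exact ⟨by simp [(ne i σ k).1, ((ne i σ k).2 b).2.symm], ins σ b ▸ (tw i σ k).1 b⟩
  have sp₂ : ∀ i₁ τ, m.r c i₁ τ ≠ 0 → R' ∉ τ ∧ cel (insert R' τ) (some false) ∈ F'.𝒦 i₁ :=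
    fun i₁ τ t => by
      obtain ⟨i, σ, k, rfl, rfl⟩ := pj_ne t
      exact ⟨by simpa [R'] using (h5 i σ k).1, ins' σ ▸ (tw i σ k).2.1⟩
  have s₁ := cone hS a kt (L.lx S j N T F hS a ty) x nl h6.cl n sp₁
  have s₂ := cone hS' a' kt' (L.lx S' j N T F' hS' a' ty') x' nl' h4.cl n' sp₂
  choose δ Tr B using A
  choose δ' B' using A'
  obtain ⟨q, ⟨⟨e1, e2⟩, e3⟩, ⟨e4, e5⟩, e6⟩ := ((Nd18.GV.comap (((v₁ F a n _ fun i τ t =>
    a.sub (sp₁ i τ t).2 (Finset.subset_insert _ _)).and s₁).and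
      (gv_dep (ι := m.L₀ × Finset m.A₀) fun w k => B w.1 w.2 k)) u).and (((v₂ F' a' n' _ fun i τ t =>
    a'.sub (sp₂ i τ t).2 (Finset.subset_insert _ _)).and s₂).and
      (gv_dep (ι := m.L₀ × Finset m.A₀) fun w k => B' w.1 w.2 k))).ex
  rw [← e1, ← e4, e2, e5, prg_add, prg_pj, prg_pj, prg_pj]
  simp only [← Finset.sum_add_distrib, ← mul_add]
  refine sum_congr_ne c fun i σ k => ?_
  obtain ⟨f1, Adm, f2, f3⟩ := e3 (i, σ) k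
  obtain ⟨f4, Adm', f5, f6⟩ := e6 (i, σ) k
  have cd : σ.card = d := by
    simpa using (h4.cl.mem _ _ ((pj_apply m.ι' m.I.f' c i σ).trans_ne k)).2.1
  have t1 := f3 (σ.map m.I.f) _ f2 (ne i σ k).1 (fun b => ((ne i σ k).2 b).1) (fun y hy => by
    have := (f1.ta (G i σ k) (a.sub ((tw i σ k).1 false) (by intro; simp; tauto)) hy).1
    rw [dim_cel, n, Finset.card_union_of_disjoint (by simpa using (ne i σ k).1)] at this
    simp [sf, cd] at this) fun b => ⟨(tw i σ k).1 b, f1.fin (G i σ k) ((tw i σ k).1 b) (by simp),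
      fun y hy _ => (f1.ta (G i σ k) ((tw i σ k).1 b) hy).2⟩
  have t2 := f6 _ (tw i σ k).2.1 q f5 (by simp [R']) fun y hy _ => by
    simpa using (f4.ta (G' i σ k) (tw i σ k).2.1 hy).2
  rw [ins' σ, show (F'.job (m.ι' i)).zf q _ _ = _ from t2, ← (tw i σ k).2.2.2 q, ← t1,
    Fintype.sum_bool, add_comm]
  exact congrArg₂ _ (by rw [← ins σ true]; rfl) (by rw [← ins σ false]; rfl)

end Crest.Agent.X212.Rf65
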