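import Crest.Agent.X212.Rf65.Ps
import Crest.Agent.X212.Kof81.Cls
import Crest.Agent.X212.Mp86.St

/-!
# Row 212, RFACE: kits of jobs with a hard `S¹ × S²` wall
-/

set_option autoImplicit false
set_option linter.unusedSectionVars false
noncomputable section
open scoped Manifold ContDiff Topology
open Set Function Filter

namespace Crest.Agent.X212.Rf65
open An An.Job M G75 Ins26 Jb7 Nd18
open Kof81 (AllS FL JL TyAt TyF TL FaceL StrL ev_of hd_mem sol_mem kit2)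

variable {κ lam : Type} [Fintype κ] [Fintype lam] [DecidableEq lam] (Lm : LM κ lam)

/-- a property of the jobs of families with a further hard wall -/
def AllX (P : ∀ {S : Scene Lm} {D : S.Dat} {i Wi r n}
    (_ : Job Wi (D.Λ i) (S.A ⊕ Unit) S.ls r n) (_ : ℤ), Prop) : Prop :=
  ∀ (S : Scene Lm) (D : S.Dat) i Wi r n (J : Job Wi (D.Λ i) (S.A ⊕ Unit) S.ls r n) R E b z j n₀ T,
    JR J R E b z j n₀ T → J.𝒦.Nonempty → P J n₀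

/-- the leaves of the kits -/
structure RK (TA : TP Lm) : Prop extends FL Lm where
  fin : AllX Lm fun J _ => Sml fun Adm => ∀ σ ∈ J.𝒦, ∀ c, J.FinE σ c Adm
  jl : AllX Lm fun J n₀ => JL J n₀
  ry : RyStmt Lm
  flc : AllS Lm fun J => ∀ c, Flc J c
  inn : InnStmt Lm
  kr : KrStmt Lm
  ntr : NtrStmt Lm TA

variable {Lm} {TA : TP Lm} {S : Scene Lm} {D : S.Dat} {i : S.L} {Wi : Type} {r n : ℕ}
  {J : Job Wi (D.Λ i) (S.A ⊕ Unit) S.ls r n} {R : S.A} {E : Finset S.A} {b z j : ℕ} {n₀ : ℤ}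
  {T δ ε ε' K₀ K₀' k₁ : ℝ} {c : S.M.Cl} {σ : Cel (S.A ⊕ Unit)} {sh : Set (S.A ⊕ Unit)}

theorem EA.mono {y : J.Obc c} {π : Reg S.A} (h : EA ε y π) (h0 : 0 ≤ ε) (k : ε ≤ ε') : EA ε' y π :=
  ⟨h.int, h.le.trans (mul_le_mul_of_nonneg_right (by gcongr)
    (MeasureTheory.integral_nonneg fun _ => sq_nonneg _))⟩

theorem KcAt.mono {R : Option S.A} (h : KcAt J c δ ε' K₀ sh σ R j k₁) (h0 : 0 ≤ ε) (k : ε ≤ ε')
    (k' : K₀ ≤ K₀') : KcAt J c δ ε K₀' sh σ R j k₁ := fun y F f lo g p => h y F f lo g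
  { p with
    tri := fun ρ a b => (p.tri ρ a b).imp (fun t => ⟨t.1, t.2.1.mono h0 k, t.2.2⟩)
      (Or.imp_left k'.trans)
    fil := fun a u v => let ⟨t1, t2, t3, t4, t5⟩ := p.fil a u v
      ⟨t1, t2, t3, { t4 with ea := t4.ea.mono h0 k }, t5⟩ }

variable (R c) in
/-- `R` and lens walls are broken along cylinders -/
def Lr : Prop := R ∈ c.1 ∧ cylW c ⊆ insert R S.ls

variable (J) in
/-- the core without `R` -/
def KcJ (X : Finset S.A) (j : ℕ) (n₀ : ℤ) (ε K₀ : ℝ) : Prop := ∀ (c : S.M.Cl) δ, ∀ σ ∈ J.𝒦, 0 < δ →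
  AddAt J c δ → KcAt J c δ ε K₀ (shX S X) σ none j J.k ∧
    (AnH J c δ (shX S X) σ → FnW J c δ (shX S X) σ n₀)

variable (J R E b z j) in
/-- the numbers outside `R` -/
def OutL (ε K₀ : ℝ) : Prop := ∀ c, Lr R c → ∀ᶠ δ in 𝓝[>] 0, AdO J c δ R E b z ∧
  ∀ σ ∈ J.𝒦, KcAt J c δ ε K₀ (shX S {R}) σ (some R) j (J.k - z / 4)

open Classical in
variable (J R z n₀) in
/-- the types of the faces -/
def TR (δ : ℝ) (Tr : ∀ c, Cel (S.A ⊕ Unit) → (Wi →₀ ℝ) → J.Obc c → Prop) : Kof81.Ty J :=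
  fun σ c q y => if R ∈ c.1 then TyF J n₀ σ c δ (shX S {R}) q y R ∧
    y.kap (D.W.pc c (hp R false)) = z / 4 ∧ Tr c σ q y else TL J δ (shX S {R}) n₀ σ c q y

theorem Fc.eq {y : J.Obc c} {x : S.A} (h : Fc J c σ n₀ y x) (k : R ∈ c.1) : x = R :=
  (h.2.1.le k).symm

namespace RK
variable (L : RK Lm TA) (G : JR J R E b z j n₀ T)
include L G

theorem ry' : (PY (J.xs R).D 1 ∧ ∀ β, Rdc90.Bs (J.xs R).D β → dz (J.xs R).D β ≠ 0) ∧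
    (∀ c, Mov J c R) ∧ Gap J R :=
  let ⟨θ, ϖ, k⟩ := G.ri.rw; L.ry _ _ _ _ _ _ J R θ ϖ G.gx.sc G.gx.ok k (G.gx.nil R nofun)

theorem pj (hc : cylW c ⊆ insert R S.ls) : PJ J c :=
  ⟨fun a _ => G.gx.nil a nofun, fun a ha => (hc ha).elim (fun e => ⟨1, e ▸ (L.ry' G).1.1⟩)
    fun e => ⟨0, (L.ly _ _ _ _ _ _ J G.gx.sc G.gx.ok a e).1⟩⟩

theorem anH' (hc : cylW c ⊆ insert R S.ls) :
    ∀ᶠ δ in 𝓝[>] 0, AddAt J c δ ∧ SplAt J c δ ∧ ∀ σ ∈ J.𝒦, AnH J c δ (shX S {R}) σ := by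
  have hP := L.pj G hc
  filter_upwards [L.anH G.gx hP fun a ha => (hc ha).elim (fun e => e ▸ (L.ry' G).1.2)
      fun e => (L.ly _ _ _ _ _ _ J G.gx.sc G.gx.ok a e).2,
    ev_of ((L.add _ _ _ _ _ _ J G.gx.sc G.gx.ok c).at J c G.gx.ok hP),
    ev_of (L.spl _ _ _ _ _ _ J G.gx.sc G.gx.ok c G.gx.ok hP)] with δ a1 a2 a3
  exact ⟨a2 a3, a3, a1⟩

/-- the first stage -/
theorem h1 (hn : J.𝒦.Nonempty) (hε : 0 < ε) (k1 : KcJ J {R} j n₀ ε K₀) (k2 : OutL J R E b z j ε K₀)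
    (hc : Lr R c) : ∀ᶠ δ in 𝓝[>] 0, ∀ σ ∈ J.𝒦, AnH J c δ (shX S {R}) σ ∧
      Sml fun Adm => H1R J c δ σ Adm R E b z n₀ := by
  filter_upwards [L.anH' G hc.2, k2 c hc,
    ev_of (L.lix _ _ _ _ _ _ J _ _ j n₀ T c G.gx nofun (L.pj G hc.2))] with δ a1 a2 a3 σ hσ
  have a := a1.2.2 σ hσ
  refine ⟨a, ((L.fin _ _ _ _ _ _ J R E b z j n₀ T G hn).and
    ((L.eps _ _ _ _ _ _ J G.gx.sc G.gx.ok G.gx.ok G.gx.loc.bas ε hε).and a3)).mono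
    fun Adm ⟨b1, b2, b3⟩ => ?_⟩
  have H : HR J c δ σ Adm R E b z j n₀ T := ⟨G.gx, G.ri, G.one, hc.1, a, a1.1, b3 a.spl a.dec a1.1⟩
  have c0 := L.inn _ _ _ _ _ _ J c δ σ Adm R E b z j n₀ T H ((L.ry' G).2.1 c) a2.1
  have c1 := k1 c δ σ hσ a.d0 a1.1
  obtain ⟨d1, d2, d3, d4⟩ := L.kr _ _ _ _ _ _ J c δ σ Adm R E b z j n₀ T H ε K₀ b2 (L.ry' G).1.1
    (L.ry' G).2.2 (L.flc _ _ _ _ _ _ J G.gx.sc G.gx.ok c) c0 (c1.2 a) c1.1 (a2.2 σ hσ)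
  exact ⟨⟨a, b1 σ hσ c, d1, d2, d3⟩, c0, d4⟩

/-- the second stage -/
theorem h2 (hn : J.𝒦.Nonempty) (hε : 0 < ε) (k1 : KcJ J {R} j n₀ ε K₀) (k2 : OutL J R E b z j ε K₀)
    (hc : Lr R c) {Tr : Cel (S.A ⊕ Unit) → (Wi →₀ ℝ) → J.Obc c → Prop}
    (k3 : c.1 = {R} → ∀ᶠ δ in 𝓝[>] 0, Sml fun Adm => ∀ σ, InL TA J c δ σ Adm R E b z n₀ (Tr σ)) :
    ∀ᶠ δ in 𝓝[>] 0, ∀ σ ∈ J.𝒦, AnH J c δ (shX S {R}) σ ∧ Sml fun Adm =>
      H2 J c δ (shX S {R}) σ Adm n₀ fun q y => y.kap (D.W.pc c (hp R false)) = z / 4 ∧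
        Ok δ y (pO J c (shX S {R}) σ R) ∧ Tr σ q y := by
  have ck : ∀ δ σ Adm, σ ∈ J.𝒦 → CokL J c δ (shX S {R}) σ Adm n₀ := fun δ σ Adm hσ q y x _ _ f => by
    obtain rfl := f.eq hc.1
    refine .inl fun s hs e => ((G.gx.rich σ hσ s hs c e nofun).2 _ ?_).1 fun l hl => ?_
    · exact f.2.1 ▸ Mp86.St.piece_hp false
    · obtain ⟨_, _, k⟩ := G.ri.rw
      simp [hp, (ne_of_mem_of_not_mem hl k.nl)]
  by_cases e : c.1 = {R}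
  · filter_upwards [L.h1 G hn hε k1 k2 hc, k3 e,
      ev_of (L.ntr _ _ _ _ _ _ J c R E b z j n₀ T G e (L.pj G hc.2))] with δ a1 a2 a3 σ hσ
    refine ⟨(a1 σ hσ).1, ((a1 σ hσ).2.and (a2.and a3)).mono fun Adm ⟨b1, b2, b3⟩ => ?_⟩
    obtain ⟨c1, c2, c3⟩ := b2 σ b1
    refine ⟨b1.toH1, ck δ σ Adm hσ, fun q y x u v f g hd t => c1 q y x u v f g hd t.2,
      fun q y x u v f g hd t => ?_, fun G' g1 g2 => ?_⟩
    · have := c3 q y x u v f g hd t.2.1 t.2.2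
      obtain rfl := f.1.eq hc.1
      exact b3 σ b1 q y _ u v f g hd ⟨t.2.1, this⟩
    · refine ((c2 G' g1 g2).and ⟨G', g1, fun _ => id⟩).mono fun q hq t y x v f => ?_
      obtain ⟨x', e1, e2⟩ := (g2 q t.2).1 y v fun t =>
        singleton_ne_empty x (f.1.2.1.symm.trans (congrArg Subtype.val t.1))
      obtain rfl := f.1.eq hc.1
      obtain rfl := e1.eq hc.1
      exact ⟨(t.1 y _ v f).1, (b1.qr q y _ hq v e1 f.2.1 (e2 f.2.1).1).2.1, (e2 f.2.1).1,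
        (t.1 y _ v f).2⟩
  · have k : ∀ {σ} {y : J.Obc c} {x}, ¬Fc J c σ n₀ y x := fun f => e (f.eq hc.1 ▸ f.2.1)
    filter_upwards [L.h1 G hn hε k1 k2 hc] with δ a1 σ hσ
    exact ⟨(a1 σ hσ).1, (a1 σ hσ).2.mono fun Adm b1 => ⟨b1.toH1, ck δ σ Adm hσ,
      fun _ _ _ _ _ f => (k f.1).elim, fun _ _ _ _ _ f => (k f.1).elim,
      fun G' g _ => ⟨G', g, fun _ _ _ _ _ f => (k f.1).elim⟩⟩⟩

end RK

variable (S) in
/-- **kits with the types of the faces** -/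
theorem RK.gv (L : RK Lm TA) : ∀ᶠ T in 𝓝[<] (1 : ℝ), ∀ j n₀ (D : S.Dat) i Wi r n
    (J : Job Wi (D.Λ i) (S.A ⊕ Unit) S.ls r n) R E b z ε K₀
    (Tr : ∀ c, Cel (S.A ⊕ Unit) → (Wi →₀ ℝ) → J.Obc c → Prop), JR J R E b z j n₀ T → J.𝒦.Nonempty →
    0 < ε → KcJ J {R} j n₀ ε K₀ → OutL J R E b z j ε K₀ →
    (∀ c, c.1 = {R} → ∀ᶠ δ in 𝓝[>] 0, Sml fun Adm => ∀ σ, InL TA J c δ σ Adm R E b z n₀ (Tr c σ)) →
    ∃ δ, GV fun q => ∃ K : J.Kit, K.Ax ∧ K.GG q ∧ K.n₀ = n₀ ∧ TyAt J n₀ (TR J R z n₀ δ Tr) q := by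
  obtain ⟨K₁, k⟩ := L.lens S
  refine k.mono fun T k j n₀ D i Wi r n J R E b z ε K₀ Tr G hn hε k1 k2 k3 => ?_
  have : Finite S.M.Cl := Subtype.finite
  have cy : ∀ {c : S.M.Cl}, (∀ x ∈ c.1, x ∈ hard S {R} ∨ x ∈ (none : Option S.A)) →
      cylW c ⊆ insert R S.ls := fun k x hx => by
    rcases k x hx.1 with (e | e | e) | e
    exacts [(hx.2 e).elim, .inr e, .inl (Finset.mem_singleton.1 e), absurd e (by simp)]
  have ln : ∀ {c : S.M.Cl}, R ∉ c.1 → cylW c ⊆ insert R S.ls → Kof81.Ln none c := fun a e =>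
    ⟨nofun, fun x hx => (e hx).resolve_left fun t => a (t ▸ hx.1)⟩
  obtain ⟨δ, a1, a2, a3⟩ := ((k j n₀ D i Wi r n J _ none G.gx fun c _ =>
    (L.fin _ _ _ _ _ _ J R E b z j n₀ T G hn).mono fun Adm e =>
      ⟨fun _ _ _ _ _ _ _ _ _ _ _ _ ⟨a, _, t⟩ => (t (G.gx.nil a nofun)).elim,
        fun σ hσ => e σ hσ c⟩).and ((eventually_all.2 fun c =>
    eventually_imp_distrib_left.2 fun hc : Lr R c => L.h2 G hn hε k1 k2 hc (k3 c)).and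
    (eventually_all.2 fun a => eventually_imp_distrib_left.2 fun hc : Lr R (J.cf a) =>
      ev_of (L.wall _ _ _ _ _ _ J G.gx.sc G.gx.ok a G.gx.ok (L.pj G hc.2)
        (.inr fun x => G.gx.nil x nofun))))).exists
  refine ⟨δ, kit2 G.gx.ok (L.jl _ _ _ _ _ _ J R E b z j n₀ T G hn) hn (fun σ hσ c => ?_)
    fun σ hσ a ha => ?_⟩
  · by_cases e : cylW c ⊆ insert R S.ls
    swap
    · exact (StrL.of_not fun _ _ hy => e (cy fun _ => sol_mem G.gx hσ hy)).face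
    by_cases e' : R ∈ c.1
    · refine .of (fun _ => L.st1 _ _ _ _ _ _ J G.gx.sc G.gx.ok c δ _ σ _ n₀)
        (fun _ => L.st2 _ _ _ _ _ _ J G.gx.sc G.gx.ok c δ _ σ _ n₀ _) ((a2 c ⟨e', e⟩ σ hσ).2.mono
          fun Adm t _ => ⟨t, fun q y x u v f g => ?_⟩)
      obtain rfl := f.fa.1.eq e'
      exact (if_pos e').mpr ⟨f, g.1, g.2.2⟩
    · exact ((a1 σ hσ).1 c (ln e' e)).mono fun q y t => (if_neg e').mpr t
  · have e := cy (c := J.cf a) fun _ => hd_mem G.gx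
    by_cases e' : R ∈ (J.cf a).1
    · exact .of (a2 _ ⟨e', e⟩ σ hσ).1 D.nrm (D.lnrm i) ha (a3 a ⟨e', e⟩ _ σ n₀ (Loc8.sh_of G.gx))
        fun _ _ t => ⟨R, ((if_pos e').mp t).1⟩
    · exact ((a1 σ hσ).2 a ha (ln e' e)).mono fun q y t => (if_neg e').mp t

end Crest.Agent.X212.Rf65
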