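import Crest.Agent.X212.Rf65.Abs

/-!
# Row 212, GL (helper65): families of maps that are uniformly `C^{1,1}` on a ball
-/

set_option autoImplicit false
set_option linter.unusedSectionVars false
set_option maxHeartbeats 400000
set_option maxSynthPendingDepth 3
noncomputable section
open Set Metric Function Filter Topology

namespace Crest.Agent.X212.Rf65

variable {ν : Type*} {l : Filter ν} {r : ℝ} {E F G H : ν → Type}
  [∀ n, NormedAddCommGroup (E n)] [∀ n, NormedSpace ℝ (E n)]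
  [∀ n, NormedAddCommGroup (F n)] [∀ n, NormedSpace ℝ (F n)]
  [∀ n, NormedAddCommGroup (G n)] [∀ n, NormedSpace ℝ (G n)]
  [∀ n, NormedAddCommGroup (H n)] [∀ n, NormedSpace ℝ (H n)]

variable (l) in
/-- uniformly bounded family -/
def UB (a : ∀ n, F n) : Prop := ∃ C, 0 ≤ C ∧ ∀ᶠ n in l, ‖a n‖ ≤ C

variable (l) in
/-- family tending to zero -/
def U00 (a : ∀ n, F n) : Prop := Tendsto (fun n => ‖a n‖) l (𝓝 0)

variable (l r) in
/-- uniformly bounded and Lipschitz on the ball of radius `r` -/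
def U0 (f : ∀ n, E n → F n) : Prop :=
  ∃ C, 0 ≤ C ∧ ∀ᶠ n in l, (∀ y ∈ closedBall (0 : E n) r, ‖f n y‖ ≤ C) ∧
    ∀ y ∈ closedBall (0 : E n) r, ∀ z ∈ closedBall (0 : E n) r, ‖f n y - f n z‖ ≤ C * ‖y - z‖

variable (l r) in
/-- uniformly `C^{1,1}` on the ball of radius `r` -/
structure U1 (f : ∀ n, E n → F n) : Prop where
  d : ∀ᶠ n in l, ∀ y ∈ closedBall (0 : E n) r, DifferentiableAt ℝ (f n) y
  v : U0 l r f
  D : U0 l r fun n y => fderiv ℝ (f n) y

theorem UB.of_le {a : ∀ n, F n} {C : ℝ} (h : ∀ᶠ n in l, ‖a n‖ ≤ C) : UB l a :=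
  ⟨|C|, abs_nonneg _, h.mono fun _ hn => hn.trans (le_abs_self _)⟩

theorem UB.of_norm_le {a : ∀ n, F n} {b : ∀ n, G n} (h : UB l b) {K : ℝ}
    (hab : ∀ᶠ n in l, ‖a n‖ ≤ K * ‖b n‖) : UB l a := by
  obtain ⟨C, hC, h⟩ := h
  refine UB.of_le (C := |K| * C) ((h.and hab).mono fun n hn => hn.2.trans ?_)
  exact mul_le_mul (le_abs_self _) hn.1 (norm_nonneg _) (abs_nonneg _)

theorem UB.add {a b : ∀ n, F n} (ha : UB l a) (hb : UB l b) : UB l fun n => a n + b n := by
  obtain ⟨C, -, h⟩ := ha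
  obtain ⟨C', -, h'⟩ := hb
  exact UB.of_le ((h.and h').mono fun n hn => (norm_add_le _ _).trans (add_le_add hn.1 hn.2))

theorem UB.neg {a : ∀ n, F n} (ha : UB l a) : UB l fun n => -a n :=
  ha.of_norm_le (K := 1) (Eventually.of_forall fun n => by simp)

theorem UB.sub {a b : ∀ n, F n} (ha : UB l a) (hb : UB l b) : UB l fun n => a n - b n := by
  simpa only [sub_eq_add_neg] using ha.add hb.neg

theorem UB.app {A : ∀ n, F n →L[ℝ] G n} {a : ∀ n, F n} (hA : UB l A) (ha : UB l a) :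
    UB l fun n => A n (a n) := by
  obtain ⟨C, -, h⟩ := hA
  exact ha.of_norm_le (K := C) (h.mono fun n hn =>
    ((A n).le_opNorm _).trans (mul_le_mul_of_nonneg_right hn (norm_nonneg _)))

theorem UB.comp {A : ∀ n, F n →L[ℝ] G n} {B : ∀ n, E n →L[ℝ] F n} (hA : UB l A) (hB : UB l B) :
    UB l fun n => (A n).comp (B n) := by
  obtain ⟨C, -, h⟩ := hA
  exact hB.of_norm_le (K := C) (h.mono fun n hn =>
    ((A n).opNorm_comp_le _).trans (mul_le_mul_of_nonneg_right hn (norm_nonneg _)))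

theorem UB.flip {β : ∀ n, E n →L[ℝ] F n →L[ℝ] G n} (h : UB l β) : UB l fun n => (β n).flip :=
  h.of_norm_le (K := 1) (Eventually.of_forall fun n => by simp)

theorem UB.const {V : Type} [NormedAddCommGroup V] [NormedSpace ℝ V] (a : V) :
    UB (F := fun _ => V) l fun _ => a :=
  UB.of_le (Eventually.of_forall fun _ => le_rfl)

variable (E) in
theorem ub_id : UB (F := fun n => E n →L[ℝ] E n) l
    fun n => ContinuousLinearMap.id ℝ (E n) :=
  UB.of_le (Eventually.of_forall fun _ => ContinuousLinearMap.norm_id_le)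

variable (E F) in
theorem ub_fst : UB (F := fun n => E n × F n →L[ℝ] E n) l
    fun n => ContinuousLinearMap.fst ℝ (E n) (F n) :=
  UB.of_le (Eventually.of_forall fun _ => ContinuousLinearMap.norm_fst_le ..)

variable (E F) in
theorem ub_snd : UB (F := fun n => E n × F n →L[ℝ] F n) l
    fun n => ContinuousLinearMap.snd ℝ (E n) (F n) :=
  UB.of_le (Eventually.of_forall fun _ => ContinuousLinearMap.norm_snd_le ..)

variable (E F G) in
theorem ub_compL : UB (F := fun n => (F n →L[ℝ] G n) →L[ℝ] (E n →L[ℝ] F n) →L[ℝ] E n →L[ℝ] G n) l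
    fun n => ContinuousLinearMap.compL ℝ (E n) (F n) (G n) :=
  UB.of_le (Eventually.of_forall fun _ => ContinuousLinearMap.norm_compL_le ..)

variable (E) in
theorem ub_lsmul : UB (F := fun n => ℝ →L[ℝ] E n →L[ℝ] E n) l
    fun n => ContinuousLinearMap.lsmul ℝ ℝ (E := E n) :=
  UB.of_le (Eventually.of_forall fun _ => ContinuousLinearMap.opNorm_lsmul_le)

namespace U0
variable {f f' : ∀ n, E n → F n} {g : ∀ n, E n → G n}

theorem of_le {C C' : ℝ} (h : ∀ᶠ n in l, (∀ y ∈ closedBall (0 : E n) r, ‖f n y‖ ≤ C) ∧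
    ∀ y ∈ closedBall (0 : E n) r, ∀ z ∈ closedBall (0 : E n) r,
      ‖f n y - f n z‖ ≤ C' * ‖y - z‖) : U0 l r f :=
  ⟨|C| + |C'|, by positivity, h.mono fun n hn =>
    ⟨fun y hy => (hn.1 y hy).trans (by linarith [le_abs_self C, abs_nonneg C']),
      fun y hy z hz => (hn.2 y hy z hz).trans (mul_le_mul_of_nonneg_right
        (by linarith [le_abs_self C', abs_nonneg C]) (norm_nonneg _))⟩⟩

theorem congr (h : U0 l r f) (e : ∀ᶠ n in l, ∀ y ∈ closedBall (0 : E n) r, f' n y = f n y) :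
    U0 l r f' := by
  obtain ⟨C, hC, h⟩ := h
  refine ⟨C, hC, (h.and e).mono fun n hn => ⟨fun y hy => ?_, fun y hy z hz => ?_⟩⟩
  · rw [hn.2 y hy]; exact hn.1.1 y hy
  · rw [hn.2 y hy, hn.2 z hz]; exact hn.1.2 y hy z hz

theorem mono (h : U0 l r f) {r' : ℝ} (hr : r' ≤ r) : U0 l r' f := by
  obtain ⟨C, hC, h⟩ := h
  exact ⟨C, hC, h.mono fun n hn => ⟨fun y hy => hn.1 y (closedBall_subset_closedBall hr hy),
    fun y hy z hz => hn.2 y (closedBall_subset_closedBall hr hy) z
      (closedBall_subset_closedBall hr hz)⟩⟩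

theorem const {a : ∀ n, F n} (ha : UB l a) : U0 l r fun n (_ : E n) => a n := by
  obtain ⟨C, -, h⟩ := ha
  exact of_le (C := C) (C' := 0) (h.mono fun n hn => ⟨fun _ _ => hn, fun _ _ _ _ => by simp⟩)

theorem id : U0 l r fun n (y : E n) => y :=
  of_le (C := r) (C' := 1) (Eventually.of_forall fun _ =>
    ⟨fun _ hy => mem_closedBall_zero_iff.1 hy, fun _ _ _ _ => by simp⟩)

theorem add (h : U0 l r f) (h' : U0 l r f') : U0 l r fun n y => f n y + f' n y := by
  obtain ⟨C, -, h⟩ := h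
  obtain ⟨C', -, h'⟩ := h'
  refine of_le (C := C + C') (C' := C + C') ((h.and h').mono fun n hn =>
    ⟨fun y hy => (norm_add_le _ _).trans (add_le_add (hn.1.1 y hy) (hn.2.1 y hy)),
      fun y hy z hz => ?_⟩)
  rw [add_sub_add_comm, add_mul]
  exact (norm_add_le _ _).trans (add_le_add (hn.1.2 y hy z hz) (hn.2.2 y hy z hz))

theorem clm {A : ∀ n, F n →L[ℝ] G n} (hA : UB l A) (h : U0 l r f) :
    U0 l r fun n y => A n (f n y) := by
  obtain ⟨C, hC, h⟩ := h
  obtain ⟨K, hK, hA⟩ := hA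
  refine of_le (C := K * C) (C' := K * C) ((h.and hA).mono fun n hn =>
    ⟨fun y hy => ((A n).le_opNorm _).trans (mul_le_mul hn.2 (hn.1.1 y hy) (norm_nonneg _) hK),
      fun y hy z hz => ?_⟩)
  rw [← map_sub, mul_assoc]
  exact ((A n).le_opNorm _).trans (mul_le_mul hn.2 (hn.1.2 y hy z hz) (norm_nonneg _) hK)

theorem neg (h : U0 l r f) : U0 l r fun n y => -f n y :=
  (h.clm (ub_id F).neg).congr (Eventually.of_forall fun _ _ _ => rfl)

theorem sub (h : U0 l r f) (h' : U0 l r f') : U0 l r fun n y => f n y - f' n y := by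
  simpa only [sub_eq_add_neg] using h.add h'.neg

theorem app {A : ∀ n, E n → F n →L[ℝ] G n} (hA : U0 l r A) (h : U0 l r f) :
    U0 l r fun n y => A n y (f n y) := by
  obtain ⟨C, hC, h⟩ := h
  obtain ⟨K, hK, hA⟩ := hA
  refine of_le (C := K * C) (C' := K * C + K * C) ((h.and hA).mono fun n hn =>
    ⟨fun y hy => ((A n y).le_opNorm _).trans
      (mul_le_mul (hn.2.1 y hy) (hn.1.1 y hy) (norm_nonneg _) hK), fun y hy z hz => ?_⟩)
  have e : A n y (f n y) - A n z (f n z) = A n y (f n y - f n z) + (A n y - A n z) (f n z) := by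
    simp
  have h1 := ((A n y).le_opNorm (f n y - f n z)).trans
    (mul_le_mul (hn.2.1 y hy) (hn.1.2 y hy z hz) (norm_nonneg _) hK)
  have h2 := ((A n y - A n z).le_opNorm (f n z)).trans
    (mul_le_mul (hn.2.2 y hy z hz) (hn.1.1 z hz) (norm_nonneg _) (by positivity))
  rw [e]
  refine (norm_add_le _ _).trans ?_
  nlinarith

theorem bil {β : ∀ n, F n →L[ℝ] G n →L[ℝ] H n} (hβ : UB l β) (h : U0 l r f) (h' : U0 l r g) :
    U0 l r fun n y => β n (f n y) (g n y) := (h.clm hβ).app h'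

theorem compL {A : ∀ n, E n → G n →L[ℝ] H n} {B : ∀ n, E n → F n →L[ℝ] G n} (hA : U0 l r A)
    (hB : U0 l r B) : U0 l r fun n y => (A n y).comp (B n y) :=
  bil (ub_compL F G H) hA hB

theorem map {k : ∀ n, F n → G n} {K : ℝ} (hK : 0 ≤ K) (h0 : ∀ n a, ‖k n a‖ ≤ K * ‖a‖)
    (h1 : ∀ n a b, ‖k n a - k n b‖ ≤ K * ‖a - b‖) (h : U0 l r f) :
    U0 l r fun n y => k n (f n y) := by
  obtain ⟨C, hC, h⟩ := h
  refine of_le (C := K * C) (C' := K * C) (h.mono fun n hn =>
    ⟨fun y hy => (h0 _ _).trans (mul_le_mul_of_nonneg_left (hn.1 y hy) hK), fun y hy z hz => ?_⟩)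
  rw [mul_assoc]
  exact (h1 _ _ _).trans (mul_le_mul_of_nonneg_left (hn.2 y hy z hz) hK)

theorem flip {K : ν → Type} [∀ n, NormedAddCommGroup (K n)] [∀ n, NormedSpace ℝ (K n)]
    {A : ∀ n, E n → F n →L[ℝ] G n →L[ℝ] K n} (h : U0 l r A) :
    U0 (F := fun n => G n →L[ℝ] F n →L[ℝ] K n) l r fun n y => (A n y).flip :=
  h.map (k := fun n (a : F n →L[ℝ] G n →L[ℝ] K n) => a.flip) zero_le_one (fun n a => by simp)
    fun n a b => by
      have : a.flip - b.flip = (a - b).flip := by ext; simp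
      rw [this]; simp

theorem prod (h : U0 l r f) (h' : U0 l r g) : U0 l r fun n y => (f n y, g n y) := by
  obtain ⟨C, hC, h⟩ := h
  obtain ⟨C', hC', h'⟩ := h'
  refine of_le (C := C + C') (C' := C + C') ((h.and h').mono fun n hn =>
    ⟨fun y hy => ?_, fun y hy z hz => ?_⟩)
  · rw [Prod.norm_mk]
    exact max_le (by linarith [hn.1.1 y hy]) (by linarith [hn.2.1 y hy])
  · rw [Prod.mk_sub_mk, Prod.norm_mk]
    have := norm_nonneg (y - z)
    exact max_le (by nlinarith [hn.1.2 y hy z hz]) (by nlinarith [hn.2.2 y hy z hz])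

theorem prodL {K : ν → Type} [∀ n, NormedAddCommGroup (K n)] [∀ n, NormedSpace ℝ (K n)]
    {A : ∀ n, E n → K n →L[ℝ] F n} {B : ∀ n, E n → K n →L[ℝ] G n} (h : U0 l r A)
    (h' : U0 l r B) :
    U0 (F := fun n => K n →L[ℝ] F n × G n) l r fun n y => (A n y).prod (B n y) :=
  map (F := fun n => (K n →L[ℝ] F n) × (K n →L[ℝ] G n)) (G := fun n => K n →L[ℝ] F n × G n)
    (f := fun n y => (A n y, B n y)) (k := fun n a => a.1.prod a.2) zero_le_one
    (fun n a => by rw [ContinuousLinearMap.opNorm_prod, one_mul]) (fun n a b => by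
      have : a.1.prod a.2 - b.1.prod b.2 = (a - b).1.prod (a - b).2 := by ext <;> simp
      rw [this, ContinuousLinearMap.opNorm_prod, one_mul]) (h.prod h')

theorem comp {r' : ℝ} {k : ∀ n, F n → G n} (hk : U0 l r' k) (h : U0 l r f)
    (hr : ∀ᶠ n in l, ∀ y ∈ closedBall (0 : E n) r, f n y ∈ closedBall (0 : F n) r') :
    U0 l r fun n y => k n (f n y) := by
  obtain ⟨C, hC, h⟩ := h
  obtain ⟨K, hK, hk⟩ := hk
  refine of_le (C := K) (C' := K * C) (((h.and hk).and hr).mono fun n hn =>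
    ⟨fun y hy => hn.1.2.1 _ (hn.2 y hy), fun y hy z hz => ?_⟩)
  rw [mul_assoc]
  exact (hn.1.2.2 _ (hn.2 y hy) _ (hn.2 z hz)).trans
    (mul_le_mul_of_nonneg_left (hn.1.1.2 y hy z hz) hK)

theorem sum {κ : Type*} (s : Finset κ) {f : κ → ∀ n, E n → F n} (h : ∀ k ∈ s, U0 l r (f k)) :
    U0 l r fun n y => ∑ k ∈ s, f k n y := by
  classical
  induction s using Finset.induction_on with
  | empty =>
    simp only [Finset.sum_empty]
    exact const (UB.of_le (C := 0) (Eventually.of_forall fun _ => by simp))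
  | insert a s ha ih =>
    simp only [Finset.sum_insert ha]
    exact (h a (Finset.mem_insert_self _ _)).add
      (ih fun k hk => h k (Finset.mem_insert_of_mem hk))

theorem ub (h : U0 l r f) (hr : 0 ≤ r) : UB l fun n => f n 0 := by
  obtain ⟨C, -, h⟩ := h
  exact UB.of_le (h.mono fun n hn => hn.1 0 (mem_closedBall_self hr))

/-- uniformly invertible families -/
theorem inverse {A : ∀ n, E n → F n →L[ℝ] G n} (hA : U0 l r A) {K : ℝ}
    (hi : ∀ᶠ n in l, ∀ y ∈ closedBall (0 : E n) r,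
      (A n y).IsInvertible ∧ ‖(A n y).inverse‖ ≤ K) : U0 l r fun n y => (A n y).inverse := by
  obtain ⟨C, hC, hA⟩ := hA
  refine of_le (C := K) (C' := K * C * K) ((hA.and hi).mono fun n hn =>
    ⟨fun y hy => (hn.2 y hy).2, fun y hy z hz => ?_⟩)
  obtain ⟨⟨a, ha⟩, h1⟩ := hn.2 y hy
  obtain ⟨⟨b, hb⟩, h2⟩ := hn.2 z hz
  have hK : 0 ≤ K := (norm_nonneg _).trans h1
  have e : (A n y).inverse - (A n z).inverse =
      ((A n y).inverse.comp (A n z - A n y)).comp (A n z).inverse := by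
    rw [← ha, ← hb]; ext v; simp
  have h3 := hn.1.2 z hz y hy
  rw [norm_sub_rev z y] at h3
  rw [e]
  refine (ContinuousLinearMap.opNorm_comp_le _ _).trans ?_
  have h4 := (ContinuousLinearMap.opNorm_comp_le (A n y).inverse (A n z - A n y)).trans
    (mul_le_mul h1 h3 (norm_nonneg _) hK)
  refine (mul_le_mul h4 h2 (norm_nonneg _) (by positivity)).trans (le_of_eq ?_)
  ring

end U0

namespace U1
variable {f f' : ∀ n, E n → F n} {g : ∀ n, E n → G n}

theorem of_has {D : ∀ n, E n → E n →L[ℝ] F n}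
    (hd : ∀ᶠ n in l, ∀ y ∈ closedBall (0 : E n) r, HasFDerivAt (f n) (D n y) y)
    (hv : U0 l r f) (hD : U0 l r D) : U1 l r f :=
  ⟨hd.mono fun _ hn y hy => (hn y hy).differentiableAt, hv,
    hD.congr (hd.mono fun _ hn y hy => (hn y hy).fderiv)⟩

theorem has (h : U1 l r f) : ∀ᶠ n in l, ∀ y ∈ closedBall (0 : E n) r,
    HasFDerivAt (f n) (fderiv ℝ (f n) y) y := h.d.mono fun _ hn y hy => (hn y hy).hasFDerivAt

theorem congr (h : U1 l r f) (e : ∀ᶠ n in l, ∀ y ∈ closedBall (0 : E n) r, f' n =ᶠ[𝓝 y] f n) :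
    U1 l r f' :=
  of_has ((h.has.and e).mono fun _ hn y hy => (hn.1 y hy).congr_of_eventuallyEq (hn.2 y hy))
    (h.v.congr (e.mono fun _ hn y hy => (hn y hy).eq_of_nhds)) h.D

theorem congr' (h : U1 l r f) (e : ∀ᶠ n in l, ∀ y, f' n y = f n y) : U1 l r f' :=
  h.congr (e.mono fun _ hn _ _ => Eventually.of_forall hn)

theorem mono (h : U1 l r f) {r' : ℝ} (hr : r' ≤ r) : U1 l r' f :=
  ⟨h.d.mono fun _ hn y hy => hn y (closedBall_subset_closedBall hr hy), h.v.mono hr, h.D.mono hr⟩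

theorem const {a : ∀ n, F n} (ha : UB l a) : U1 l r fun n (_ : E n) => a n :=
  of_has (D := fun _ _ => 0) (Eventually.of_forall fun _ y _ => hasFDerivAt_const _ y)
    (U0.const ha) (U0.const (UB.of_le (C := 0) (Eventually.of_forall fun _ => by simp)))

theorem id : U1 l r fun n (y : E n) => y :=
  of_has (D := fun n _ => ContinuousLinearMap.id ℝ (E n))
    (Eventually.of_forall fun _ y _ => hasFDerivAt_id y) U0.id (U0.const (ub_id E))

theorem add (h : U1 l r f) (h' : U1 l r f') : U1 l r fun n y => f n y + f' n y :=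
  of_has ((h.has.and h'.has).mono fun _ hn y hy => (hn.1 y hy).add (hn.2 y hy))
    (h.v.add h'.v) (h.D.add h'.D)

theorem clm {A : ∀ n, F n →L[ℝ] G n} (hA : UB l A) (h : U1 l r f) :
    U1 l r fun n y => A n (f n y) :=
  of_has (h.has.mono fun n hn y hy => (A n).hasFDerivAt.comp y (hn y hy)) (h.v.clm hA)
    ((U0.const hA).compL h.D)

theorem neg (h : U1 l r f) : U1 l r fun n y => -f n y :=
  (h.clm (ub_id F).neg).congr' (Eventually.of_forall fun _ _ => rfl)

theorem sub (h : U1 l r f) (h' : U1 l r f') : U1 l r fun n y => f n y - f' n y := by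
  simpa only [sub_eq_add_neg] using h.add h'.neg

theorem app {A : ∀ n, E n → F n →L[ℝ] G n} (hA : U1 l r A) (h : U1 l r f) :
    U1 l r fun n y => A n y (f n y) := by
  refine of_has ((hA.has.and h.has).mono fun n hn y hy => (hn.1 y hy).clm_apply (hn.2 y hy))
    (hA.v.app h.v) ((hA.v.compL h.D).add ?_)
  exact hA.D.flip.app h.v

theorem bil {β : ∀ n, F n →L[ℝ] G n →L[ℝ] H n} (hβ : UB l β) (h : U1 l r f) (h' : U1 l r g) :
    U1 l r fun n y => β n (f n y) (g n y) := (h.clm hβ).app h'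

theorem compL {A : ∀ n, E n → G n →L[ℝ] H n} {B : ∀ n, E n → F n →L[ℝ] G n} (hA : U1 l r A)
    (hB : U1 l r B) : U1 l r fun n y => (A n y).comp (B n y) :=
  bil (ub_compL F G H) hA hB

theorem smul {c : ∀ n, E n → ℝ} (hc : U1 (F := fun _ => ℝ) l r c) (h : U1 l r f) :
    U1 l r fun n y => c n y • f n y :=
  bil (F := fun _ => ℝ) (ub_lsmul F) hc h

theorem prod (h : U1 l r f) (h' : U1 l r g) : U1 l r fun n y => (f n y, g n y) :=
  of_has ((h.has.and h'.has).mono fun _ hn y hy => (hn.1 y hy).prodMk (hn.2 y hy))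
    (h.v.prod h'.v) (h.D.prodL h'.D)

theorem fst {k : ∀ n, E n → F n × G n} (h : U1 l r k) : U1 l r fun n y => (k n y).1 :=
  h.clm (ub_fst F G)

theorem snd {k : ∀ n, E n → F n × G n} (h : U1 l r k) : U1 l r fun n y => (k n y).2 :=
  h.clm (ub_snd F G)

theorem comp {r' : ℝ} {k : ∀ n, F n → G n} (hk : U1 l r' k) (h : U1 l r f)
    (hr : ∀ᶠ n in l, ∀ y ∈ closedBall (0 : E n) r, f n y ∈ closedBall (0 : F n) r') :
    U1 l r fun n y => k n (f n y) :=
  of_has (((hk.has.and h.has).and hr).mono fun _ hn y hy =>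
      (hn.1.1 _ (hn.2 y hy)).comp y (hn.1.2 y hy))
    (hk.v.comp h.v hr) ((hk.D.comp h.v hr).compL h.D)

theorem sum {κ : Type*} (s : Finset κ) {f : κ → ∀ n, E n → F n} (h : ∀ k ∈ s, U1 l r (f k)) :
    U1 l r fun n y => ∑ k ∈ s, f k n y := by
  classical
  induction s using Finset.induction_on with
  | empty =>
    simp only [Finset.sum_empty]
    exact const (UB.of_le (C := 0) (Eventually.of_forall fun _ => by simp))
  | insert a s ha ih =>
    simp only [Finset.sum_insert ha]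
    exact (h a (Finset.mem_insert_self _ _)).add
      (ih fun k hk => h k (Finset.mem_insert_of_mem hk))

theorem hasFDerivAt_inverse {E F G : Type*} [NormedAddCommGroup E] [NormedSpace ℝ E]
    [NormedAddCommGroup F] [NormedSpace ℝ F] [NormedAddCommGroup G] [NormedSpace ℝ G]
    [CompleteSpace F] {A : E → F →L[ℝ] G} {A' : E →L[ℝ] F →L[ℝ] G} {y : E}
    (hA : HasFDerivAt A A' y) (hi : (A y).IsInvertible) :
    HasFDerivAt (fun z => (A z).inverse)
      (-(((ContinuousLinearMap.compL ℝ G F F).flip (A y).inverse).comp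
        ((ContinuousLinearMap.compL ℝ F G F (A y).inverse).comp A'))) y := by
  obtain ⟨e, he⟩ := hi
  have h1 : DifferentiableAt ℝ (fun z => (A z).inverse) y := by
    have := (contDiffAt_map_inverse (𝕜 := ℝ) (n := 1) e).differentiableAt (by simp)
    rw [he] at this
    exact this.comp y hA.differentiableAt
  have h2 : ∀ᶠ z in 𝓝 y, (A z).IsInvertible := by
    have := ContinuousLinearEquiv.isOpen (𝕜 := ℝ) (E := F) (F := G)
    exact hA.continuousAt.eventually (this.mem_nhds ⟨e, he⟩)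
  have h3 := h1.hasFDerivAt.clm_comp hA
  have h4 : HasFDerivAt (fun z => (A z).inverse.comp (A z)) (0 : E →L[ℝ] F →L[ℝ] F) y :=
    (hasFDerivAt_const (ContinuousLinearMap.id ℝ F) y).congr_of_eventuallyEq
      (h2.mono fun z hz => by
        obtain ⟨a, ha⟩ := hz
        change (A z).inverse.comp (A z) = _
        rw [← ha]; ext v; simp)
  have h5 := h3.unique h4
  refine h1.hasFDerivAt.congr_fderiv ?_
  ext v w
  have h6 := congrArg (fun T : E →L[ℝ] F →L[ℝ] F => T v (e.symm w)) h5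
  simp only [← he] at h6 ⊢
  simpa [add_eq_zero_iff_eq_neg'] using h6

/-- uniformly invertible families -/
theorem inverse [∀ n, CompleteSpace (F n)] {A : ∀ n, E n → F n →L[ℝ] G n} (hA : U1 l r A) {K : ℝ}
    (hi : ∀ᶠ n in l, ∀ y ∈ closedBall (0 : E n) r,
      (A n y).IsInvertible ∧ ‖(A n y).inverse‖ ≤ K) : U1 l r fun n y => (A n y).inverse := by
  have h0 := hA.v.inverse hi
  refine of_has ((hA.has.and hi).mono fun n hn y hy =>
    hasFDerivAt_inverse (hn.1 y hy) (hn.2 y hy).1) h0 ?_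
  exact ((h0.clm (ub_compL G F F).flip).compL
    ((h0.clm (ub_compL F G F)).compL hA.D)).neg

/-- a fixed smooth map on a finite dimensional space -/
theorem fixed {V W : Type} [NormedAddCommGroup V] [NormedSpace ℝ V] [FiniteDimensional ℝ V]
    [NormedAddCommGroup W] [NormedSpace ℝ W] {k : V → W} {r : ℝ}
    (hk : ∀ y ∈ closedBall (0 : V) r, ContDiffAt ℝ 2 k y) :
    U1 (E := fun _ => V) (F := fun _ => W) l r fun _ => k := by
  have key : ∀ {W : Type} [NormedAddCommGroup W] [NormedSpace ℝ W] {k : V → W},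
      (∀ y ∈ closedBall (0 : V) r, ContDiffAt ℝ 1 k y) →
      U0 (E := fun _ => V) (F := fun _ => W) l r fun _ => k := by
    intro W _ _ k hk
    have := FiniteDimensional.proper_real V
    obtain ⟨C, hC⟩ := (isCompact_closedBall (0 : V) r).exists_bound_of_continuousOn
      (f := k) fun y hy => (hk y hy).continuousAt.continuousWithinAt
    obtain ⟨C', hC'⟩ := (isCompact_closedBall (0 : V) r).exists_bound_of_continuousOn
      (f := fderiv ℝ k) fun y hy =>
        ((hk y hy).fderiv_right (m := 0) (by simp)).continuousAt.continuousWithinAt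
    refine U0.of_le (C := C) (C' := C') (Eventually.of_forall fun _ => ⟨hC, fun y hy z hz => ?_⟩)
    exact (convex_closedBall (0 : V) r).norm_image_sub_le_of_norm_fderiv_le
      (fun x hx => (hk x hx).differentiableAt (by simp)) hC' hz hy
  exact ⟨Eventually.of_forall fun _ y hy => (hk y hy).differentiableAt (by simp),
    key fun y hy => (hk y hy).of_le (by norm_num),
    key fun y hy => (hk y hy).fderiv_right (m := 1) (by norm_num)⟩

/-- a fixed `C²` map near `0` -/
theorem fixed_near {V W : Type} [NormedAddCommGroup V] [NormedSpace ℝ V]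
    [NormedAddCommGroup W] [NormedSpace ℝ W] {k : V → W} (hk : ContDiffAt ℝ 2 k 0) :
    ∃ r, 0 < r ∧ U1 (E := fun _ => V) (F := fun _ => W) l r fun _ => k := by
  have key : ∀ {W : Type} [NormedAddCommGroup W] [NormedSpace ℝ W] {k : V → W},
      ContDiffAt ℝ 1 k 0 → ∃ r, 0 < r ∧ (∀ y ∈ closedBall (0 : V) r, DifferentiableAt ℝ k y) ∧
      U0 (E := fun _ => V) (F := fun _ => W) l r fun _ => k := by
    intro W _ _ k hk
    have h1 : ∀ᶠ y in 𝓝 (0 : V), DifferentiableAt ℝ k y :=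
      (hk.eventually (by simp)).mono fun y hy => hy.differentiableAt (by simp)
    have h2 : ∀ᶠ y in 𝓝 (0 : V), ‖k y‖ ≤ ‖k 0‖ + 1 :=
      (hk.continuousAt.norm.eventually (ge_mem_nhds (lt_add_one _)))
    have h3 : ∀ᶠ y in 𝓝 (0 : V), ‖fderiv ℝ k y‖ ≤ ‖fderiv ℝ k 0‖ + 1 :=
      ((hk.fderiv_right (m := 0) (by simp)).continuousAt.norm.eventually
        (ge_mem_nhds (lt_add_one _)))
    obtain ⟨r, hr, h⟩ := nhds_basis_closedBall.eventually_iff.1 ((h1.and h2).and h3)
    refine ⟨r, hr, fun y hy => (h hy).1.1, U0.of_le (C := ‖k 0‖ + 1)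
      (C' := ‖fderiv ℝ k 0‖ + 1) (Eventually.of_forall fun _ =>
        ⟨fun y hy => (h hy).1.2, fun y hy z hz => ?_⟩)⟩
    exact (convex_closedBall (0 : V) r).norm_image_sub_le_of_norm_fderiv_le
      (fun x hx => (h hx).1.1) (fun x hx => (h hx).2) hz hy
  obtain ⟨r, hr, h1, h2⟩ := key (hk.of_le (by norm_num))
  obtain ⟨r', hr', -, h3⟩ := key (hk.fderiv_right (m := 1) (by norm_num))
  exact ⟨min r r', lt_min hr hr', Eventually.of_forall fun _ y hy =>
    h1 y (closedBall_subset_closedBall (min_le_left _ _) hy), h2.mono (min_le_left _ _),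
    h3.mono (min_le_right _ _)⟩

/-- **Uniform smallness of the values gives smallness of the derivative.** -/
theorem small (h : U1 l r f) (hr : 0 < r)
    (hs : ∀ ε > 0, ∀ᶠ n in l, ∀ y ∈ closedBall (0 : E n) r, ‖f n y‖ ≤ ε) :
    U00 l fun n => fderiv ℝ (f n) 0 := by
  obtain ⟨C, hC, hD⟩ := h.D
  refine tendsto_order.2 ⟨fun a ha => Eventually.of_forall fun n => ha.trans_le (norm_nonneg _),
    fun a ha => ?_⟩
  set ρ := min r (a / (4 * (C + 1))) with hρ
  have hρ0 : 0 < ρ := lt_min hr (by positivity)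
  have hρ1 : C * ρ ≤ a / 4 := by
    refine (mul_le_mul_of_nonneg_left (min_le_right _ _) hC).trans ?_
    rw [mul_div_assoc', div_le_div_iff₀ (by positivity) (by positivity)]; nlinarith
  have hs' := hs (a * ρ / 8) (by positivity)
  filter_upwards [hs', hD, h.has] with n h1 h2 h3
  have hb := closedBall_subset_closedBall (x := (0 : E n)) (min_le_left r (a / (4 * (C + 1))))
  have := landau (f := f n) hρ0 hC (fun y hy => h3 y (hb hy)) (fun y hy => by
    simpa using h2.2 y (hb hy) 0 (mem_closedBall_self hr.le)) fun y hy => h1 y (hb hy)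
  have e : 2 * (a * ρ / 8) / ρ = a / 4 := by field_simp; norm_num
  rw [e] at this
  linarith

end U1

end Crest.Agent.X212.Rf65
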